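import Vale.Agent.P028.ErdosVaaler.Hits

/-!
Admissible pairs carrying a pair of multipliers, and the spacing of their hits.
-/

namespace Vale.Agent.P028.LogExtra

open Finset Vale.Agent.P028.ErdosVaaler

noncomputable section

open scoped Classical

/-- The parameters: shift, scale, saving factor and exponent, spacing cap and cofactor cap. -/
structure Par where
  γ : ℝ
  y : ℝ
  Lam : ℝ
  θ : ℝ
  W : ℕ
  T : ℕ

/-- No hit of the form `P m - Q n` with both coordinates below `j`. -/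
def Good (π : Par) (P Q j : ℕ) : Prop :=
  ∀ m n : ℤ, |m| < j → |n| < j → (P : ℤ) * m ≠ Q * n →
    ¬ Hit π.γ (2 * π.y) (((P : ℤ) * m - Q * n : ℤ) : ℝ)

/-- The spacing of the hits, capped at `W`. -/
def Z (π : Par) (P Q : ℕ) : ℕ := Nat.findGreatest (Good π P Q) π.W

/-- The saving attached to a pair of multipliers. -/
def Phi (π : Par) (P Q : ℕ) : ℝ := (π.Lam / Z π P Q) ^ π.θ

/-- The weighted mass of one vertex. -/
def mu (f : ℕ → ℝ) (v : ℕ) : ℝ := (v.totient : ℝ) / v * f v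

/-- The admissible pairs. -/
def Adm (π : Par) (P Q : ℕ) (f h : ℕ → ℝ) (e : ℕ × ℕ) : Prop :=
  (e.2 : ℝ) * f e.1 + e.1 * h e.2 ≤ π.y * (e.1.gcd e.2 : ℝ) ∧
    P * (e.2 / e.1.gcd e.2) ≠ Q * (e.1 / e.1.gcd e.2) ∧
    e.2 / e.1.gcd e.2 ≤ π.T ∧ e.1 / e.1.gcd e.2 ≤ π.T ∧
    Hit π.γ π.y
      ((((P * (e.2 / e.1.gcd e.2) : ℕ) : ℤ) - (Q * (e.1 / e.1.gcd e.2) : ℕ) : ℤ) : ℝ)

/-- The admissible pairs inside `V × W`. -/
def pairs (π : Par) (P Q : ℕ) (f h : ℕ → ℝ) (V W : Finset ℕ) : Finset (ℕ × ℕ) :=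
  (V ×ˢ W).filter (Adm π P Q f h)

/-- The weighted number of admissible pairs. -/
def Lsum (π : Par) (P Q : ℕ) (f h : ℕ → ℝ) (V W : Finset ℕ) : ℝ :=
  ∑ e ∈ pairs π P Q f h V W, mu f e.1 * mu h e.2

variable {π : Par} {P Q p : ℕ}

lemma mu_nonneg {f : ℕ → ℝ} {v : ℕ} (h : 0 ≤ f v) : 0 ≤ mu f v :=
  mul_nonneg (by positivity) h

lemma good_one : Good π P Q 1 := by
  intro m n hm hn hne
  rw [Nat.cast_one, Int.abs_lt_one_iff] at hm hn
  simp [hm, hn] at hne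

lemma good_Z (hW : 1 ≤ π.W) : Good π P Q (Z π P Q) := Nat.findGreatest_spec hW good_one

lemma one_le_Z (hW : 1 ≤ π.W) : 1 ≤ Z π P Q := Nat.le_findGreatest hW good_one

lemma Z_le_W : Z π P Q ≤ π.W := Nat.findGreatest_le _

lemma exists_hit_of_Z_lt (h : Z π P Q < π.W) :
    ∃ m n : ℤ, |m| ≤ Z π P Q ∧ |n| ≤ Z π P Q ∧ (P : ℤ) * m ≠ Q * n ∧
      Hit π.γ (2 * π.y) (((P : ℤ) * m - Q * n : ℤ) : ℝ) := by
  have hng : ¬ Good π P Q (Z π P Q + 1) :=
    Nat.findGreatest_is_greatest (Nat.lt_succ_self _) h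
  simp only [Good, not_forall, not_not] at hng
  obtain ⟨m, n, hm, hn, hne, hit⟩ := hng
  push_cast at hm hn
  exact ⟨m, n, by omega, by omega, hne, hit⟩

lemma good_swap {j : ℕ} (h : Good π P Q j) : Good π Q P j := by
  intro m n hm hn hne hit
  refine h n m hn hm hne.symm ?_
  have := hit.neg
  rw [← Int.cast_neg, neg_sub] at this
  exact this

lemma Z_comm : Z π P Q = Z π Q P := by
  refine le_antisymm ?_ ?_ <;>
  · unfold Z
    exact Nat.findGreatest_mono (fun j hj => good_swap hj) le_rfl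

lemma Phi_comm : Phi π P Q = Phi π Q P := by rw [Phi, Z_comm, ← Phi]

/-- Multiplying one multiplier by `u` divides the spacing by at most `u`. -/
lemma Z_le_mul (hW : 1 ≤ π.W) {u : ℕ} (hu : 0 < u) : Z π P Q ≤ u * Z π (u * P) Q := by
  by_contra h
  push Not at h
  generalize hz : Z π (u * P) Q = z at h
  have hz1 : z ≤ u * z := Nat.le_mul_of_pos_left _ hu
  have hlt : Z π (u * P) Q < π.W := hz ▸ lt_of_le_of_lt hz1 (h.trans_le Z_le_W)
  obtain ⟨m, n, hm, hn, hne, hit⟩ := exists_hit_of_Z_lt hlt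
  rw [hz] at hm hn
  have hmu : |(u : ℤ) * m| ≤ (u : ℤ) * z := by
    rw [abs_mul, abs_of_nonneg (Int.natCast_nonneg u)]
    exact mul_le_mul_of_nonneg_left hm (Int.natCast_nonneg u)
  have hZ : ((u * z : ℕ) : ℤ) < (Z π P Q : ℤ) := by exact_mod_cast h
  have hz2 : (z : ℤ) ≤ ((u * z : ℕ) : ℤ) := by exact_mod_cast hz1
  push_cast at hne hit hZ hz2
  refine good_Z (P := P) (Q := Q) hW ((u : ℤ) * m) n (by omega) (by omega) ?_ ?_
  · intro heq
    apply hne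
    linarith [heq]
  · convert hit using 2
    push_cast
    ring

/-- Small multipliers have maximal spacing. -/
lemma Z_eq_W (hflat : ∀ k : ℤ, k ≠ 0 → |k| < 32 * (π.W : ℤ) ^ 5 → ¬ Hit π.γ (2 * π.y) (k : ℝ))
    (hsmall : 2 * max P Q * π.W ≤ 32 * π.W ^ 5) : Z π P Q = π.W := by
  refine le_antisymm Z_le_W (Nat.le_findGreatest le_rfl ?_)
  intro m n hm hn hne
  refine hflat _ (sub_ne_zero.2 hne) ?_
  have h1 : (max P Q : ℤ) * (2 * π.W) ≤ 32 * (π.W : ℤ) ^ 5 := by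
    have : ((2 * max P Q * π.W : ℕ) : ℤ) ≤ ((32 * π.W ^ 5 : ℕ) : ℤ) := by exact_mod_cast hsmall
    push_cast at this
    linarith
  have hP : |(P : ℤ) * m| ≤ (max P Q : ℤ) * |m| := by
    rw [abs_mul, abs_of_nonneg (Int.natCast_nonneg P)]
    exact mul_le_mul_of_nonneg_right (le_max_left _ _) (abs_nonneg _)
  have hQ : |(Q : ℤ) * n| ≤ (max P Q : ℤ) * |n| := by
    rw [abs_mul, abs_of_nonneg (Int.natCast_nonneg Q)]
    exact mul_le_mul_of_nonneg_right (le_max_right _ _) (abs_nonneg _)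
  have h0 : (0 : ℤ) ≤ (max P Q : ℤ) := le_trans (Int.natCast_nonneg P) (le_max_left _ _)
  rcases h0.eq_or_lt with h00 | h00
  · exfalso
    have hP0 : (P : ℤ) = 0 :=
      le_antisymm (h00 ▸ le_max_left _ _) (Int.natCast_nonneg P)
    have hQ0 : (Q : ℤ) = 0 :=
      le_antisymm (h00 ▸ le_max_right _ _) (Int.natCast_nonneg Q)
    simp [hP0, hQ0] at hne
  have h3 := mul_lt_mul_of_pos_left hm h00
  have h4 := mul_lt_mul_of_pos_left hn h00
  have h5 := abs_sub ((P : ℤ) * m) ((Q : ℤ) * n)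
  linarith

lemma Phi_pos (hW : 1 ≤ π.W) (hL : 0 < π.Lam) : 0 < Phi π P Q :=
  Real.rpow_pos_of_pos (div_pos hL (Nat.cast_pos.2 (one_le_Z hW))) _

/-- How the saving changes with the multipliers. -/
lemma Phi_le_of_Z (hW : 1 ≤ π.W) (hL : 0 < π.Lam) (hθ : 0 ≤ π.θ) {P' Q' : ℕ} {lam : ℝ}
    (hlam : 0 ≤ lam) (h : (Z π P Q : ℝ) ≤ lam * Z π P' Q') :
    Phi π P' Q' ≤ lam ^ π.θ * Phi π P Q := by
  unfold Phi
  have hz : (0 : ℝ) < Z π P Q := Nat.cast_pos.2 (one_le_Z hW)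
  have hz' : (0 : ℝ) < Z π P' Q' := Nat.cast_pos.2 (one_le_Z hW)
  rw [← Real.mul_rpow hlam (div_nonneg hL.le hz.le)]
  refine Real.rpow_le_rpow (div_nonneg hL.le hz'.le) ?_ hθ
  rw [mul_div_assoc', div_le_div_iff₀ hz' hz]
  nlinarith

end

end Vale.Agent.P028.LogExtra
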