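import Vale.Agent.P028.LogExtra.Terminal

/-!
Removing one prime: each cell of exponents is an instance with fewer primes.
-/

namespace Vale.Agent.P028.LogExtra

open Finset Vale.Agent.P028.ErdosVaaler

noncomputable section

open scoped Classical

/-- The child weights at exponent `i`, raised by `p ^ d`. -/
def lift (p i d : ℕ) (f : ℕ → ℝ) : ℕ → ℝ := fun v => (p : ℝ) ^ d * f (p ^ i * v)

/-- The local density `φ(p ^ i) / p ^ i`. -/
def rhoP (p i : ℕ) : ℝ := ((p ^ i).totient : ℝ) / ((p ^ i : ℕ) : ℝ)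

/-- The integers of `V` with exponent `i` at `p`. -/
def lev (p i : ℕ) (V : Finset ℕ) : Finset ℕ := V.filter (fun v => v.factorization p = i)

/-- The reduced integers of one exponent. -/
def red (p i : ℕ) (V : Finset ℕ) : Finset ℕ := (lev p i V).image (· / p ^ i)

variable {p : ℕ}

lemma rhoP_pos (hp : p.Prime) (i : ℕ) : 0 < rhoP p i :=
  div_pos (Nat.cast_pos.2 (Nat.totient_pos.2 (pow_pos hp.pos i)))
    (Nat.cast_pos.2 (pow_pos hp.pos i))

lemma rhoP_le_one (p i : ℕ) : rhoP p i ≤ 1 :=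
  div_le_one_of_le₀ (Nat.cast_le.2 (Nat.totient_le _)) (Nat.cast_nonneg _)

lemma pow_mul_div (hp : p.Prime) {i v : ℕ} (hi : v.factorization p = i) :
    p ^ i * (v / p ^ i) = v ∧ (0 < v → 0 < v / p ^ i ∧ Nat.Coprime (p ^ i) (v / p ^ i) ∧
      (v / p ^ i).factorization p = 0) := by
  subst hi
  refine ⟨Nat.ordProj_mul_ordCompl_eq_self v p, fun hv => ⟨Nat.ordCompl_pos p hv.ne', ?_, ?_⟩⟩
  · exact (Nat.coprime_ordCompl hp hv.ne').pow_left _
  · exact Nat.factorization_eq_zero_of_not_dvd (Nat.not_dvd_ordCompl hp hv.ne')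

lemma mu_lift (hp : p.Prime) {i d v : ℕ} (hv : 0 < v) (hi : v.factorization p = i) (f : ℕ → ℝ) :
    mu f v = rhoP p i / (p : ℝ) ^ d * mu (lift p i d f) (v / p ^ i) := by
  obtain ⟨e1, h2⟩ := pow_mul_div hp hi
  obtain ⟨hv', hco, -⟩ := h2 hv
  set v' := v / p ^ i with hv'def
  have hpR : (0 : ℝ) < (p : ℝ) := Nat.cast_pos.2 hp.pos
  have hv'R : (0 : ℝ) < (v' : ℝ) := Nat.cast_pos.2 hv'
  unfold mu lift rhoP
  conv_lhs => rw [← e1, Nat.totient_mul hco]
  push_cast
  field_simp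

lemma gcd_pow_mul (hp : p.Prime) {i j v w : ℕ} (hv : 0 < v) (hw : 0 < w)
    (hi : v.factorization p = 0) (hj : w.factorization p = 0) :
    (p ^ i * v).gcd (p ^ j * w) = p ^ min i j * v.gcd w := by
  have h1 : p ^ i * v ≠ 0 := mul_ne_zero (pow_ne_zero _ hp.ne_zero) hv.ne'
  have h2 : p ^ j * w ≠ 0 := mul_ne_zero (pow_ne_zero _ hp.ne_zero) hw.ne'
  have h3 : v.gcd w ≠ 0 := (Nat.gcd_pos_of_pos_left _ hv).ne'
  refine Nat.eq_of_factorization_eq (Nat.gcd_pos_of_pos_left _ (Nat.pos_of_ne_zero h1)).ne'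
    (mul_ne_zero (pow_ne_zero _ hp.ne_zero) h3) fun q => ?_
  rw [Nat.factorization_gcd h1 h2, Nat.factorization_mul (pow_ne_zero _ hp.ne_zero) h3,
    Nat.factorization_mul (pow_ne_zero _ hp.ne_zero) hv.ne',
    Nat.factorization_mul (pow_ne_zero _ hp.ne_zero) hw.ne', Nat.factorization_gcd hv.ne' hw.ne',
    hp.factorization_pow, hp.factorization_pow, hp.factorization_pow]
  simp only [Finsupp.coe_add, Pi.add_apply, Finsupp.inf_apply, Finsupp.single_apply]
  by_cases hq : p = q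
  · subst hq
    simp only [if_pos, hi, hj]
    omega
  · simp only [if_neg hq]
    omega

variable {π : Par} {P Q : ℕ} {f h : ℕ → ℝ}

lemma adm_child (hp : p.Prime) {i j v w : ℕ} (hv : 0 < v) (hw : 0 < w)
    (hi : v.factorization p = i) (hj : w.factorization p = j) (hA : Adm π P Q f h (v, w)) :
    Adm π (P * p ^ (j - i)) (Q * p ^ (i - j)) (lift p i (j - i) f) (lift p j (i - j) h)
      (v / p ^ i, w / p ^ j) := by
  obtain ⟨ev, hv2⟩ := pow_mul_div hp hi
  obtain ⟨ew, hw2⟩ := pow_mul_div hp hj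
  obtain ⟨hv', -, hv0⟩ := hv2 hv
  obtain ⟨hw', -, hw0⟩ := hw2 hw
  set v' := v / p ^ i with hv'def
  set w' := w / p ^ j with hw'def
  obtain ⟨hle, hne, hc1, hc2, hit⟩ := hA
  simp only at hle hne hc1 hc2 hit
  have hg : v.gcd w = p ^ min i j * v'.gcd w' := by
    conv_lhs => rw [← ev, ← ew]
    exact gcd_pow_mul hp hv' hw' hv0 hw0
  have hg' : 0 < v'.gcd w' := Nat.gcd_pos_of_pos_left _ hv'
  have ei : i = min i j + (i - j) := by omega
  have ej : j = min i j + (j - i) := by omega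
  have q1 : w / v.gcd w = p ^ (j - i) * (w' / v'.gcd w') := by
    have h1 : w = p ^ min i j * (p ^ (j - i) * w') := by
      rw [← mul_assoc, ← pow_add, ← ej, ew]
    rw [hg, h1, Nat.mul_div_mul_left _ _ (pow_pos hp.pos _),
      Nat.mul_div_assoc _ (Nat.gcd_dvd_right v' w')]
  have q2 : v / v.gcd w = p ^ (i - j) * (v' / v'.gcd w') := by
    have h1 : v = p ^ min i j * (p ^ (i - j) * v') := by
      rw [← mul_assoc, ← pow_add, ← ei, ev]
    rw [hg, h1, Nat.mul_div_mul_left _ _ (pow_pos hp.pos _),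
      Nat.mul_div_assoc _ (Nat.gcd_dvd_left v' w')]
  rw [q1, q2, ← mul_assoc, ← mul_assoc] at hne hit
  refine ⟨?_, hne, ?_, ?_, hit⟩
  · simp only
    have hpm : (0 : ℝ) < (p : ℝ) ^ min i j := pow_pos (Nat.cast_pos.2 hp.pos) _
    have hvR : (v : ℝ) = (p : ℝ) ^ i * (v' : ℝ) := by rw [← ev]; push_cast; ring
    have hwR : (w : ℝ) = (p : ℝ) ^ j * (w' : ℝ) := by rw [← ew]; push_cast; ring
    have hgR : (v.gcd w : ℝ) = (p : ℝ) ^ min i j * (v'.gcd w' : ℕ) := by rw [hg]; push_cast; ring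
    have hpi : (p : ℝ) ^ i = (p : ℝ) ^ min i j * (p : ℝ) ^ (i - j) := by rw [← pow_add, ← ei]
    have hpj : (p : ℝ) ^ j = (p : ℝ) ^ min i j * (p : ℝ) ^ (j - i) := by rw [← pow_add, ← ej]
    rw [hvR, hwR, hgR, hpi, hpj] at hle
    refine le_of_mul_le_mul_left ?_ hpm
    simp only [lift, ev, ew]
    linarith
  · simp only
    rw [q1] at hc1
    exact le_trans (Nat.le_mul_of_pos_left _ (pow_pos hp.pos _)) hc1
  · simp only
    rw [q2] at hc2
    exact le_trans (Nat.le_mul_of_pos_left _ (pow_pos hp.pos _)) hc2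

lemma mem_red {V : Finset ℕ} {i x : ℕ} (hx : x ∈ red p i V) :
    ∃ v ∈ V, v.factorization p = i ∧ x = v / p ^ i := by
  obtain ⟨v, hv, rfl⟩ := Finset.mem_image.1 hx
  obtain ⟨h1, h2⟩ := Finset.mem_filter.1 hv
  exact ⟨v, h1, h2, rfl⟩

lemma injOn_red {V : Finset ℕ} (hp : p.Prime) (i : ℕ) :
    Set.InjOn (· / p ^ i) (lev p i V : Set ℕ) := by
  intro x hx y hy hxy
  have hx' := (pow_mul_div hp (Finset.mem_filter.1 hx).2).1
  have hy' := (pow_mul_div hp (Finset.mem_filter.1 hy).2).1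
  have hxy' : x / p ^ i = y / p ^ i := hxy
  rw [← hx', hxy', hy']

lemma sum_mu_red (hp : p.Prime) {V : Finset ℕ} (hV : ∀ v ∈ V, 0 < v) (i d : ℕ) (f : ℕ → ℝ) :
    ∑ x ∈ red p i V, mu (lift p i d f) x = (p : ℝ) ^ d / rhoP p i * ∑ v ∈ lev p i V, mu f v := by
  rw [red, sum_image (injOn_red hp i), mul_sum]
  refine sum_congr rfl fun v hv => ?_
  obtain ⟨hvV, hvi⟩ := Finset.mem_filter.1 hv
  rw [mu_lift hp (hV v hvV) hvi f (d := d)]
  have h1 := rhoP_pos hp i
  have h2 : (0 : ℝ) < (p : ℝ) ^ d := pow_pos (Nat.cast_pos.2 hp.pos) _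
  field_simp

lemma cell_le (hp : p.Prime) {V U : Finset ℕ} (hV : ∀ v ∈ V, 0 < v ∧ 0 ≤ f v)
    (hU : ∀ w ∈ U, 0 < w ∧ 0 ≤ h w) (i j : ℕ) :
    ∑ e ∈ (pairs π P Q f h V U).filter
        (fun e => e.1.factorization p = i ∧ e.2.factorization p = j), mu f e.1 * mu h e.2
      ≤ rhoP p i * rhoP p j / ((p : ℝ) ^ (j - i) * (p : ℝ) ^ (i - j)) *
        Lsum π (P * p ^ (j - i)) (Q * p ^ (i - j)) (lift p i (j - i) f) (lift p j (i - j) h)
          (red p i V) (red p j U) := by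
  set E := (pairs π P Q f h V U).filter
    (fun e => e.1.factorization p = i ∧ e.2.factorization p = j) with hE
  set f' := lift p i (j - i) f with hf'
  set h' := lift p j (i - j) h with hh'
  set ι : ℕ × ℕ → ℕ × ℕ := fun e => (e.1 / p ^ i, e.2 / p ^ j) with hι
  have hmem : ∀ e ∈ E, e.1 ∈ V ∧ e.2 ∈ U ∧ e.1.factorization p = i ∧ e.2.factorization p = j ∧
      Adm π P Q f h e := by
    intro e he
    obtain ⟨he1, he2, he3⟩ := Finset.mem_filter.1 he
    obtain ⟨he4, he5⟩ := Finset.mem_filter.1 he1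
    exact ⟨(Finset.mem_product.1 he4).1, (Finset.mem_product.1 he4).2, he2, he3, he5⟩
  have hinj : Set.InjOn ι (E : Set (ℕ × ℕ)) := by
    intro x hx y hy hxy
    obtain ⟨h1, h2⟩ := Prod.ext_iff.1 hxy
    obtain ⟨-, -, x3, x4, -⟩ := hmem x hx
    obtain ⟨-, -, y3, y4, -⟩ := hmem y hy
    simp only [hι] at h1 h2
    refine Prod.ext ?_ ?_
    · rw [← (pow_mul_div hp x3).1, h1, (pow_mul_div hp y3).1]
    · rw [← (pow_mul_div hp x4).1, h2, (pow_mul_div hp y4).1]
  have hC : 0 ≤ rhoP p i * rhoP p j / ((p : ℝ) ^ (j - i) * (p : ℝ) ^ (i - j)) :=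
    div_nonneg (mul_nonneg (rhoP_pos hp i).le (rhoP_pos hp j).le) (by positivity)
  calc ∑ e ∈ E, mu f e.1 * mu h e.2
      = ∑ x ∈ E.image ι, rhoP p i * rhoP p j / ((p : ℝ) ^ (j - i) * (p : ℝ) ^ (i - j))
          * (mu f' x.1 * mu h' x.2) := by
        rw [sum_image hinj]
        refine sum_congr rfl fun e he => ?_
        obtain ⟨h1, h2, h3, h4, -⟩ := hmem e he
        rw [mu_lift hp (hV _ h1).1 h3 f (d := j - i), mu_lift hp (hU _ h2).1 h4 h (d := i - j)]
        simp only [hι, hf', hh']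
        ring
    _ ≤ _ := by
        rw [← mul_sum]
        refine mul_le_mul_of_nonneg_left (sum_le_sum_of_subset_of_nonneg (fun x hx => ?_) ?_) hC
        · obtain ⟨e, he, rfl⟩ := Finset.mem_image.1 hx
          obtain ⟨h1, h2, h3, h4, h5⟩ := hmem e he
          refine Finset.mem_filter.2 ⟨Finset.mem_product.2
            ⟨Finset.mem_image_of_mem _ (Finset.mem_filter.2 ⟨h1, h3⟩),
              Finset.mem_image_of_mem _ (Finset.mem_filter.2 ⟨h2, h4⟩)⟩, ?_⟩
          exact adm_child hp (hV _ h1).1 (hU _ h2).1 h3 h4 h5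
        · intro x hx _
          obtain ⟨v, hv, hvi, e1⟩ := mem_red (Finset.mem_product.1 (Finset.mem_filter.1 hx).1).1
          obtain ⟨w, hw, hwj, e2⟩ := mem_red (Finset.mem_product.1 (Finset.mem_filter.1 hx).1).2
          rw [e1, e2]
          refine mul_nonneg (mu_nonneg ?_) (mu_nonneg ?_)
          · simp only [hf', lift, (pow_mul_div hp hvi).1]
            exact mul_nonneg (by positivity) (hV v hv).2
          · simp only [hh', lift, (pow_mul_div hp hwj).1]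
            exact mul_nonneg (by positivity) (hU w hw).2

/-- The standing hypotheses on one side. -/
def SideOK (S : Finset ℕ) (f : ℕ → ℝ) (V : Finset ℕ) : Prop :=
  ∀ v ∈ V, 0 < v ∧ 0 ≤ f v ∧ v.primeFactors ⊆ S

lemma SideOK.red {S V : Finset ℕ} (hp : p.Prime) (hV : SideOK S f V) (i d : ℕ) :
    SideOK (S.erase p) (lift p i d f) (red p i V) := by
  intro x hx
  obtain ⟨v, hv, hvi, rfl⟩ := mem_red hx
  obtain ⟨hv0, hf0, hsupp⟩ := hV v hv
  obtain ⟨e1, h2⟩ := pow_mul_div hp hvi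
  obtain ⟨h3, -, h4⟩ := h2 hv0
  refine ⟨h3, ?_, fun q hq => Finset.mem_erase.2 ⟨?_, hsupp ?_⟩⟩
  · simp only [lift, e1]
    exact mul_nonneg (by positivity) hf0
  · intro hqp
    subst hqp
    rw [← Nat.support_factorization, Finsupp.mem_support_iff] at hq
    exact hq h4
  · exact Nat.primeFactors_mono (Dvd.intro_left _ e1) hv0.ne' hq

lemma SideOK.sum_nonneg {S V : Finset ℕ} (hV : SideOK S f V) : 0 ≤ ∑ v ∈ V, mu f v :=
  Finset.sum_nonneg fun v hv => mu_nonneg (hV v hv).2.1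

end

end Vale.Agent.P028.LogExtra
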