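import Mathlib

/-!
The one-prime inequality behind the bilinear bound: a kernel which is at most one on the
diagonal and small off it, against two probability vectors raised to the power `1 / 2 + ε`.
-/

namespace Vale.Agent.P028.LogExtra

open Finset

noncomputable section

variable {N : ℕ}

lemma am_gm_rpow {a b s : ℝ} (ha : 0 ≤ a) (hb : 0 ≤ b) :
    a ^ s * b ^ s ≤ ((a ^ s) ^ 2 + (b ^ s) ^ 2) / 2 := by
  nlinarith [sq_nonneg (a ^ s - b ^ s)]

lemma rpow_sq_eq {a ε : ℝ} (ha : 0 ≤ a) (hε : 0 < ε) :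
    (a ^ (1 / 2 + ε)) ^ 2 = a * a ^ (2 * ε) := by
  rw [← Real.rpow_natCast, ← Real.rpow_mul ha,
    show (1 / 2 + ε) * ((2 : ℕ) : ℝ) = 1 + 2 * ε by push_cast; ring,
    Real.rpow_add' ha (by linarith), Real.rpow_one]

lemma rpow_sq_le {a x ε : ℝ} (ha : 0 ≤ a) (hax : a ≤ x) (hε : 0 < ε) :
    (a ^ (1 / 2 + ε)) ^ 2 ≤ a * x ^ (2 * ε) := by
  rw [rpow_sq_eq ha hε]
  exact mul_le_mul_of_nonneg_left (Real.rpow_le_rpow ha hax (by linarith)) ha

lemma sum_sq_le {S : Finset ℕ} {a : ℕ → ℝ} {x ε : ℝ} (ha : ∀ i ∈ S, 0 ≤ a i)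
    (hx : ∑ i ∈ S, a i ≤ x) (hε : 0 < ε) :
    ∑ i ∈ S, (a i ^ (1 / 2 + ε)) ^ 2 ≤ (x ^ (1 / 2 + ε)) ^ 2 := by
  have hx0 : 0 ≤ x := (sum_nonneg ha).trans hx
  calc ∑ i ∈ S, (a i ^ (1 / 2 + ε)) ^ 2 ≤ ∑ i ∈ S, a i * x ^ (2 * ε) :=
        sum_le_sum fun i hi => rpow_sq_le (ha i hi) ((single_le_sum ha hi).trans hx) hε
    _ = (∑ i ∈ S, a i) * x ^ (2 * ε) := by rw [sum_mul]
    _ ≤ x * x ^ (2 * ε) := mul_le_mul_of_nonneg_right hx (Real.rpow_nonneg hx0 _)
    _ = _ := (rpow_sq_eq hx0 hε).symm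

/-- The gap constant on the diagonal. -/
def gap (ε : ℝ) : ℝ := min ε ((1 - (1 / 2 : ℝ) ^ ε) / 2)

lemma gap_pos {ε : ℝ} (hε : 0 < ε) : 0 < gap ε := by
  refine lt_min hε (div_pos ?_ two_pos)
  have : (1 / 2 : ℝ) ^ ε < 1 := Real.rpow_lt_one (by norm_num) (by norm_num) hε
  linarith

lemma gap_le {ε : ℝ} : gap ε ≤ ε := min_le_left _ _

/-- The sum of the entries off the diagonal, all indices different from `k`. -/
lemma off_both_le {S : Finset ℕ} {a b : ℕ → ℝ} {x z ε G : ℝ} {c : ℕ → ℕ → ℝ}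
    (hε : 0 < ε) (hε' : ε ≤ 1 / 2)
    (ha : ∀ i ∈ S, 0 ≤ a i) (hb : ∀ i ∈ S, 0 ≤ b i)
    (hx : ∑ i ∈ S, a i ≤ x) (hz : ∑ i ∈ S, b i ≤ z)
    (hc0 : ∀ i ∈ S, ∀ j ∈ S, 0 ≤ c i j)
    (hr : ∀ i ∈ S, ∑ j ∈ S, c i j ≤ G) (hl : ∀ j ∈ S, ∑ i ∈ S, c i j ≤ G) (hG : 0 ≤ G) :
    ∑ i ∈ S, ∑ j ∈ S, c i j * (a i ^ (1 / 2 + ε) * b j ^ (1 / 2 + ε))
      ≤ G * ((x + z) ^ (1 / 2 + ε)) ^ 2 := by
  set s : ℝ := 1 / 2 + ε with hs
  have hx0 : 0 ≤ x := (sum_nonneg ha).trans hx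
  have hz0 : 0 ≤ z := (sum_nonneg hb).trans hz
  have hA := sum_sq_le ha hx hε
  have hB := sum_sq_le hb hz hε
  rw [← hs] at hA hB
  have hxm : (x ^ s) ^ 2 ≤ ((x + z) ^ s) ^ 2 :=
    pow_le_pow_left₀ (Real.rpow_nonneg hx0 _) (Real.rpow_le_rpow hx0 (by linarith) (by linarith)) 2
  have hzm : (z ^ s) ^ 2 ≤ ((x + z) ^ s) ^ 2 :=
    pow_le_pow_left₀ (Real.rpow_nonneg hz0 _) (Real.rpow_le_rpow hz0 (by linarith) (by linarith)) 2
  calc ∑ i ∈ S, ∑ j ∈ S, c i j * (a i ^ s * b j ^ s)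
      ≤ ∑ i ∈ S, ∑ j ∈ S, c i j * (((a i ^ s) ^ 2 + (b j ^ s) ^ 2) / 2) :=
        sum_le_sum fun i hi => sum_le_sum fun j hj =>
          mul_le_mul_of_nonneg_left (am_gm_rpow (ha i hi) (hb j hj)) (hc0 i hi j hj)
    _ = (∑ i ∈ S, (∑ j ∈ S, c i j) * (a i ^ s) ^ 2) / 2
        + (∑ j ∈ S, (∑ i ∈ S, c i j) * (b j ^ s) ^ 2) / 2 := by
        simp only [sum_mul, sum_div]
        rw [sum_comm (f := fun j i => c i j * (b j ^ s) ^ 2 / 2), ← sum_add_distrib]
        refine sum_congr rfl fun i _ => ?_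
        rw [← sum_add_distrib]
        exact sum_congr rfl fun j _ => by ring
    _ ≤ (∑ i ∈ S, G * (a i ^ s) ^ 2) / 2 + (∑ j ∈ S, G * (b j ^ s) ^ 2) / 2 := by
        gcongr with i hi j hj
        · exact hr i hi
        · exact hl j hj
    _ ≤ _ := by
        rw [← mul_sum, ← mul_sum]
        nlinarith [mul_le_mul_of_nonneg_left (hA.trans hxm) hG,
          mul_le_mul_of_nonneg_left (hB.trans hzm) hG]

/-- The data of the one-prime inequality. -/
structure Kernel (N : ℕ) (a b : ℕ → ℝ) (c : ℕ → ℕ → ℝ) (G : ℝ) : Prop where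
  ha : ∀ i, 0 ≤ a i
  hb : ∀ i, 0 ≤ b i
  suma : ∑ i ∈ range N, a i = 1
  sumb : ∑ i ∈ range N, b i = 1
  hc0 : ∀ i j, 0 ≤ c i j
  diag : ∀ i, c i i ≤ 1
  row : ∀ i ∈ range N, ∑ j ∈ (range N).erase i, c i j ≤ G
  col : ∀ j ∈ range N, ∑ i ∈ (range N).erase j, c i j ≤ G
  hG : 0 ≤ G

variable {a b : ℕ → ℝ} {c : ℕ → ℕ → ℝ} {G ε : ℝ}

lemma Kernel.le_one_a (K : Kernel N a b c G) {i : ℕ} (hi : i ∈ range N) : a i ≤ 1 :=
  (single_le_sum (fun j _ => K.ha j) hi).trans K.suma.le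

lemma Kernel.le_one_b (K : Kernel N a b c G) {i : ℕ} (hi : i ∈ range N) : b i ≤ 1 :=
  (single_le_sum (fun j _ => K.hb j) hi).trans K.sumb.le

lemma diag_aligned {a₀ x ε : ℝ} (hε : 0 < ε) (hε' : ε ≤ 1 / 2) (hx0 : 0 ≤ x) (hxa : x ≤ a₀)
    (h1 : a₀ + x = 1) :
    (a₀ ^ (1 / 2 + ε)) ^ 2 + (x ^ (1 / 2 + ε)) ^ 2 ≤ 1 - 2 * ε * x := by
  have ha0 : 0 ≤ a₀ := hx0.trans hxa
  have h2 := rpow_sq_le hx0 hxa hε
  rw [rpow_sq_eq ha0 hε]
  have hb := rpow_one_add_le_one_add_mul_self (s := -x) (by linarith) (p := 2 * ε) (by linarith)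
    (by linarith)
  rw [show (1 : ℝ) + -x = a₀ by linarith] at hb
  have e : a₀ * a₀ ^ (2 * ε) + x * a₀ ^ (2 * ε) = a₀ ^ (2 * ε) := by rw [← add_mul, h1, one_mul]
  linarith

/-- Some index carries all but `x + z` of the masses and the diagonal has a linear gap. -/
lemma Kernel.diag_le (K : Kernel N a b c G) (hε : 0 < ε) (hε' : ε ≤ 1 / 2) :
    ∃ k ∈ range N, ∑ i ∈ range N, a i ^ (1 / 2 + ε) * b i ^ (1 / 2 + ε)
      ≤ 1 - gap ε * ((1 - a k) + (1 - b k)) := by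
  set s : ℝ := 1 / 2 + ε with hs
  have hg := gap_pos hε
  by_cases h : ∃ k ∈ range N, 1 / 2 < a k ∧ 1 / 2 < b k
  · obtain ⟨k, hk, hak, hbk⟩ := h
    refine ⟨k, hk, ?_⟩
    have hsa := (add_sum_erase (range N) a hk).trans K.suma
    have hsb := (add_sum_erase (range N) b hk).trans K.sumb
    have hA := sum_sq_le (a := a) (fun i _ => K.ha i) (le_refl (∑ i ∈ (range N).erase k, a i)) hε
    have hB := sum_sq_le (a := b) (fun i _ => K.hb i) (le_refl (∑ i ∈ (range N).erase k, b i)) hε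
    have h3 := diag_aligned hε hε' (sum_nonneg fun i _ => K.ha i)
      (show ∑ i ∈ (range N).erase k, a i ≤ a k by linarith) hsa
    have h4 := diag_aligned hε hε' (sum_nonneg fun i _ => K.hb i)
      (show ∑ i ∈ (range N).erase k, b i ≤ b k by linarith) hsb
    rw [← hs] at hA hB h3 h4
    have hxa : 0 ≤ 1 - a k := by linarith [K.le_one_a hk]
    have hxb : 0 ≤ 1 - b k := by linarith [K.le_one_b hk]
    have hgap : gap ε * ((1 - a k) + (1 - b k)) ≤ ε * ((1 - a k) + (1 - b k)) :=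
      mul_le_mul_of_nonneg_right gap_le (by linarith)
    calc ∑ i ∈ range N, a i ^ s * b i ^ s
        ≤ ∑ i ∈ range N, ((a i ^ s) ^ 2 + (b i ^ s) ^ 2) / 2 :=
          sum_le_sum fun i _ => am_gm_rpow (K.ha i) (K.hb i)
      _ = ((a k ^ s) ^ 2 + ∑ i ∈ (range N).erase k, (a i ^ s) ^ 2) / 2
          + ((b k ^ s) ^ 2 + ∑ i ∈ (range N).erase k, (b i ^ s) ^ 2) / 2 := by
          rw [add_sum_erase _ (fun i => (a i ^ s) ^ 2) hk,
            add_sum_erase _ (fun i => (b i ^ s) ^ 2) hk, ← sum_div, sum_add_distrib, add_div]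
      _ ≤ _ := by
          rw [show ∑ i ∈ (range N).erase k, a i = 1 - a k by linarith] at h3 hA
          rw [show ∑ i ∈ (range N).erase k, b i = 1 - b k by linarith] at h4 hB
          linarith
  · push Not at h
    have hne : (range N).Nonempty := by
      by_contra h0
      rw [not_nonempty_iff_eq_empty] at h0
      have := K.suma
      rw [h0] at this
      simp at this
    obtain ⟨k, hk⟩ := hne
    refine ⟨k, hk, ?_⟩
    have hgap : gap ε * ((1 - a k) + (1 - b k)) ≤ (1 - (1 / 2 : ℝ) ^ ε) / 2 * 2 := by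
      refine mul_le_mul (min_le_right _ _) (by linarith [K.ha k, K.hb k])
        (by linarith [K.le_one_a hk, K.le_one_b hk]) ?_
      linarith [Real.rpow_le_one (show (0 : ℝ) ≤ 1 / 2 by norm_num) (by norm_num) hε.le]
    have hterm : ∀ i ∈ range N, a i ^ s * b i ^ s ≤ (1 / 2 : ℝ) ^ ε * ((a i + b i) / 2) := by
      intro i hi
      have hab : a i * b i ≤ 1 / 2 := by
        rcases le_or_gt (a i) (1 / 2) with h1 | h1
        · nlinarith [K.ha i, K.hb i, K.le_one_b hi]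
        · nlinarith [K.ha i, K.hb i, K.le_one_a hi, h i hi h1]
      have hab0 : 0 ≤ a i * b i := mul_nonneg (K.ha i) (K.hb i)
      rw [← Real.mul_rpow (K.ha i) (K.hb i), hs, Real.rpow_add' hab0 (by linarith),
        mul_comm ((a i * b i) ^ (1 / 2 : ℝ))]
      refine mul_le_mul (Real.rpow_le_rpow hab0 hab hε.le) ?_ (Real.rpow_nonneg hab0 _)
        (Real.rpow_nonneg (by norm_num) _)
      rw [← Real.sqrt_eq_rpow, Real.sqrt_le_left (by linarith [K.ha i, K.hb i])]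
      nlinarith [sq_nonneg (a i - b i)]
    calc ∑ i ∈ range N, a i ^ s * b i ^ s
        ≤ ∑ i ∈ range N, (1 / 2 : ℝ) ^ ε * ((a i + b i) / 2) := sum_le_sum hterm
      _ = (1 / 2 : ℝ) ^ ε := by
          rw [← mul_sum, ← sum_div, sum_add_distrib, K.suma, K.sumb]; ring
      _ ≤ _ := by linarith

/-- The whole kernel sum, and the part avoiding the distinguished index. -/
lemma Kernel.split (K : Kernel N a b c G) (hε : 0 < ε) (hε' : ε ≤ 1 / 2) :
    ∃ (k : ℕ) (m : ℝ), k ∈ range N ∧ 0 ≤ m ∧ m ≤ 2 ∧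
      (∑ i ∈ range N, ∑ j ∈ range N, c i j * (a i ^ (1 / 2 + ε) * b j ^ (1 / 2 + ε))
        ≤ 1 - gap ε * m + 4 * G * m ^ (1 / 2 + ε)) ∧
      (∑ i ∈ (range N).erase k, ∑ j ∈ (range N).erase k,
          c i j * (a i ^ (1 / 2 + ε) * b j ^ (1 / 2 + ε))
        ≤ (1 + G) * (m ^ (1 / 2 + ε)) ^ 2) := by
  obtain ⟨k, hk, hdiag⟩ := K.diag_le hε hε'
  set s : ℝ := 1 / 2 + ε with hs
  set S := (range N).erase k with hS
  set x := ∑ i ∈ S, a i with hxdef
  set z := ∑ i ∈ S, b i with hzdef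
  have hx : a k + x = 1 := (add_sum_erase (range N) a hk).trans K.suma
  have hz : b k + z = 1 := (add_sum_erase (range N) b hk).trans K.sumb
  have hx0 : 0 ≤ x := sum_nonneg fun i _ => K.ha i
  have hz0 : 0 ≤ z := sum_nonneg fun i _ => K.hb i
  rw [show (1 - a k) + (1 - b k) = x + z by linarith] at hdiag
  set m := x + z with hm
  have hm0 : 0 ≤ m := by positivity
  have hm2 : m ≤ 2 := by linarith [K.ha k, K.hb k]
  have hs0 : 0 ≤ s := by positivity
  have hm2s : (m ^ s) ^ 2 ≤ 2 * m ^ s := by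
    rw [sq]
    refine mul_le_mul_of_nonneg_right ?_ (Real.rpow_nonneg hm0 _)
    calc m ^ s ≤ 2 ^ s := Real.rpow_le_rpow hm0 hm2 hs0
      _ ≤ 2 ^ (1 : ℝ) := Real.rpow_le_rpow_of_exponent_le one_le_two (by linarith)
      _ = 2 := Real.rpow_one 2
  have ha1 : a k ^ s ≤ 1 := Real.rpow_le_one (K.ha k) (K.le_one_a hk) hs0
  have hb1 : b k ^ s ≤ 1 := Real.rpow_le_one (K.hb k) (K.le_one_b hk) hs0
  have hterm0 : ∀ i j, 0 ≤ c i j * (a i ^ s * b j ^ s) := fun i j =>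
    mul_nonneg (K.hc0 i j) (mul_nonneg (Real.rpow_nonneg (K.ha i) _) (Real.rpow_nonneg (K.hb j) _))
  -- both indices away from k
  have hboth : ∑ i ∈ S, ∑ j ∈ S.erase i, c i j * (a i ^ s * b j ^ s) ≤ G * (m ^ s) ^ 2 := by
    have h := off_both_le (c := fun i j => if i = j then 0 else c i j) hε hε'
      (fun i _ => K.ha i) (fun i _ => K.hb i) (le_of_eq hxdef.symm) (le_of_eq hzdef.symm)
      (fun i _ j _ => by split <;> [exact le_rfl; exact K.hc0 i j]) (G := G)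
      (fun i hi => ?_) (fun j hj => ?_) K.hG
    · refine le_trans (le_of_eq (sum_congr rfl fun i _ => ?_)) h
      rw [← sum_subset (erase_subset i S) (fun j hjS hj => ?_)]
      · refine sum_congr rfl fun j hj => ?_
        rw [if_neg (Ne.symm (ne_of_mem_erase hj))]
      · rw [mem_erase, not_and, not_imp_not] at hj
        rw [if_pos (hj hjS).symm, zero_mul]
    · have hiN : i ∈ range N := mem_of_mem_erase hi
      refine le_trans ?_ (K.row i hiN)
      rw [← sum_subset (erase_subset i S) (fun j hjS hj => ?_)]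
      · rw [sum_congr rfl fun j hj => if_neg (Ne.symm (ne_of_mem_erase hj))]
        exact sum_le_sum_of_subset_of_nonneg (erase_subset_erase i (erase_subset k _))
          fun j _ _ => K.hc0 i j
      · rw [mem_erase, not_and, not_imp_not] at hj
        rw [if_pos (hj hjS).symm]
    · have hjN : j ∈ range N := mem_of_mem_erase hj
      refine le_trans ?_ (K.col j hjN)
      rw [← sum_subset (erase_subset j S) (fun i hiS hi => ?_)]
      · rw [sum_congr rfl fun i hi => if_neg (ne_of_mem_erase hi)]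
        exact sum_le_sum_of_subset_of_nonneg (erase_subset_erase j (erase_subset k _))
          fun i _ _ => K.hc0 i j
      · rw [mem_erase, not_and, not_imp_not] at hi
        rw [if_pos (hi hiS)]
  -- row k and column k
  have hzs : ∀ j ∈ S, b j ^ s ≤ m ^ s := fun j hj => Real.rpow_le_rpow (K.hb j)
    ((single_le_sum (fun i _ => K.hb i) hj).trans (by linarith)) hs0
  have hxs : ∀ i ∈ S, a i ^ s ≤ m ^ s := fun i hi => Real.rpow_le_rpow (K.ha i)
    ((single_le_sum (fun i _ => K.ha i) hi).trans (by linarith)) hs0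
  have hrow : ∑ j ∈ S, c k j * (a k ^ s * b j ^ s) ≤ G * m ^ s := by
    refine le_trans (sum_le_sum fun j hj => mul_le_mul_of_nonneg_left
      (mul_le_mul ha1 (hzs j hj) (Real.rpow_nonneg (K.hb j) _) zero_le_one) (K.hc0 k j)) ?_
    rw [← sum_mul, one_mul]
    exact mul_le_mul_of_nonneg_right (K.row k hk) (Real.rpow_nonneg hm0 _)
  have hcol : ∑ i ∈ S, c i k * (a i ^ s * b k ^ s) ≤ G * m ^ s := by
    refine le_trans (sum_le_sum fun i hi => mul_le_mul_of_nonneg_left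
      (mul_le_mul (hxs i hi) hb1 (Real.rpow_nonneg (K.hb k) _) (Real.rpow_nonneg hm0 _))
      (K.hc0 i k)) ?_
    rw [← sum_mul, mul_one]
    exact mul_le_mul_of_nonneg_right (K.col k hk) (Real.rpow_nonneg hm0 _)
  have hd : ∀ i, c i i * (a i ^ s * b i ^ s) ≤ a i ^ s * b i ^ s := fun i =>
    mul_le_of_le_one_left (mul_nonneg (Real.rpow_nonneg (K.ha i) _) (Real.rpow_nonneg (K.hb i) _))
      (K.diag i)
  have hsplit : ∀ i ∈ S, ∑ j ∈ S, c i j * (a i ^ s * b j ^ s)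
      = c i i * (a i ^ s * b i ^ s) + ∑ j ∈ S.erase i, c i j * (a i ^ s * b j ^ s) := fun i hi =>
    (add_sum_erase S (fun j => c i j * (a i ^ s * b j ^ s)) hi).symm
  refine ⟨k, m, hk, hm0, hm2, ?_, ?_⟩
  · rw [← add_sum_erase _ _ hk,
      ← add_sum_erase (range N) (fun j => c k j * (a k ^ s * b j ^ s)) hk,
      sum_congr rfl fun i (_ : i ∈ S) =>
        (add_sum_erase (range N) (fun j => c i j * (a i ^ s * b j ^ s)) hk).symm,
      sum_add_distrib, sum_congr rfl hsplit, sum_add_distrib]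
    have hd2 : c k k * (a k ^ s * b k ^ s) + ∑ i ∈ S, c i i * (a i ^ s * b i ^ s)
        ≤ ∑ i ∈ range N, a i ^ s * b i ^ s := by
      rw [← add_sum_erase (range N) (fun i => a i ^ s * b i ^ s) hk]
      exact add_le_add (hd k) (sum_le_sum fun i _ => hd i)
    have h2 : G * (m ^ s) ^ 2 ≤ G * (2 * m ^ s) := mul_le_mul_of_nonneg_left hm2s K.hG
    linarith
  · rw [sum_congr rfl hsplit, sum_add_distrib, add_mul, one_mul]
    refine add_le_add ?_ hboth
    refine le_trans (sum_le_sum fun i _ => hd i) ?_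
    have h := off_both_le (S := S) (c := fun i j => if i = j then 1 else 0) hε hε'
      (fun i _ => K.ha i) (fun i _ => K.hb i) (le_of_eq hxdef.symm) (le_of_eq hzdef.symm)
      (fun i _ j _ => by split <;> norm_num) (G := 1)
      (fun i hi => by rw [sum_ite_eq, if_pos hi]) (fun j hj => by rw [sum_ite_eq', if_pos hj])
      zero_le_one
    rw [← hs, one_mul] at h
    refine le_trans (le_of_eq (sum_congr rfl fun i hi => ?_)) h
    rw [sum_eq_single i (fun j _ hj => by rw [if_neg (Ne.symm hj), zero_mul])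
      (fun h => absurd hi h), if_pos rfl, one_mul]

/-- Either the kernel sum is at most one or the masses off the index `k` are tiny. -/
lemma Kernel.dichotomy (K : Kernel N a b c G) (hε : 0 < ε) (hε' : ε < 1 / 2)
    (hbad : 1 < ∑ i ∈ range N, ∑ j ∈ range N, c i j * (a i ^ (1 / 2 + ε) * b j ^ (1 / 2 + ε))) :
    ∃ k ∈ range N, ∑ i ∈ (range N).erase k, ∑ j ∈ (range N).erase k,
        c i j * (a i ^ (1 / 2 + ε) * b j ^ (1 / 2 + ε))
      ≤ (1 + G) * (4 * G / gap ε) ^ ((1 + 2 * ε) / (1 / 2 - ε)) := by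
  obtain ⟨k, m, hk, hm0, -, hW, hboth⟩ := K.split hε hε'.le
  refine ⟨k, hk, hboth.trans (mul_le_mul_of_nonneg_left ?_ (by linarith [K.hG]))⟩
  have hg := gap_pos hε
  set u := m ^ (1 / 2 - ε) with hu
  have hms : m = u * m ^ (1 / 2 + ε) := by
    rw [hu, ← Real.rpow_add' hm0 (by norm_num)]
    norm_num
  have hu0 : 0 ≤ u := Real.rpow_nonneg hm0 _
  have hlt : gap ε * m < 4 * G * m ^ (1 / 2 + ε) := by linarith
  have h1 : u ≤ 4 * G / gap ε := by
    rw [le_div_iff₀ hg]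
    by_contra h
    push Not at h
    have := mul_le_mul_of_nonneg_right h.le (Real.rpow_nonneg hm0 (1 / 2 + ε))
    rw [show u * gap ε * m ^ (1 / 2 + ε) = gap ε * (u * m ^ (1 / 2 + ε)) by ring, ← hms] at this
    linarith
  calc (m ^ (1 / 2 + ε)) ^ 2 = u ^ ((1 + 2 * ε) / (1 / 2 - ε)) := by
        rw [hu, ← Real.rpow_mul hm0, mul_div_cancel₀ _ (by linarith), ← Real.rpow_natCast,
          ← Real.rpow_mul hm0]
        congr 1
        push_cast
        ring
    _ ≤ _ := Real.rpow_le_rpow hu0 h1 (div_nonneg (by linarith) (by linarith))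

/-- The kernel sum never exceeds one by more than a power of the off-diagonal mass. -/
lemma Kernel.sum_le (K : Kernel N a b c G) (hε : 0 < ε) (hε' : ε < 1 / 2) :
    ∑ i ∈ range N, ∑ j ∈ range N, c i j * (a i ^ (1 / 2 + ε) * b j ^ (1 / 2 + ε))
      ≤ 1 + 4 * G * (4 * G / gap ε) ^ ((1 / 2 + ε) / (1 / 2 - ε)) := by
  obtain ⟨k, m, -, hm0, -, hW, -⟩ := K.split hε hε'.le
  have hg := gap_pos hε
  have hG := K.hG
  refine hW.trans ?_
  set u := m ^ (1 / 2 - ε) with hu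
  have hms : m = u * m ^ (1 / 2 + ε) := by
    rw [hu, ← Real.rpow_add' hm0 (by norm_num)]
    norm_num
  have hp : 0 ≤ 4 * G * (4 * G / gap ε) ^ ((1 / 2 + ε) / (1 / 2 - ε)) :=
    mul_nonneg (by linarith) (Real.rpow_nonneg (div_nonneg (by linarith) hg.le) _)
  rcases le_or_gt u (4 * G / gap ε) with h | h
  · have h1 : m ^ (1 / 2 + ε) ≤ (4 * G / gap ε) ^ ((1 / 2 + ε) / (1 / 2 - ε)) := by
      have := Real.rpow_le_rpow (Real.rpow_nonneg hm0 _) h
        (div_nonneg (by linarith) (by linarith) : 0 ≤ (1 / 2 + ε) / (1 / 2 - ε))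
      rwa [← Real.rpow_mul hm0, mul_div_cancel₀ _ (by linarith)] at this
    have := mul_le_mul_of_nonneg_left h1 (by linarith : 0 ≤ 4 * G)
    nlinarith
  · rw [div_lt_iff₀ hg] at h
    have := mul_le_mul_of_nonneg_right h.le (Real.rpow_nonneg hm0 (1 / 2 + ε))
    rw [show u * gap ε * m ^ (1 / 2 + ε) = gap ε * (u * m ^ (1 / 2 + ε)) by ring, ← hms] at this
    linarith

end

end Vale.Agent.P028.LogExtra
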