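import Vale.Agent.P028.LogExtra.Basic

/-!
The terminal case: at every prime one of the two endpoints has the dominant exponent.
-/

namespace Vale.Agent.P028.LogExtra

open Finset Vale.Agent.P028.ErdosVaaler

noncomputable section

open scoped Classical

/-- A harmonic sum. -/
def Hs (T : ℕ) : ℝ := ∑ n ∈ Icc 1 T, (n : ℝ)⁻¹

lemma Hs_nonneg (T : ℕ) : 0 ≤ Hs T := sum_nonneg fun n _ => by positivity

lemma one_le_Hs {T : ℕ} (hT : 1 ≤ T) : 1 ≤ Hs T := by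
  refine le_trans (le_of_eq ?_) (single_le_sum (f := fun n : ℕ => (n : ℝ)⁻¹)
    (fun n _ => by positivity) (show 1 ∈ Icc 1 T from Finset.mem_Icc.2 ⟨le_rfl, hT⟩))
  simp

lemma Hs_le (T : ℕ) : Hs T ≤ 1 + Real.log T := by
  refine le_trans (le_of_eq ?_) (harmonic_le_one_add_log T)
  rw [Hs, harmonic_eq_sum_Icc]
  push_cast
  rfl

lemma Hs_multiples {l T : ℕ} (hl : 0 < l) :
    ∑ m ∈ (Icc 1 T).filter (l ∣ ·), (m : ℝ)⁻¹ ≤ (l : ℝ)⁻¹ * Hs T := by
  rw [Hs, mul_sum]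
  calc ∑ m ∈ (Icc 1 T).filter (l ∣ ·), (m : ℝ)⁻¹
      = ∑ k ∈ ((Icc 1 T).filter (l ∣ ·)).image (· / l), (l : ℝ)⁻¹ * (k : ℝ)⁻¹ := by
        rw [sum_image]
        · refine sum_congr rfl fun m hm => ?_
          obtain ⟨-, k, rfl⟩ := Finset.mem_filter.1 hm
          rw [Nat.mul_div_cancel_left _ hl]
          push_cast
          rw [mul_inv]
        · intro x hx y hy hxy
          have hxy' : x / l = y / l := hxy
          rw [← Nat.div_mul_cancel (Finset.mem_filter.1 hx).2, hxy',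
            Nat.div_mul_cancel (Finset.mem_filter.1 hy).2]
    _ ≤ _ := by
        refine sum_le_sum_of_subset_of_nonneg (fun k hk => ?_) fun k _ _ => by positivity
        obtain ⟨m, hm, rfl⟩ := Finset.mem_image.1 hk
        obtain ⟨hm1, hlm⟩ := Finset.mem_filter.1 hm
        obtain ⟨h1, h2⟩ := Finset.mem_Icc.1 hm1
        exact Finset.mem_Icc.2 ⟨Nat.div_pos (Nat.le_of_dvd h1 hlm) hl,
          le_trans (Nat.div_le_self _ _) h2⟩

lemma sum_tau_sq_le (T : ℕ) :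
    ∑ m ∈ Icc 1 T, (m.divisors.card : ℝ) ^ 2 / m ≤ Hs T ^ 4 := by
  have hdiv : ∀ m ∈ Icc 1 T, (m.divisors.card : ℝ) = ∑ d ∈ Icc 1 T, if d ∣ m then (1 : ℝ) else 0 := by
    intro m hm
    obtain ⟨h1, h2⟩ := Finset.mem_Icc.1 hm
    rw [sum_boole]
    congr 2
    ext d
    simp only [Nat.mem_divisors, Finset.mem_filter, Finset.mem_Icc]
    constructor
    · exact fun h => ⟨⟨Nat.pos_of_dvd_of_pos h.1 h1, (Nat.le_of_dvd h1 h.1).trans h2⟩, h.1⟩
    · exact fun h => ⟨h.2, by omega⟩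
  have hpair : ∀ d ∈ Icc 1 T, ∀ e ∈ Icc 1 T,
      ∑ m ∈ Icc 1 T, (if d ∣ m ∧ e ∣ m then (m : ℝ)⁻¹ else 0)
        ≤ Hs T * ∑ g ∈ Icc 1 T, (if g ∣ d ∧ g ∣ e then (g : ℝ) * ((d : ℝ)⁻¹ * (e : ℝ)⁻¹) else 0) := by
    intro d hd e he
    have hd0 : 0 < d := (Finset.mem_Icc.1 hd).1
    have he0 : 0 < e := (Finset.mem_Icc.1 he).1
    rw [← sum_filter]
    have hset : (Icc 1 T).filter (fun m => d ∣ m ∧ e ∣ m) = (Icc 1 T).filter (Nat.lcm d e ∣ ·) :=
      Finset.filter_congr fun m _ => (Nat.lcm_dvd_iff).symm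
    rw [hset]
    refine le_trans (Hs_multiples (Nat.lcm_pos hd0 he0)) ?_
    rw [mul_comm]
    refine mul_le_mul_of_nonneg_left ?_ (Hs_nonneg T)
    have hg0 : 0 < d.gcd e := Nat.gcd_pos_of_pos_left _ hd0
    refine le_trans ?_ (single_le_sum
      (f := fun g : ℕ => if g ∣ d ∧ g ∣ e then (g : ℝ) * ((d : ℝ)⁻¹ * (e : ℝ)⁻¹) else 0)
      (fun g _ => by split <;> positivity) (show d.gcd e ∈ Icc 1 T from Finset.mem_Icc.2
        ⟨hg0, le_trans (Nat.le_of_dvd hd0 (Nat.gcd_dvd_left d e)) (Finset.mem_Icc.1 hd).2⟩))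
    rw [if_pos ⟨Nat.gcd_dvd_left d e, Nat.gcd_dvd_right d e⟩]
    refine le_of_eq ?_
    have h2 : ((d.gcd e : ℕ) : ℝ) * (Nat.lcm d e : ℕ) = (d : ℝ) * e := by
      exact_mod_cast Nat.gcd_mul_lcm d e
    have hdR : (0 : ℝ) < d := Nat.cast_pos.2 hd0
    have heR : (0 : ℝ) < e := Nat.cast_pos.2 he0
    have hlR : (0 : ℝ) < (Nat.lcm d e : ℕ) := Nat.cast_pos.2 (Nat.lcm_pos hd0 he0)
    field_simp
    linarith
  calc ∑ m ∈ Icc 1 T, (m.divisors.card : ℝ) ^ 2 / m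
      = ∑ m ∈ Icc 1 T, ∑ d ∈ Icc 1 T, ∑ e ∈ Icc 1 T,
          (if d ∣ m ∧ e ∣ m then (m : ℝ)⁻¹ else 0) := by
        refine sum_congr rfl fun m hm => ?_
        rw [hdiv m hm, sq, sum_mul, sum_div]
        refine sum_congr rfl fun d _ => ?_
        rw [mul_sum, sum_div]
        refine sum_congr rfl fun e _ => ?_
        by_cases h1 : d ∣ m <;> by_cases h2 : e ∣ m <;> simp [h1, h2]
    _ = ∑ d ∈ Icc 1 T, ∑ e ∈ Icc 1 T, ∑ m ∈ Icc 1 T,
          (if d ∣ m ∧ e ∣ m then (m : ℝ)⁻¹ else 0) := by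
        rw [sum_comm]
        exact sum_congr rfl fun d _ => sum_comm
    _ ≤ ∑ d ∈ Icc 1 T, ∑ e ∈ Icc 1 T, Hs T * ∑ g ∈ Icc 1 T,
          (if g ∣ d ∧ g ∣ e then (g : ℝ) * ((d : ℝ)⁻¹ * (e : ℝ)⁻¹) else 0) :=
        sum_le_sum fun d hd => sum_le_sum fun e he => hpair d hd e he
    _ = Hs T * ∑ g ∈ Icc 1 T, (g : ℝ) * (∑ d ∈ (Icc 1 T).filter (g ∣ ·), (d : ℝ)⁻¹) ^ 2 := by
        simp only [← mul_sum]
        congr 1
        rw [(sum_congr rfl fun d _ => sum_comm).trans sum_comm]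
        refine sum_congr rfl fun g _ => ?_
        rw [sq, sum_mul_sum, sum_filter, mul_sum]
        refine sum_congr rfl fun d _ => ?_
        by_cases hd : g ∣ d
        · rw [if_pos hd, sum_filter, mul_sum]
          refine sum_congr rfl fun e _ => ?_
          by_cases he : g ∣ e <;> simp [hd, he]
        · simp [hd]
    _ ≤ Hs T * ∑ g ∈ Icc 1 T, (g : ℝ) * ((g : ℝ)⁻¹ * Hs T) ^ 2 := by
        refine mul_le_mul_of_nonneg_left (sum_le_sum fun g hg => ?_) (Hs_nonneg T)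
        refine mul_le_mul_of_nonneg_left ?_ (Nat.cast_nonneg g)
        exact pow_le_pow_left₀ (sum_nonneg fun d _ => by positivity)
          (Hs_multiples (Finset.mem_Icc.1 hg).1) 2
    _ = Hs T * (Hs T ^ 2 * Hs T) := by
        congr 1
        rw [Hs, mul_sum]
        refine sum_congr rfl fun g hg => ?_
        have : (0 : ℝ) < g := Nat.cast_pos.2 (Finset.mem_Icc.1 hg).1
        field_simp
    _ = _ := by ring

lemma totient_mul_le (d m : ℕ) : (d * m).totient ≤ d.totient * m := by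
  rcases Nat.eq_zero_or_pos d with rfl | hd
  · simp
  rw [Nat.totient_eq_card_coprime, Nat.totient_eq_card_coprime]
  calc ((range (d * m)).filter (Nat.Coprime (d * m))).card
      ≤ (((range d).filter (Nat.Coprime d)) ×ˢ range m).card := by
        refine card_le_card_of_injOn (fun x => (x % d, x / d)) (fun x hx => ?_)
          (fun x _ y _ hxy => ?_)
        · obtain ⟨hx1, hx2⟩ := Finset.mem_filter.1 hx
          refine Finset.mem_product.2 ⟨Finset.mem_filter.2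
            ⟨Finset.mem_range.2 (Nat.mod_lt _ hd), ?_⟩, Finset.mem_range.2 ?_⟩
          · have h : Nat.Coprime d x := hx2.coprime_mul_right
            rw [Nat.Coprime, Nat.gcd_comm] at h ⊢
            rw [← Nat.gcd_rec]
            rwa [Nat.gcd_comm]
          · exact Nat.div_lt_of_lt_mul (Finset.mem_range.1 hx1)
        · obtain ⟨h1, h2⟩ := Prod.ext_iff.1 hxy
          rw [← Nat.mod_add_div x d, ← Nat.mod_add_div y d]
          simp only at h1 h2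
          rw [h1, h2]
    _ = _ := by rw [card_product, card_range]

lemma rho_le {d v : ℕ} (hd : d ∣ v) (hv : 0 < v) :
    (v.totient : ℝ) / v ≤ (d.totient : ℝ) / d := by
  obtain ⟨m, rfl⟩ := hd
  have hd0 : 0 < d := Nat.pos_of_mul_pos_right hv
  rw [div_le_div_iff₀ (Nat.cast_pos.2 hv) (Nat.cast_pos.2 hd0)]
  have h : (((d * m).totient * d : ℕ) : ℝ) ≤ ((d.totient * (d * m) : ℕ) : ℝ) := by
    refine Nat.cast_le.2 ?_
    calc (d * m).totient * d ≤ d.totient * m * d := Nat.mul_le_mul_right _ (totient_mul_le d m)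
      _ = _ := by ring
  push_cast at h ⊢
  linarith

/-- The hypotheses of the terminal case on one pair. -/
def TPair (π : Par) (Pr : Finset ℕ) (k : ℕ → ℕ) (f h : ℕ → ℝ) (e : ℕ × ℕ) : Prop :=
  0 < e.1 ∧ 0 < e.2 ∧ e.1.primeFactors ⊆ Pr ∧ e.2.primeFactors ⊆ Pr ∧ 0 ≤ f e.1 ∧ 0 ≤ h e.2 ∧
    (∀ p ∈ Pr, e.1.factorization p = k p ∨ e.2.factorization p = k p) ∧
    (e.2 : ℝ) * f e.1 + e.1 * h e.2 ≤ π.y * (e.1.gcd e.2 : ℝ)

variable {π : Par} {Pr : Finset ℕ} {k : ℕ → ℕ} {f h : ℕ → ℝ}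

/-- The dominant modulus. -/
def Nk (Pr : Finset ℕ) (k : ℕ → ℕ) : ℕ := ∏ p ∈ Pr, p ^ k p

lemma Nk_pos (hPr : ∀ p ∈ Pr, p.Prime) : 0 < Nk Pr k :=
  Finset.prod_pos fun p hp => pow_pos (hPr p hp).pos _

lemma factorization_Nk (hPr : ∀ p ∈ Pr, p.Prime) (p : ℕ) :
    (Nk Pr k).factorization p = if p ∈ Pr then k p else 0 := by
  rw [Nk, Nat.factorization_prod fun q hq => pow_ne_zero _ (hPr q hq).ne_zero, Finsupp.finsetSum_apply]
  rw [sum_congr rfl fun q hq => show (q ^ k q).factorization p = if q = p then k q else 0 by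
    rw [(hPr q hq).factorization_pow, Finsupp.single_apply]]
  rw [sum_ite_eq']

/-- In a terminal pair the cofactor of the gcd is the product of the two own cofactors. -/
lemma TPair.cofactor (hPr : ∀ p ∈ Pr, p.Prime) {e : ℕ × ℕ} (he : TPair π Pr k f h e) :
    e.2 / e.1.gcd e.2 = e.2 / e.2.gcd (Nk Pr k) * (Nk Pr k / e.1.gcd (Nk Pr k)) := by
  obtain ⟨hv, hw, hvP, hwP, -, -, hdom, -⟩ := he
  set N := Nk Pr k with hN
  have hN0 : N ≠ 0 := (Nk_pos hPr).ne'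
  have hg : e.1.gcd e.2 ≠ 0 := (Nat.gcd_pos_of_pos_left _ hv).ne'
  have hgv : e.1.gcd N ≠ 0 := (Nat.gcd_pos_of_pos_left _ hv).ne'
  have hgw : e.2.gcd N ≠ 0 := (Nat.gcd_pos_of_pos_left _ hw).ne'
  have h1 : e.2 / e.1.gcd e.2 ≠ 0 :=
    (Nat.div_pos (Nat.le_of_dvd hw (Nat.gcd_dvd_right _ _)) (Nat.pos_of_ne_zero hg)).ne'
  have h2 : e.2 / e.2.gcd N ≠ 0 :=
    (Nat.div_pos (Nat.le_of_dvd hw (Nat.gcd_dvd_left _ _)) (Nat.pos_of_ne_zero hgw)).ne'
  have h3 : N / e.1.gcd N ≠ 0 :=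
    (Nat.div_pos (Nat.le_of_dvd (Nat.pos_of_ne_zero hN0) (Nat.gcd_dvd_right _ _))
      (Nat.pos_of_ne_zero hgv)).ne'
  refine Nat.eq_of_factorization_eq h1 (mul_ne_zero h2 h3) fun p => ?_
  rw [Nat.factorization_mul h2 h3, Nat.factorization_div (Nat.gcd_dvd_right _ _),
    Nat.factorization_div (Nat.gcd_dvd_left _ _), Nat.factorization_div (Nat.gcd_dvd_right _ _),
    Nat.factorization_gcd hv.ne' hw.ne', Nat.factorization_gcd hw.ne' hN0,
    Nat.factorization_gcd hv.ne' hN0]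
  simp only [Finsupp.coe_add, Finsupp.coe_tsub, Pi.add_apply, Pi.sub_apply, Finsupp.inf_apply,
    hN, factorization_Nk hPr]
  by_cases hp : p ∈ Pr
  · rw [if_pos hp]
    rcases hdom p hp with hd | hd <;> omega
  · rw [if_neg hp]
    have e1 : e.1.factorization p = 0 :=
      Finsupp.notMem_support_iff.1 (fun hs => hp (hvP (by rwa [← Nat.support_factorization])))
    have e2 : e.2.factorization p = 0 :=
      Finsupp.notMem_support_iff.1 (fun hs => hp (hwP (by rwa [← Nat.support_factorization])))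
    omega

lemma TPair.swap {e : ℕ × ℕ} (he : TPair π Pr k f h e) : TPair π Pr k h f e.swap := by
  obtain ⟨h1, h2, h3, h4, h5, h6, h7, h8⟩ := he
  refine ⟨h2, h1, h4, h3, h6, h5, fun p hp => (h7 p hp).symm, ?_⟩
  simp only [Prod.fst_swap, Prod.snd_swap, Nat.gcd_comm e.2 e.1]
  linarith

lemma TPair.cofactor' (hPr : ∀ p ∈ Pr, p.Prime) {e : ℕ × ℕ} (he : TPair π Pr k f h e) :
    e.1 / e.1.gcd e.2 = e.1 / e.1.gcd (Nk Pr k) * (Nk Pr k / e.2.gcd (Nk Pr k)) := by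
  have := he.swap.cofactor hPr
  simpa [Nat.gcd_comm e.2 e.1] using this

lemma TPair.bound {e : ℕ × ℕ} (he : TPair π Pr k f h e) :
    h e.2 ≤ π.y / ((e.1 / e.1.gcd e.2 : ℕ) : ℝ) := by
  obtain ⟨hv, hw, -, -, hf, hh, -, hle⟩ := he
  have hg : 0 < e.1.gcd e.2 := Nat.gcd_pos_of_pos_left _ hv
  have hq : 0 < e.1 / e.1.gcd e.2 := Nat.div_pos (Nat.le_of_dvd hv (Nat.gcd_dvd_left _ _)) hg
  rw [le_div_iff₀ (Nat.cast_pos.2 hq)]
  have e1 : ((e.1 / e.1.gcd e.2 : ℕ) : ℝ) * (e.1.gcd e.2 : ℕ) = (e.1 : ℝ) := by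
    exact_mod_cast Nat.div_mul_cancel (Nat.gcd_dvd_left e.1 e.2)
  have hgR : (0 : ℝ) < (e.1.gcd e.2 : ℕ) := Nat.cast_pos.2 hg
  have h0 : (0 : ℝ) ≤ (e.2 : ℝ) * f e.1 := mul_nonneg (Nat.cast_nonneg _) hf
  by_contra hc
  push Not at hc
  have := mul_lt_mul_of_pos_right hc hgR
  rw [mul_assoc, e1, mul_comm (h e.2)] at this
  linarith

/-- The mass seen from one vertex through cofactors at most `u` times its own. -/
lemma one_side (hy : 0 ≤ π.y) (hPr : ∀ p ∈ Pr, p.Prime) {E : Finset (ℕ × ℕ)}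
    (hE : ∀ e ∈ E, TPair π Pr k f h e) {u : ℝ} (hu : 0 ≤ u) {V : Finset ℕ}
    (hV : ∀ e ∈ E, e.1 ∈ V) (hf : ∀ v ∈ V, 0 ≤ f v) :
    ∑ e ∈ E.filter (fun e => ((e.2 / e.2.gcd (Nk Pr k) : ℕ) : ℝ)
        ≤ u * ((e.1 / e.1.gcd (Nk Pr k) : ℕ) : ℝ)), mu f e.1 * mu h e.2
      ≤ π.y * u * ∑ v ∈ V, mu f v := by
  set N := Nk Pr k with hN
  have hN0 : 0 < N := Nk_pos hPr
  set E' := E.filter (fun e => ((e.2 / e.2.gcd N : ℕ) : ℝ)
    ≤ u * ((e.1 / e.1.gcd N : ℕ) : ℝ)) with hE'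
  rw [← sum_fiberwise_of_maps_to (g := Prod.fst) (t := V)
    (fun e he => hV e (Finset.mem_filter.1 he).1), mul_sum]
  refine sum_le_sum fun v hv => ?_
  have key : ∀ e ∈ E'.filter (fun e => e.1 = v), mu f e.1 * mu h e.2
      = mu f v * mu h e.2 := fun e he => by rw [(Finset.mem_filter.1 he).2]
  rw [sum_congr rfl key, ← mul_sum, mul_comm]
  refine mul_le_mul_of_nonneg_right ?_ (mu_nonneg (hf v hv))
  set Fv := E'.filter (fun e => e.1 = v) with hFv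
  rcases Fv.eq_empty_or_nonempty with h0 | ⟨e₀, he₀⟩
  · rw [h0, sum_empty]; exact mul_nonneg hy hu
  have hv0 : 0 < v := by
    obtain ⟨h1, h2⟩ := Finset.mem_filter.1 he₀
    exact h2 ▸ (hE _ (Finset.mem_filter.1 h1).1).1
  set a := v / v.gcd N with ha
  have ha0 : 0 < a :=
    Nat.div_pos (Nat.le_of_dvd hv0 (Nat.gcd_dvd_left _ _)) (Nat.gcd_pos_of_pos_left _ hv0)
  have haR : (0 : ℝ) < a := Nat.cast_pos.2 ha0
  have hNR : (0 : ℝ) < N := Nat.cast_pos.2 hN0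
  set ι : ℕ × ℕ → ℕ × ℕ := fun e => (e.2 / e.2.gcd N, e.2.gcd N) with hι
  have hterm : ∀ e ∈ Fv, mu h e.2
      ≤ π.y / (a : ℝ) * (((ι e).2.totient : ℝ) / N) := by
    intro e he
    obtain ⟨hE1, hev⟩ := Finset.mem_filter.1 he
    have hT := hE e (Finset.mem_filter.1 hE1).1
    have hw0 : 0 < e.2 := hT.2.1
    have hd0 : 0 < e.2.gcd N := Nat.gcd_pos_of_pos_left _ hw0
    have hb := hT.bound
    rw [hT.cofactor' hPr, hev, ← hN, ← ha] at hb
    have hr := rho_le (Nat.gcd_dvd_left e.2 N) hw0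
    refine le_trans (mul_le_mul hr hb hT.2.2.2.2.2.1 (by positivity)) (le_of_eq ?_)
    have e1 : ((N / e.2.gcd N : ℕ) : ℝ) * (e.2.gcd N : ℕ) = (N : ℝ) := by
      exact_mod_cast Nat.div_mul_cancel (Nat.gcd_dvd_right e.2 N)
    have hdR : (0 : ℝ) < (e.2.gcd N : ℕ) := Nat.cast_pos.2 hd0
    have hcR : (0 : ℝ) < ((N / e.2.gcd N : ℕ) : ℝ) := Nat.cast_pos.2
      (Nat.div_pos (Nat.le_of_dvd hN0 (Nat.gcd_dvd_right _ _)) hd0)
    simp only [hι]
    rw [← e1]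
    push_cast
    field_simp
  calc ∑ e ∈ Fv, mu h e.2 ≤ ∑ e ∈ Fv, π.y / (a : ℝ) * (((ι e).2.totient : ℝ) / N) :=
        sum_le_sum hterm
    _ = ∑ x ∈ Fv.image ι, π.y / (a : ℝ) * ((x.2.totient : ℝ) / N) := by
        rw [sum_image]
        intro x hx y hy hxy
        obtain ⟨h1, h2⟩ := Prod.ext_iff.1 hxy
        simp only [hι] at h1 h2
        refine Prod.ext ((Finset.mem_filter.1 hx).2.trans (Finset.mem_filter.1 hy).2.symm) ?_
        rw [← Nat.div_mul_cancel (Nat.gcd_dvd_left x.2 N), h1, h2,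
          Nat.div_mul_cancel (Nat.gcd_dvd_left y.2 N)]
    _ ≤ ∑ x ∈ Icc 1 ⌊u * (a : ℝ)⌋₊ ×ˢ N.divisors, π.y / (a : ℝ) * ((x.2.totient : ℝ) / N) := by
        refine sum_le_sum_of_subset_of_nonneg (fun x hx => ?_) fun x _ _ =>
          mul_nonneg (div_nonneg hy haR.le) (by positivity)
        obtain ⟨e, he, rfl⟩ := Finset.mem_image.1 hx
        obtain ⟨hE1, hev⟩ := Finset.mem_filter.1 he
        obtain ⟨hEe, hle⟩ := Finset.mem_filter.1 hE1
        have hw0 : 0 < e.2 := (hE e hEe).2.1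
        refine Finset.mem_product.2 ⟨Finset.mem_Icc.2 ⟨?_, Nat.le_floor ?_⟩, ?_⟩
        · exact Nat.div_pos (Nat.le_of_dvd hw0 (Nat.gcd_dvd_left _ _))
            (Nat.gcd_pos_of_pos_left _ hw0)
        · rw [hev, ← ha] at hle
          exact hle
        · exact Nat.mem_divisors.2 ⟨Nat.gcd_dvd_right _ _, hN0.ne'⟩
    _ = (⌊u * (a : ℝ)⌋₊ : ℝ) * (π.y / (a : ℝ)) := by
        rw [sum_product]
        simp only
        rw [sum_const, Nat.card_Icc, nsmul_eq_mul, ← mul_sum, ← sum_div,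
          ← Nat.cast_sum, Nat.sum_totient, div_self hNR.ne', mul_one, Nat.add_sub_cancel]
    _ ≤ u * (a : ℝ) * (π.y / (a : ℝ)) :=
        mul_le_mul_of_nonneg_right (Nat.floor_le (mul_nonneg hu haR.le)) (div_nonneg hy haR.le)
    _ = _ := by field_simp

/-- The terminal pairs have mass at most `2 y` times the geometric mean. -/
lemma terminal_schur (hy : 0 ≤ π.y) (hPr : ∀ p ∈ Pr, p.Prime) {E : Finset (ℕ × ℕ)}
    (hE : ∀ e ∈ E, TPair π Pr k f h e) {V U : Finset ℕ} (hV : ∀ e ∈ E, e.1 ∈ V)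
    (hU : ∀ e ∈ E, e.2 ∈ U) (hf : ∀ v ∈ V, 0 ≤ f v) (hh : ∀ w ∈ U, 0 ≤ h w)
    (hA : 0 < ∑ v ∈ V, mu f v) (hB : 0 < ∑ w ∈ U, mu h w) :
    ∑ e ∈ E, mu f e.1 * mu h e.2
      ≤ 2 * π.y * Real.sqrt ((∑ v ∈ V, mu f v) * ∑ w ∈ U, mu h w) := by
  set A := ∑ v ∈ V, mu f v with hAdef
  set B := ∑ w ∈ U, mu h w with hBdef
  set u := Real.sqrt B / Real.sqrt A with hu
  have hsA : 0 < Real.sqrt A := Real.sqrt_pos.2 hA
  have hsB : 0 < Real.sqrt B := Real.sqrt_pos.2 hB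
  have hu0 : 0 < u := div_pos hsB hsA
  have h1 := one_side hy hPr hE hu0.le hV hf
  have h2 := one_side (f := h) (h := f) hy hPr (E := E.image Prod.swap)
    (fun e he => by obtain ⟨x, hx, rfl⟩ := Finset.mem_image.1 he; exact (hE x hx).swap)
    (inv_nonneg.2 hu0.le) (V := U)
    (fun e he => by obtain ⟨x, hx, rfl⟩ := Finset.mem_image.1 he; exact hU x hx) hh
  rw [← hAdef] at h1
  rw [← hBdef, Finset.filter_image, sum_image Prod.swap_injective.injOn] at h2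
  simp only [Prod.fst_swap, Prod.snd_swap] at h2
  rw [← sum_filter_add_sum_filter_not E (fun e => ((e.2 / e.2.gcd (Nk Pr k) : ℕ) : ℝ)
    ≤ u * ((e.1 / e.1.gcd (Nk Pr k) : ℕ) : ℝ))]
  have h3 : ∑ e ∈ E.filter (fun e => ¬((e.2 / e.2.gcd (Nk Pr k) : ℕ) : ℝ)
      ≤ u * ((e.1 / e.1.gcd (Nk Pr k) : ℕ) : ℝ)), mu f e.1 * mu h e.2 ≤ π.y * u⁻¹ * B := by
    refine le_trans ?_ h2
    refine le_trans (le_of_eq (sum_congr rfl fun e _ => mul_comm _ _))
      (sum_le_sum_of_subset_of_nonneg (fun e he => ?_) fun e he _ => ?_)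
    · obtain ⟨he1, he2⟩ := Finset.mem_filter.1 he
      refine Finset.mem_filter.2 ⟨he1, ?_⟩
      rw [not_le] at he2
      rw [le_inv_mul_iff₀ hu0]
      exact he2.le
    · have he' := (Finset.mem_filter.1 he).1
      exact mul_nonneg (mu_nonneg (hh _ (hU e he'))) (mu_nonneg (hf _ (hV e he')))
  refine le_trans (add_le_add h1 h3) (le_of_eq ?_)
  have eA : A = Real.sqrt A * Real.sqrt A := (Real.mul_self_sqrt hA.le).symm
  have eB : B = Real.sqrt B * Real.sqrt B := (Real.mul_self_sqrt hB.le).symm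
  rw [Real.sqrt_mul hA.le, hu]
  conv_lhs => arg 1; arg 2; rw [eA]
  conv_lhs => arg 2; arg 2; rw [eB]
  field_simp
  ring

/-- Hits with coordinates up to `T` are sparse. -/
lemma hit_sum_le (hy : 0 ≤ π.y) (hW : 1 ≤ π.W) {P Q : ℕ} (hP : 0 < P) (hQ : 0 < Q)
    {M : Finset (ℕ × ℕ)} (hM : ∀ x ∈ M, x.1 ∈ Icc 1 π.T ∧ x.2 ∈ Icc 1 π.T ∧
      (P : ℤ) * x.1 ≠ Q * x.2 ∧ Hit π.γ π.y (((P : ℤ) * x.1 - Q * x.2 : ℤ) : ℝ)) :
    ∑ x ∈ M, ((x.1 : ℝ))⁻¹ * (x.2 : ℝ)⁻¹ ≤ 2 * Hs π.T ^ 2 / Z π P Q := by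
  have hy2 : π.y ≤ 2 * π.y := by linarith
  have gen : ∀ (P Q : ℕ), 0 < P → ∀ (M : Finset (ℕ × ℕ)),
      (∀ x ∈ M, x.1 ∈ Icc 1 π.T ∧ x.2 ∈ Icc 1 π.T ∧ Z π P Q ≤ x.1 ∧
        Hit π.γ π.y (((P : ℤ) * x.1 - Q * x.2 : ℤ) : ℝ)) →
      ∑ x ∈ M, ((x.1 : ℝ))⁻¹ * (x.2 : ℝ)⁻¹ ≤ Hs π.T ^ 2 / Z π P Q := by
    intro P Q hP M hM
    set z := Z π P Q with hz
    have hz0 : 0 < z := one_le_Z hW
    have hzR : (0 : ℝ) < z := Nat.cast_pos.2 hz0
    calc ∑ x ∈ M, ((x.1 : ℝ))⁻¹ * (x.2 : ℝ)⁻¹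
        ≤ ∑ x ∈ M, (z : ℝ)⁻¹ * (((x.1 / z : ℕ) : ℝ))⁻¹ * (x.2 : ℝ)⁻¹ := by
          refine sum_le_sum fun x hx => mul_le_mul_of_nonneg_right ?_ (by positivity)
          obtain ⟨-, -, hzx, -⟩ := hM x hx
          rw [← mul_inv]
          refine inv_anti₀ (mul_pos hzR (Nat.cast_pos.2 (Nat.div_pos hzx hz0))) ?_
          exact_mod_cast Nat.mul_div_le x.1 z
      _ = ∑ y ∈ M.image (fun x : ℕ × ℕ => ((x.1 / z, x.2) : ℕ × ℕ)),
            (z : ℝ)⁻¹ * ((y.1 : ℝ))⁻¹ * (y.2 : ℝ)⁻¹ := by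
          rw [sum_image]
          intro x hx x' hx' he
          obtain ⟨h1, h2⟩ := Prod.ext_iff.1 he
          simp only at h1 h2
          refine Prod.ext ?_ h2
          by_contra hne
          obtain ⟨-, -, -, r, hr⟩ := hM x hx
          obtain ⟨-, -, -, r', hr'⟩ := hM x' hx'
          refine good_Z (P := P) (Q := Q) hW ((x.1 : ℤ) - x'.1) 0 ?_ ?_ ?_ ⟨r - r', ?_⟩
          · rw [← hz, abs_lt]
            have a1 := Nat.mod_add_div x.1 z
            have a2 := Nat.mod_add_div x'.1 z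
            have a3 := Nat.mod_lt x.1 hz0
            have a4 := Nat.mod_lt x'.1 hz0
            rw [h1] at a1
            omega
          · rw [← hz, abs_zero]; exact_mod_cast hz0
          · rw [mul_zero]
            refine mul_ne_zero (by exact_mod_cast hP.ne') ?_
            omega
          · rw [abs_lt] at hr hr' ⊢
            rw [h2] at hr
            push_cast at hr hr' ⊢
            constructor <;> linarith
      _ ≤ ∑ y ∈ Icc 1 π.T ×ˢ Icc 1 π.T, (z : ℝ)⁻¹ * ((y.1 : ℝ))⁻¹ * (y.2 : ℝ)⁻¹ := by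
          refine sum_le_sum_of_subset_of_nonneg (fun y hy => ?_) fun y _ _ => by positivity
          obtain ⟨x, hx, rfl⟩ := Finset.mem_image.1 hy
          obtain ⟨h1, h2, hzx, -⟩ := hM x hx
          obtain ⟨h3, h4⟩ := Finset.mem_Icc.1 h1
          exact Finset.mem_product.2 ⟨Finset.mem_Icc.2 ⟨Nat.div_pos hzx hz0,
            (Nat.div_le_self _ _).trans h4⟩, h2⟩
      _ = _ := by
          rw [sum_product, sq, Hs, sum_mul_sum, sum_div]
          refine sum_congr rfl fun a _ => ?_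
          rw [sum_div]
          exact sum_congr rfl fun b _ => by ring
  rw [← sum_filter_add_sum_filter_not M (fun x : ℕ × ℕ => Z π P Q ≤ x.1)]
  have h1 := gen P Q hP (M.filter (fun x : ℕ × ℕ => Z π P Q ≤ x.1)) fun x hx => by
    obtain ⟨hxM, hz⟩ := Finset.mem_filter.1 hx
    exact ⟨(hM x hxM).1, (hM x hxM).2.1, hz, (hM x hxM).2.2.2⟩
  have h2 := gen Q P hQ ((M.filter (fun x : ℕ × ℕ => ¬ Z π P Q ≤ x.1)).image Prod.swap)
    fun x' hx' => by
    obtain ⟨x, hx, rfl⟩ := Finset.mem_image.1 hx'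
    obtain ⟨hxM, hz⟩ := Finset.mem_filter.1 hx
    obtain ⟨ha, hb, hne, hit⟩ := hM x hxM
    refine ⟨hb, ha, ?_, ?_⟩
    · rw [Prod.fst_swap, Z_comm]
      by_contra hz2
      refine good_Z (P := P) (Q := Q) hW x.1 x.2 ?_ ?_ hne (hit.mono hy2)
      · rw [Nat.abs_cast]; omega
      · rw [Nat.abs_cast]; omega
    · rw [Prod.fst_swap, Prod.snd_swap, ← neg_sub, Int.cast_neg]
      exact hit.neg
  rw [sum_image Prod.swap_injective.injOn, Z_comm (P := Q) (Q := P)] at h2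
  simp only [Prod.fst_swap, Prod.snd_swap] at h2
  refine le_trans (add_le_add h1 (le_trans (le_of_eq (sum_congr rfl fun x _ => mul_comm _ _)) h2))
    (le_of_eq ?_)
  ring

/-- The terminal pairs against the hit sums. -/
lemma terminal_omega (hy : 0 ≤ π.y) (hW : 1 ≤ π.W) (hPr : ∀ p ∈ Pr, p.Prime) {P Q : ℕ}
    (hP : 0 < P) (hQ : 0 < Q) {E : Finset (ℕ × ℕ)} (hE : ∀ e ∈ E, TPair π Pr k f h e)
    (hA : ∀ e ∈ E, Adm π P Q f h e) :
    ∑ e ∈ E, mu f e.1 * mu h e.2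
      ≤ π.y ^ 2 * (Real.sqrt (2 / Z π P Q) * Hs π.T ^ 5) := by
  set N := Nk Pr k with hN
  set ι : ℕ × ℕ → ℕ × ℕ := fun e => (e.2 / e.1.gcd e.2, e.1 / e.1.gcd e.2) with hι
  set M := E.image ι with hMdef
  have hM : ∀ x ∈ M, x.1 ∈ Icc 1 π.T ∧ x.2 ∈ Icc 1 π.T ∧
      (P : ℤ) * x.1 ≠ Q * x.2 ∧ Hit π.γ π.y (((P : ℤ) * x.1 - Q * x.2 : ℤ) : ℝ) := by
    intro x hx
    obtain ⟨e, he, rfl⟩ := Finset.mem_image.1 hx
    obtain ⟨-, hne, h1, h2, hit⟩ := hA e he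
    obtain ⟨hv, hw, -⟩ := hE e he
    have hg : 0 < e.1.gcd e.2 := Nat.gcd_pos_of_pos_left _ hv
    simp only [hι]
    refine ⟨Finset.mem_Icc.2 ⟨Nat.div_pos (Nat.le_of_dvd hw (Nat.gcd_dvd_right _ _)) hg, h1⟩,
      Finset.mem_Icc.2 ⟨Nat.div_pos (Nat.le_of_dvd hv (Nat.gcd_dvd_left _ _)) hg, h2⟩, ?_, ?_⟩
    · exact_mod_cast hne
    · push_cast at hit ⊢
      exact hit
  calc ∑ e ∈ E, mu f e.1 * mu h e.2
      ≤ ∑ e ∈ E, π.y / ((ι e).1 : ℝ) * (π.y / ((ι e).2 : ℝ)) := by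
        refine sum_le_sum fun e he => ?_
        have hT := hE e he
        obtain ⟨hv, hw, -, -, hf, hh, -⟩ := id hT
        have hb1 := hT.bound
        have hb2 := hT.swap.bound
        simp only [Prod.fst_swap, Prod.snd_swap, Nat.gcd_comm e.2 e.1] at hb2
        simp only [hι]
        have r1 : ∀ (g : ℕ → ℝ) (v : ℕ), 0 ≤ g v → mu g v ≤ g v := fun g v hg =>
          mul_le_of_le_one_left hg
            (div_le_one_of_le₀ (Nat.cast_le.2 (Nat.totient_le v)) (Nat.cast_nonneg v))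
        exact mul_le_mul ((r1 f _ hf).trans hb2) ((r1 h _ hh).trans hb1) (mu_nonneg hh)
          (div_nonneg hy (Nat.cast_nonneg _))
    _ = ∑ x ∈ M, ((E.filter (fun e => ι e = x)).card : ℝ)
          * (π.y / (x.1 : ℝ) * (π.y / (x.2 : ℝ))) := by
        rw [← sum_fiberwise_of_maps_to (g := ι) (t := M) fun e he => Finset.mem_image_of_mem ι he]
        refine sum_congr rfl fun x _ => ?_
        rw [sum_congr rfl fun e he => by rw [(Finset.mem_filter.1 he).2], sum_const, nsmul_eq_mul]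
    _ ≤ ∑ x ∈ M, ((x.1.divisors.card : ℝ) * x.2.divisors.card)
          * (π.y / (x.1 : ℝ) * (π.y / (x.2 : ℝ))) := by
        refine sum_le_sum fun x hx => mul_le_mul_of_nonneg_right ?_
          (mul_nonneg (div_nonneg hy (Nat.cast_nonneg _)) (div_nonneg hy (Nat.cast_nonneg _)))
        obtain ⟨hx1, hx2, -⟩ := hM x hx
        have : (E.filter (fun e => ι e = x)).card ≤ (x.1.divisors ×ˢ x.2.divisors).card := by
          refine card_le_card_of_injOn (fun e => (N / e.1.gcd N, N / e.2.gcd N))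
            (fun e he => ?_) (fun e he e' he' hee => ?_)
          · obtain ⟨heE, hex⟩ := Finset.mem_filter.1 he
            refine Finset.mem_product.2 ⟨Nat.mem_divisors.2 ⟨?_, ?_⟩, Nat.mem_divisors.2 ⟨?_, ?_⟩⟩
            · rw [← hex]; exact ⟨_, ((hE e heE).cofactor hPr).trans (mul_comm _ _)⟩
            · exact Nat.one_le_iff_ne_zero.1 (Finset.mem_Icc.1 hx1).1
            · rw [← hex]; exact ⟨_, ((hE e heE).cofactor' hPr).trans (mul_comm _ _)⟩
            · exact Nat.one_le_iff_ne_zero.1 (Finset.mem_Icc.1 hx2).1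
          · obtain ⟨heE, hex⟩ := Finset.mem_filter.1 he
            obtain ⟨heE', hex'⟩ := Finset.mem_filter.1 he'
            obtain ⟨hc, hd⟩ := Prod.ext_iff.1 hee
            simp only at hc hd
            obtain ⟨he1, he2⟩ := Prod.ext_iff.1 (hex.trans hex'.symm)
            simp only [hι] at he1 he2
            rw [(hE e heE).cofactor hPr, (hE e' heE').cofactor hPr, ← hN, hc] at he1
            rw [(hE e heE).cofactor' hPr, (hE e' heE').cofactor' hPr, ← hN, hd] at he2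
            have hN0 : 0 < N := Nk_pos hPr
            have hp1 : 0 < N / e'.1.gcd N := Nat.div_pos
              (Nat.le_of_dvd hN0 (Nat.gcd_dvd_right _ _))
              (Nat.gcd_pos_of_pos_left _ (hE e' heE').1)
            have hp2 : 0 < N / e'.2.gcd N := Nat.div_pos
              (Nat.le_of_dvd hN0 (Nat.gcd_dvd_right _ _))
              (Nat.gcd_pos_of_pos_left _ (hE e' heE').2.1)
            have hb := Nat.eq_of_mul_eq_mul_right hp1 he1
            have ha := Nat.eq_of_mul_eq_mul_right hp2 he2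
            have gv : e.1.gcd N = e'.1.gcd N := by
              rw [← Nat.div_div_self (Nat.gcd_dvd_right e.1 N) hN0.ne', hc,
                Nat.div_div_self (Nat.gcd_dvd_right e'.1 N) hN0.ne']
            have gw : e.2.gcd N = e'.2.gcd N := by
              rw [← Nat.div_div_self (Nat.gcd_dvd_right e.2 N) hN0.ne', hd,
                Nat.div_div_self (Nat.gcd_dvd_right e'.2 N) hN0.ne']
            refine Prod.ext ?_ ?_
            · rw [← Nat.div_mul_cancel (Nat.gcd_dvd_left e.1 N), ha, gv,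
                Nat.div_mul_cancel (Nat.gcd_dvd_left e'.1 N)]
            · rw [← Nat.div_mul_cancel (Nat.gcd_dvd_left e.2 N), hb, gw,
                Nat.div_mul_cancel (Nat.gcd_dvd_left e'.2 N)]
        rw [card_product] at this
        exact_mod_cast this
    _ = π.y ^ 2 * ∑ x ∈ M, Real.sqrt ((x.1 : ℝ)⁻¹ * (x.2 : ℝ)⁻¹)
          * Real.sqrt (((x.1.divisors.card : ℝ) ^ 2 / x.1) * ((x.2.divisors.card : ℝ) ^ 2 / x.2)) := by
        rw [mul_sum]
        refine sum_congr rfl fun x _ => ?_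
        rw [← Real.sqrt_mul (by positivity),
          show (x.1 : ℝ)⁻¹ * (x.2 : ℝ)⁻¹
              * (((x.1.divisors.card : ℝ) ^ 2 / x.1) * ((x.2.divisors.card : ℝ) ^ 2 / x.2))
            = ((x.1.divisors.card : ℝ) * x.2.divisors.card * ((x.1 : ℝ)⁻¹ * (x.2 : ℝ)⁻¹)) ^ 2 by ring,
          Real.sqrt_sq (by positivity)]
        ring
    _ ≤ π.y ^ 2 * (Real.sqrt (∑ x ∈ M, (x.1 : ℝ)⁻¹ * (x.2 : ℝ)⁻¹)
          * Real.sqrt (∑ x ∈ M,
              ((x.1.divisors.card : ℝ) ^ 2 / x.1) * ((x.2.divisors.card : ℝ) ^ 2 / x.2))) :=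
        mul_le_mul_of_nonneg_left (Real.sum_sqrt_mul_sqrt_le _ (fun x => by positivity)
          (fun x => by positivity)) (sq_nonneg _)
    _ ≤ π.y ^ 2 * (Real.sqrt (2 * Hs π.T ^ 2 / Z π P Q) * Real.sqrt (Hs π.T ^ 4 * Hs π.T ^ 4)) := by
        refine mul_le_mul_of_nonneg_left (mul_le_mul (Real.sqrt_le_sqrt (hit_sum_le hy hW hP hQ hM))
          (Real.sqrt_le_sqrt ?_) (Real.sqrt_nonneg _) (Real.sqrt_nonneg _)) (sq_nonneg _)
        refine le_trans (sum_le_sum_of_subset_of_nonneg (t := Icc 1 π.T ×ˢ Icc 1 π.T)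
          (fun x hx => Finset.mem_product.2 ⟨(hM x hx).1, (hM x hx).2.1⟩)
          fun x _ _ => by positivity) ?_
        rw [sum_product]
        simp only
        rw [← sum_mul_sum]
        exact mul_le_mul (sum_tau_sq_le _) (sum_tau_sq_le _)
          (sum_nonneg fun m _ => by positivity) (pow_nonneg (Hs_nonneg _) 4)
    _ = _ := by
        have h0 := Hs_nonneg π.T
        rw [show 2 * Hs π.T ^ 2 / (Z π P Q : ℝ) = 2 / (Z π P Q : ℝ) * Hs π.T ^ 2 by ring,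
          Real.sqrt_mul (by positivity), Real.sqrt_sq h0, Real.sqrt_mul_self (by positivity)]
        ring

/-- The admissible parameters of the saving. -/
def Saving (π : Par) : Prop :=
  ((1 + Real.log π.T) ^ 10 ≤ π.Lam ∧ 1 ≤ π.T) ∨ (π.W = 1 ∧ π.Lam = 1)

/-- The terminal bound. -/
theorem terminal {ε : ℝ} (hε : 0 < ε) (hy : 0 < π.y) (hW : 1 ≤ π.W) (hθ : 0 ≤ π.θ)
    (hθt : 2 * π.θ ≤ 1 / 2 - ε) (hsave : Saving π) (hPr : ∀ p ∈ Pr, p.Prime) {P Q : ℕ}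
    (hP : 0 < P) (hQ : 0 < Q) {E : Finset (ℕ × ℕ)} (hE : ∀ e ∈ E, TPair π Pr k f h e)
    (hA : ∀ e ∈ E, Adm π P Q f h e) {V U : Finset ℕ} (hV : ∀ e ∈ E, e.1 ∈ V)
    (hU : ∀ e ∈ E, e.2 ∈ U) (hf : ∀ v ∈ V, 0 ≤ f v) (hh : ∀ w ∈ U, 0 ≤ h w) :
    ∑ e ∈ E, mu f e.1 * mu h e.2
      ≤ 4 * (Phi π P Q * π.y ^ (1 - 2 * ε)
          * ((∑ v ∈ V, mu f v) * ∑ w ∈ U, mu h w) ^ (1 / 2 + ε)) := by
  set A := ∑ v ∈ V, mu f v with hAdef
  set B := ∑ w ∈ U, mu h w with hBdef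
  set L := ∑ e ∈ E, mu f e.1 * mu h e.2 with hLdef
  have hA0 : 0 ≤ A := sum_nonneg fun v hv => mu_nonneg (hf v hv)
  have hB0 : 0 ≤ B := sum_nonneg fun w hw => mu_nonneg (hh w hw)
  have hL0 : 0 ≤ L := sum_nonneg fun e he =>
    mul_nonneg (mu_nonneg (hf _ (hV e he))) (mu_nonneg (hh _ (hU e he)))
  have hLAB : L ≤ A * B := by
    rw [hAdef, hBdef, sum_mul_sum, ← sum_product (f := fun e : ℕ × ℕ => mu f e.1 * mu h e.2)]
    exact sum_le_sum_of_subset_of_nonneg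
      (fun e he => Finset.mem_product.2 ⟨hV e he, hU e he⟩) fun e he _ =>
      mul_nonneg (mu_nonneg (hf _ (Finset.mem_product.1 he).1))
        (mu_nonneg (hh _ (Finset.mem_product.1 he).2))
  have hphi0 : 0 ≤ Phi π P Q := by
    unfold Phi
    refine Real.rpow_nonneg (div_nonneg ?_ (Nat.cast_nonneg _)) _
    rcases hsave with ⟨h1, hT⟩ | ⟨-, h1⟩
    · exact le_trans (pow_nonneg (by linarith [Real.log_nonneg (show (1 : ℝ) ≤ (π.T : ℝ) from Nat.one_le_cast.2 hT)]) _) h1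
    · rw [h1]; exact zero_le_one
  rcases hL0.eq_or_lt with h0 | hLpos
  · rw [← h0]
    exact mul_nonneg (by norm_num) (mul_nonneg (mul_nonneg hphi0 (Real.rpow_nonneg hy.le _))
      (Real.rpow_nonneg (mul_nonneg hA0 hB0) _))
  have hAB : 0 < A * B := hLpos.trans_le hLAB
  have hApos : 0 < A := pos_of_mul_pos_left hAB hB0
  have hBpos : 0 < B := pos_of_mul_pos_right hAB hA0
  have hS := terminal_schur hy.le hPr hE hV hU hf hh hApos hBpos
  rw [← hAdef, ← hBdef, ← hLdef, Real.sqrt_eq_rpow] at hS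
  -- one exponent interpolates the three bounds
  have key : ∀ (σ X : ℝ), 0 ≤ σ → σ ≤ 1 / 2 - ε → (σ = 0 ∨ L ≤ π.y ^ 2 * X) → 0 ≤ X →
      L ≤ 2 * (π.y ^ (1 - 2 * ε) * (A * B) ^ (1 / 2 + ε) * X ^ σ) := by
    intro σ X hσ0 hσ1 hor hX
    have h1 : L ^ (2 * ε + σ) ≤ (A * B) ^ (2 * ε + σ) :=
      Real.rpow_le_rpow hL0 hLAB (by linarith)
    have h2 : L ^ (1 - 2 * ε - 2 * σ) ≤ (2 * π.y * (A * B) ^ (1 / 2 : ℝ)) ^ (1 - 2 * ε - 2 * σ) :=
      Real.rpow_le_rpow hL0 hS (by linarith)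
    have h3 : L ^ σ ≤ (π.y ^ 2 * X) ^ σ := by
      rcases hor with h | h
      · rw [h, Real.rpow_zero, Real.rpow_zero]
      · exact Real.rpow_le_rpow hL0 h hσ0
    have e0 : L = L ^ (2 * ε + σ) * L ^ (1 - 2 * ε - 2 * σ) * L ^ σ := by
      rw [← Real.rpow_add hLpos, ← Real.rpow_add hLpos,
        show 2 * ε + σ + (1 - 2 * ε - 2 * σ) + σ = (1 : ℝ) by ring, Real.rpow_one]
    rw [e0]
    refine le_trans (mul_le_mul (mul_le_mul h1 h2 (Real.rpow_nonneg hL0 _) (by positivity)) h3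
      (Real.rpow_nonneg hL0 _) (by positivity)) ?_
    rw [Real.mul_rpow (by positivity : (0 : ℝ) ≤ 2 * π.y) (Real.rpow_nonneg hAB.le _),
      Real.mul_rpow zero_le_two hy.le, Real.mul_rpow (sq_nonneg π.y) hX,
      ← Real.rpow_mul hAB.le, ← Real.rpow_natCast π.y 2, ← Real.rpow_mul hy.le]
    have h4 : (2 : ℝ) ^ (1 - 2 * ε - 2 * σ) ≤ 2 := by
      calc (2 : ℝ) ^ (1 - 2 * ε - 2 * σ) ≤ (2 : ℝ) ^ (1 : ℝ) :=
            Real.rpow_le_rpow_of_exponent_le one_le_two (by linarith)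
        _ = 2 := Real.rpow_one 2
    have e1 : π.y ^ (1 - 2 * ε) = π.y ^ (1 - 2 * ε - 2 * σ) * π.y ^ (((2 : ℕ) : ℝ) * σ) := by
      rw [← Real.rpow_add hy]; congr 1; push_cast; ring
    have e2 : (A * B) ^ (1 / 2 + ε)
        = (A * B) ^ (2 * ε + σ) * (A * B) ^ (1 / 2 * (1 - 2 * ε - 2 * σ)) := by
      rw [← Real.rpow_add hAB]; congr 1; ring
    rw [e1, e2]
    have hnn : 0 ≤ (A * B) ^ (2 * ε + σ) * (A * B) ^ (1 / 2 * (1 - 2 * ε - 2 * σ))
        * (π.y ^ (1 - 2 * ε - 2 * σ) * π.y ^ (((2 : ℕ) : ℝ) * σ)) * X ^ σ := by positivity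
    have := mul_le_mul_of_nonneg_left h4 hnn
    linarith
  rcases hsave with ⟨hLam, hT⟩ | ⟨hW1, hL1⟩
  · set X := Real.sqrt (2 / Z π P Q) * Hs π.T ^ 5 with hX
    have hX0 : 0 ≤ X := mul_nonneg (Real.sqrt_nonneg _) (pow_nonneg (Hs_nonneg _) _)
    have h := key (2 * π.θ) X (by linarith) hθt
      (Or.inr (terminal_omega hy.le hW hPr hP hQ hE hA)) hX0
    have hz : (0 : ℝ) < Z π P Q := Nat.cast_pos.2 (one_le_Z hW)
    have hX2 : X ^ (2 * π.θ) ≤ 2 * Phi π P Q := by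
      rw [Real.rpow_mul hX0, Real.rpow_two, hX, mul_pow, Real.sq_sqrt (by positivity),
        div_mul_eq_mul_div, mul_div_assoc, Real.mul_rpow zero_le_two (div_nonneg
          (pow_nonneg (pow_nonneg (Hs_nonneg _) _) _) hz.le), Phi]
      refine mul_le_mul ?_ (Real.rpow_le_rpow (div_nonneg
        (pow_nonneg (pow_nonneg (Hs_nonneg _) _) _) hz.le) ?_ hθ)
        (Real.rpow_nonneg (div_nonneg (pow_nonneg (pow_nonneg (Hs_nonneg _) _) _) hz.le) _)
        zero_le_two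
      · calc (2 : ℝ) ^ π.θ ≤ (2 : ℝ) ^ (1 : ℝ) :=
              Real.rpow_le_rpow_of_exponent_le one_le_two (by linarith)
          _ = 2 := Real.rpow_one 2
      · refine div_le_div_of_nonneg_right (le_trans ?_ hLam) hz.le
        rw [← pow_mul]
        exact pow_le_pow_left₀ (Hs_nonneg _) (Hs_le _) 10
    have h0 : 0 ≤ π.y ^ (1 - 2 * ε) * (A * B) ^ (1 / 2 + ε) := by positivity
    have := mul_le_mul_of_nonneg_left hX2 h0
    linarith
  · have h := key 0 1 le_rfl (by linarith) (Or.inl rfl) zero_le_one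
    have hphi : Phi π P Q = 1 := by
      have hz : Z π P Q = 1 := le_antisymm (hW1 ▸ Z_le_W) (one_le_Z hW)
      rw [Phi, hz, hL1, Nat.cast_one, div_one, Real.one_rpow]
    rw [hphi, Real.rpow_zero] at *
    have h0 : 0 ≤ π.y ^ (1 - 2 * ε) * (A * B) ^ (1 / 2 + ε) := by positivity
    linarith

end

end Vale.Agent.P028.LogExtra
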