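import Vale.Agent.P028.LogExtra.PotDefs
import Vale.Agent.P028.LogExtra.Terminal

/-!
The potential absorbs its children at one prime, and is tiny at the start.
-/

namespace Vale.Agent.P028.LogExtra

open Finset Vale.Agent.P028.ErdosVaaler

noncomputable section

open scoped Classical

variable {π : Par} {N₀ : ℕ} {C b : ℝ} {S : Finset ℕ}

lemma smWt_nonneg (hC : 0 ≤ C) (n : ℕ) : 0 ≤ smWt C b n :=
  mul_nonneg (pow_nonneg hC _) (Real.rpow_nonneg (Nat.cast_nonneg _) _)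

lemma sum_union_le_add {ι : Type*} [DecidableEq ι] {f : ι → ℝ} (hf : ∀ x, 0 ≤ f x)
    (s t : Finset ι) : ∑ x ∈ s ∪ t, f x ≤ ∑ x ∈ s, f x + ∑ x ∈ t, f x := by
  have h := sum_union_inter (s₁ := s) (s₂ := t) (f := f)
  linarith [sum_nonneg (s := s ∩ t) fun x _ => hf x]

lemma sum_biUnion_le_sum {ι κ : Type*} [DecidableEq ι] [DecidableEq κ] {f : ι → ℝ}
    (hf : ∀ x, 0 ≤ f x) (J : Finset κ) (t : κ → Finset ι) :
    ∑ x ∈ J.biUnion t, f x ≤ ∑ j ∈ J, ∑ x ∈ t j, f x := by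
  induction J using Finset.induction_on with
  | empty => simp
  | insert j J hj ih =>
    rw [biUnion_insert, sum_insert hj]
    exact (sum_union_le_add hf _ _).trans (add_le_add le_rfl ih)

lemma Wsum_nonneg (hC : 0 ≤ C) (α β : ℕ) : 0 ≤ Wsum π N₀ C b S α β :=
  sum_nonneg fun _ _ => sum_nonneg fun _ _ => by
    split <;> [exact mul_nonneg (smWt_nonneg hC _) (smWt_nonneg hC _); exact le_rfl]

lemma smWt_mul_pow {n p d : ℕ} (hp : p.Prime) (hn : 0 < n) (hd : 1 ≤ d)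
    (hpn : p ∉ n.primeFactors) :
    smWt C b (n * p ^ d) = C * ((p : ℝ) ^ d) ^ (b - 1) * smWt C b n := by
  unfold smWt
  rw [Nat.primeFactors_mul hn.ne' (pow_ne_zero _ hp.ne_zero),
    Nat.primeFactors_prime_pow (by omega) hp, card_union_of_disjoint (by simpa using hpn),
    card_singleton, Nat.cast_mul, Nat.cast_pow, Real.mul_rpow (Nat.cast_nonneg _) (by positivity),
    pow_succ]
  ring

lemma smooth_pos {n : ℕ} (h : n ∈ smooth N₀ S) : 0 < n :=
  (Finset.mem_Icc.1 (Finset.mem_filter.1 h).1).1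

lemma not_mem_of_smooth_erase {n p : ℕ} (h : n ∈ smooth N₀ (S.erase p)) :
    p ∉ n.primeFactors := fun hp => by
  simpa using (Finset.mem_filter.1 h).2 hp

lemma mul_pow_mem_smooth {n p d : ℕ} (hp : p.Prime) (hpS : p ∈ S) (hd : 1 ≤ d)
    (hn : n ∈ smooth N₀ (S.erase p)) (hle : n * p ^ d ≤ N₀) : n * p ^ d ∈ smooth N₀ S := by
  have hn0 := smooth_pos hn
  refine Finset.mem_filter.2 ⟨Finset.mem_Icc.2 ⟨Nat.mul_pos hn0 (pow_pos hp.pos _), hle⟩, ?_⟩
  rw [Nat.primeFactors_mul hn0.ne' (pow_ne_zero _ hp.ne_zero),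
    Nat.primeFactors_prime_pow (by omega) hp]
  exact union_subset ((Finset.mem_filter.1 hn).2.trans (erase_subset _ _))
    (singleton_subset_iff.2 hpS)

lemma smooth_erase_subset (p : ℕ) : smooth N₀ (S.erase p) ⊆ smooth N₀ S := fun n hn =>
  Finset.mem_filter.2 ⟨(Finset.mem_filter.1 hn).1,
    (Finset.mem_filter.1 hn).2.trans (erase_subset _ _)⟩

lemma factorization_mul_pow {n p d : ℕ} (hp : p.Prime) (hn : n ∈ smooth N₀ (S.erase p)) :
    (n * p ^ d).factorization p = d := by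
  have hpn := not_mem_of_smooth_erase hn
  rw [← Nat.support_factorization, Finsupp.notMem_support_iff] at hpn
  rw [Nat.factorization_mul (smooth_pos hn).ne' (pow_ne_zero _ hp.ne_zero), Finsupp.add_apply, hpn,
    hp.factorization_pow, Finsupp.single_eq_same, zero_add]

/-- The potential absorbs its children at one prime. -/
theorem Wsum_absorb (hC : 0 ≤ C) {p : ℕ} (hp : p.Prime) (hpS : p ∈ S) (D : ℕ) {α β : ℕ}
    (hα : 0 < α) (hβ : 0 < β) :
    Wsum π N₀ C b (S.erase p) α β + C * childSum π N₀ C b (S.erase p) p D α β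
      ≤ Wsum π N₀ C b S α β := by
  set R := smooth N₀ (S.erase p) with hR
  set g : ℕ × ℕ → ℝ := fun x =>
    if Major π N₀ (α * x.1) (β * x.2) then smWt C b x.1 * smWt C b x.2 else 0 with hg
  have hg0 : ∀ x, 0 ≤ g x := fun x => by
    simp only [hg]; split <;> [exact mul_nonneg (smWt_nonneg hC _) (smWt_nonneg hC _); exact le_rfl]
  set φ₁ : ℕ × ℕ × ℕ → ℕ × ℕ := fun z => (z.2.1 * p ^ z.1, z.2.2) with hφ₁
  set φ₂ : ℕ × ℕ × ℕ → ℕ × ℕ := fun z => (z.2.1, z.2.2 * p ^ z.1) with hφ₂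
  set I₁ := (Icc 1 D ×ˢ (R ×ˢ R)).filter
    (fun z : ℕ × ℕ × ℕ => Major π N₀ (α * (z.2.1 * p ^ z.1)) (β * z.2.2)) with hI₁
  set I₂ := (Icc 1 D ×ˢ (R ×ˢ R)).filter
    (fun z : ℕ × ℕ × ℕ => Major π N₀ (α * z.2.1) (β * (z.2.2 * p ^ z.1))) with hI₂
  have hz : ∀ z ∈ Icc 1 D ×ˢ (R ×ˢ R), 1 ≤ z.1 ∧ z.2.1 ∈ R ∧ z.2.2 ∈ R := fun z hz => by
    simp only [Finset.mem_product, Finset.mem_Icc] at hz
    exact ⟨hz.1.1, hz.2.1, hz.2.2⟩
  have hfac : ∀ n ∈ R, n.factorization p = 0 := fun n hn => by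
    simpa using Finsupp.notMem_support_iff.1
      (by simpa [Nat.support_factorization] using not_mem_of_smooth_erase hn)
  have e₁ : ∀ z ∈ I₁, g (φ₁ z) =
      C * (((p : ℝ) ^ z.1) ^ (b - 1) * (smWt C b z.2.1 * smWt C b z.2.2)) := fun z hz' => by
    obtain ⟨hd, h1, -⟩ := hz z (Finset.mem_filter.1 hz').1
    simp only [hg, hφ₁]
    rw [if_pos (Finset.mem_filter.1 hz').2,
      smWt_mul_pow hp (smooth_pos h1) hd (not_mem_of_smooth_erase h1)]
    ring
  have e₂ : ∀ z ∈ I₂, g (φ₂ z) =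
      C * (((p : ℝ) ^ z.1) ^ (b - 1) * (smWt C b z.2.1 * smWt C b z.2.2)) := fun z hz' => by
    obtain ⟨hd, -, h2⟩ := hz z (Finset.mem_filter.1 hz').1
    simp only [hg, hφ₂]
    rw [if_pos (Finset.mem_filter.1 hz').2,
      smWt_mul_pow hp (smooth_pos h2) hd (not_mem_of_smooth_erase h2)]
    ring
  have inj₁ : Set.InjOn φ₁ I₁ := by
    intro z hz1 z' hz1' he
    obtain ⟨-, h1, -⟩ := hz z (Finset.mem_filter.1 hz1).1
    obtain ⟨-, h1', -⟩ := hz z' (Finset.mem_filter.1 hz1').1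
    simp only [hφ₁, Prod.mk.injEq] at he
    have hd : z.1 = z'.1 := by
      rw [← factorization_mul_pow hp h1 (d := z.1), he.1, factorization_mul_pow hp h1']
    have hn := he.1
    rw [hd] at hn
    exact Prod.ext hd (Prod.ext (Nat.eq_of_mul_eq_mul_right (pow_pos hp.pos _) hn) he.2)
  have inj₂ : Set.InjOn φ₂ I₂ := by
    intro z hz1 z' hz1' he
    obtain ⟨-, -, h1⟩ := hz z (Finset.mem_filter.1 hz1).1
    obtain ⟨-, -, h1'⟩ := hz z' (Finset.mem_filter.1 hz1').1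
    simp only [hφ₂, Prod.mk.injEq] at he
    have hd : z.1 = z'.1 := by
      rw [← factorization_mul_pow hp h1 (d := z.1), he.2, factorization_mul_pow hp h1']
    have hn := he.2
    rw [hd] at hn
    exact Prod.ext hd (Prod.ext he.1 (Nat.eq_of_mul_eq_mul_right (pow_pos hp.pos _) hn))
  have d12 : Disjoint (I₁.image φ₁) (I₂.image φ₂) := by
    rw [Finset.disjoint_left]
    intro x hx hx'
    obtain ⟨z, hz1, rfl⟩ := Finset.mem_image.1 hx
    obtain ⟨z', hz2, he⟩ := Finset.mem_image.1 hx'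
    obtain ⟨hd, h1, -⟩ := hz z (Finset.mem_filter.1 hz1).1
    obtain ⟨-, h1', -⟩ := hz z' (Finset.mem_filter.1 hz2).1
    simp only [hφ₁, hφ₂, Prod.mk.injEq] at he
    have := hfac _ h1'
    rw [he.1, factorization_mul_pow hp h1] at this
    omega
  have d0 : Disjoint (R ×ˢ R) (I₁.image φ₁ ∪ I₂.image φ₂) := by
    rw [Finset.disjoint_left]
    intro x hx hx'
    obtain ⟨hx1, hx2⟩ := Finset.mem_product.1 hx
    rcases Finset.mem_union.1 hx' with h | h <;> obtain ⟨z, hz1, rfl⟩ := Finset.mem_image.1 h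
    · obtain ⟨hd, h1, -⟩ := hz z (Finset.mem_filter.1 hz1).1
      have := hfac _ hx1
      simp only [hφ₁] at this
      rw [factorization_mul_pow hp h1] at this
      omega
    · obtain ⟨hd, -, h1⟩ := hz z (Finset.mem_filter.1 hz1).1
      have := hfac _ hx2
      simp only [hφ₂] at this
      rw [factorization_mul_pow hp h1] at this
      omega
  have hsub : (R ×ˢ R) ∪ (I₁.image φ₁ ∪ I₂.image φ₂) ⊆ smooth N₀ S ×ˢ smooth N₀ S := by
    refine union_subset (product_subset_product (smooth_erase_subset p) (smooth_erase_subset p))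
      (union_subset ?_ ?_) <;> intro x hx <;> obtain ⟨z, hz1, rfl⟩ := Finset.mem_image.1 hx <;>
      obtain ⟨hd, h1, h2⟩ := hz z (Finset.mem_filter.1 hz1).1
    · exact Finset.mem_product.2 ⟨mul_pow_mem_smooth hp hpS hd h1
        ((Nat.le_mul_of_pos_left _ hα).trans (Finset.mem_filter.1 hz1).2.1),
        smooth_erase_subset p h2⟩
    · exact Finset.mem_product.2 ⟨smooth_erase_subset p h1, mul_pow_mem_smooth hp hpS hd h2
        ((Nat.le_mul_of_pos_left _ hβ).trans (Finset.mem_filter.1 hz1).2.2.1)⟩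
  have c₁ : C * ∑ d ∈ Icc 1 D, ((p : ℝ) ^ d) ^ (b - 1) *
      Wsum π N₀ C b (S.erase p) (α * p ^ d) β = ∑ x ∈ I₁.image φ₁, g x := by
    rw [sum_image inj₁, sum_congr rfl e₁, hI₁, sum_filter, sum_product]
    simp only [Wsum, ← hR, mul_sum, ← sum_product']
    refine sum_congr rfl fun z _ => ?_
    rw [show α * p ^ z.1 * z.2.1 = α * (z.2.1 * p ^ z.1) by ring]
    split <;> ring
  have c₂ : C * ∑ d ∈ Icc 1 D, ((p : ℝ) ^ d) ^ (b - 1) *
      Wsum π N₀ C b (S.erase p) α (β * p ^ d) = ∑ x ∈ I₂.image φ₂, g x := by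
    rw [sum_image inj₂, sum_congr rfl e₂, hI₂, sum_filter, sum_product]
    simp only [Wsum, ← hR, mul_sum, ← sum_product']
    refine sum_congr rfl fun z _ => ?_
    rw [show β * p ^ z.1 * z.2.2 = β * (z.2.2 * p ^ z.1) by ring]
    split <;> ring
  calc Wsum π N₀ C b (S.erase p) α β + C * childSum π N₀ C b (S.erase p) p D α β
      = ∑ x ∈ (R ×ˢ R) ∪ (I₁.image φ₁ ∪ I₂.image φ₂), g x := by
        rw [sum_union d0, sum_union d12, ← c₁, ← c₂, childSum]
        simp only [mul_add, sum_add_distrib]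
        rw [show Wsum π N₀ C b (S.erase p) α β = ∑ x ∈ R ×ˢ R, g x by
          simp only [Wsum, hg, ← hR, sum_product]]
    _ ≤ ∑ x ∈ smooth N₀ S ×ˢ smooth N₀ S, g x :=
        sum_le_sum_of_subset_of_nonneg hsub fun x _ _ => hg0 x
    _ = Wsum π N₀ C b S α β := by simp only [Wsum, hg, sum_product]

/-- `C ^ ω n` is at most a power of `n`. -/
lemma exists_pow_omega_le (C : ℝ) {b : ℝ} (hb : 0 < b) :
    ∃ A : ℝ, 1 ≤ A ∧ ∀ n : ℕ, 0 < n → |C| ^ n.primeFactors.card ≤ A * (n : ℝ) ^ b := by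
  set C₁ := max 1 |C| with hC₁
  have h1 : (1 : ℝ) ≤ C₁ := le_max_left _ _
  set M := ⌈C₁ ^ b⁻¹⌉₊ with hM
  refine ⟨C₁ ^ M, one_le_pow₀ h1, fun n hn => ?_⟩
  have hbig : ∀ p : ℕ, M ≤ p → C₁ ≤ (p : ℝ) ^ b := by
    intro p hp
    calc C₁ = (C₁ ^ b⁻¹) ^ b := by
          rw [← Real.rpow_mul (by linarith), inv_mul_cancel₀ hb.ne', Real.rpow_one]
      _ ≤ (p : ℝ) ^ b := Real.rpow_le_rpow (by positivity)
          ((Nat.le_ceil _).trans (Nat.cast_le.2 hp)) hb.le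
  set U := n.primeFactors with hU
  calc |C| ^ U.card ≤ C₁ ^ U.card := pow_le_pow_left₀ (abs_nonneg _) (le_max_right _ _) _
    _ = C₁ ^ (U.filter (fun p => ¬ M ≤ p)).card * C₁ ^ (U.filter (fun p => M ≤ p)).card := by
        rw [← pow_add, add_comm, card_filter_add_card_filter_not]
    _ ≤ C₁ ^ M * ∏ p ∈ U.filter (fun p => M ≤ p), (p : ℝ) ^ b := by
        refine mul_le_mul (pow_le_pow_right₀ h1 ?_) ?_ (by positivity) (by positivity)
        · refine (card_le_card fun p hp => Finset.mem_range.2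
            (not_le.1 (Finset.mem_filter.1 hp).2)).trans (card_range M).le
        · rw [← prod_const]
          exact prod_le_prod (fun _ _ => by linarith) fun p hp => hbig p (Finset.mem_filter.1 hp).2
    _ ≤ C₁ ^ M * (n : ℝ) ^ b := by
        refine mul_le_mul_of_nonneg_left ?_ (by positivity)
        rw [Real.finsetProd_rpow _ _ fun p _ => Nat.cast_nonneg p, ← Nat.cast_prod]
        refine Real.rpow_le_rpow (Nat.cast_nonneg _) (Nat.cast_le.2 ?_) hb.le
        exact Nat.le_of_dvd hn ((prod_dvd_prod_of_subset _ _ _ (filter_subset _ _)).trans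
          (Nat.prod_primeFactors_dvd n))

/-- A set with spacing `s`, all at least `s`, has a small harmonic sum. -/
lemma sum_inv_spaced {N s : ℕ} (hs : 0 < s) {M : Finset ℕ} (hM : M ⊆ Icc 1 N)
    (hge : ∀ n ∈ M, s ≤ n) (hsp : ∀ n ∈ M, ∀ n' ∈ M, n < n' → s ≤ n' - n) :
    ∑ n ∈ M, (n : ℝ)⁻¹ ≤ Hs N / s := by
  have hsR : (0 : ℝ) < s := Nat.cast_pos.2 hs
  have hinj : Set.InjOn (· / s) (M : Set ℕ) := by
    intro n hn n' hn' he
    simp only at he
    have a1 := Nat.mod_add_div n s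
    have a2 := Nat.mod_add_div n' s
    have a3 := Nat.mod_lt n hs
    have a4 := Nat.mod_lt n' hs
    rw [he] at a1
    rcases lt_trichotomy n n' with h | h | h
    · have := hsp n hn n' hn' h; omega
    · exact h
    · have := hsp n' hn' n hn h; omega
  calc ∑ n ∈ M, (n : ℝ)⁻¹ ≤ ∑ n ∈ M, (((n / s : ℕ) : ℝ))⁻¹ / s := by
        refine sum_le_sum fun n hn => ?_
        rw [div_eq_mul_inv, ← mul_inv]
        refine inv_anti₀ (mul_pos (Nat.cast_pos.2 (Nat.div_pos (hge n hn) hs)) hsR) ?_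
        exact_mod_cast Nat.div_mul_le_self n s
    _ = ∑ i ∈ M.image (· / s), ((i : ℝ))⁻¹ / s :=
        (sum_image (f := fun i : ℕ => ((i : ℝ))⁻¹ / s) hinj).symm
    _ ≤ Hs N / s := by
        rw [Hs, sum_div]
        refine sum_le_sum_of_subset_of_nonneg (fun i hi => ?_) fun i _ _ => by positivity
        obtain ⟨n, hn, rfl⟩ := Finset.mem_image.1 hi
        exact Finset.mem_Icc.2 ⟨Nat.div_pos (hge n hn) hs,
          (Nat.div_le_self _ _).trans (Finset.mem_Icc.1 (hM hn)).2⟩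

/-- Hits of `n m + k` for `n` in `[1, N]`, all at least `s`, when small shifts do not hit. -/
lemma sum_inv_hits {K₀ : ℕ} {N s : ℕ} (hs : 0 < s) {m k : ℤ} (hm : m ≠ 0)
    (hsm : (s : ℤ) * |m| ≤ K₀)
    (hflat : ∀ k : ℤ, k ≠ 0 → |k| < K₀ → ¬ Hit π.γ (2 * π.y) (k : ℝ)) :
    ∑ n ∈ (Icc 1 N).filter
        (fun n : ℕ => s ≤ n ∧ Hit π.γ (2 * π.y) ((n * m + k : ℤ) : ℝ)), (n : ℝ)⁻¹
      ≤ 2 * Hs N / s := by
  set M := (Icc 1 N).filter
    (fun n : ℕ => s ≤ n ∧ Hit π.γ (2 * π.y) ((n * m + k : ℤ) : ℝ)) with hMdef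
  set P : ℕ → Prop := fun n =>
    ∃ j : ℤ, 0 ≤ ((n * m + k : ℤ) : ℝ) * π.γ - j ∧ ((n * m + k : ℤ) : ℝ) * π.γ - j < 2 * π.y
  have hsub : ∀ M' ⊆ M, (∀ n ∈ M', ∀ n' ∈ M', ∃ j j' : ℤ,
      |(((n * m + k : ℤ) : ℝ) * π.γ - j) - (((n' * m + k : ℤ) : ℝ) * π.γ - j')| < 2 * π.y) →
      ∑ n ∈ M', (n : ℝ)⁻¹ ≤ Hs N / s := by
    intro M' hM' hclose
    refine sum_inv_spaced hs (hM'.trans (filter_subset _ _))
      (fun n hn => (Finset.mem_filter.1 (hM' hn)).2.1) fun n hn n' hn' hlt => ?_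
    by_contra hlt'
    obtain ⟨j, j', hj⟩ := hclose n' hn' n hn
    refine hflat (((n' : ℤ) - n) * m) (mul_ne_zero (by omega) hm) ?_ ⟨j - j', ?_⟩
    · rw [abs_mul]
      have h1 : |(n' : ℤ) - n| < s := by rw [abs_lt]; omega
      have h2 : 0 < |m| := abs_pos.2 hm
      calc |(n' : ℤ) - n| * |m| < (s : ℤ) * |m| := mul_lt_mul_of_pos_right h1 h2
        _ ≤ K₀ := hsm
    · convert hj using 2
      push_cast
      ring
  rw [← sum_filter_add_sum_filter_not M P, two_mul, add_div]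
  refine add_le_add (hsub _ (filter_subset _ _) fun n hn n' hn' => ?_)
    (hsub _ (filter_subset _ _) fun n hn n' hn' => ?_)
  · obtain ⟨j, h1, h2⟩ := (Finset.mem_filter.1 hn).2
    obtain ⟨j', h1', h2'⟩ := (Finset.mem_filter.1 hn').2
    exact ⟨j, j', by rw [abs_lt]; constructor <;> linarith⟩
  · obtain ⟨hnM, hnP⟩ := Finset.mem_filter.1 hn
    obtain ⟨hnM', hnP'⟩ := Finset.mem_filter.1 hn'
    obtain ⟨j, hj⟩ := (Finset.mem_filter.1 hnM).2.2
    obtain ⟨j', hj'⟩ := (Finset.mem_filter.1 hnM').2.2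
    rw [abs_lt] at hj hj'
    have e : ((n * m + k : ℤ) : ℝ) * π.γ - j < 0 := not_le.1 fun h => hnP ⟨j, h, hj.2⟩
    have e' : ((n' * m + k : ℤ) : ℝ) * π.γ - j' < 0 := not_le.1 fun h => hnP' ⟨j', h, hj'.2⟩
    exact ⟨j, j', by rw [abs_lt]; constructor <;> linarith⟩

/-- At the start the potential only sees multiples of size about `K₀ / W`. -/
theorem exists_Wsum_one_le (C : ℝ) {b : ℝ} (hb : 0 < b) :
    ∃ A : ℝ, 0 ≤ A ∧ ∀ (π : Par) (N₀ K₀ : ℕ) (S : Finset ℕ), 1 ≤ π.W → 1 ≤ K₀ →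
      (∀ k : ℤ, k ≠ 0 → |k| < (K₀ : ℤ) → ¬ Hit π.γ (2 * π.y) (k : ℝ)) →
      Wsum π N₀ C b S 1 1
        ≤ A * (N₀ : ℝ) ^ (4 * b) * (π.W : ℝ) ^ 3 * (1 + Real.log N₀) ^ 2 / K₀ := by
  obtain ⟨A, hA1, hA⟩ := exists_pow_omega_le C hb
  refine ⟨256 * A ^ 2, by positivity, fun π N₀ K₀ S hW hK hflat => ?_⟩
  rcases Nat.eq_zero_or_pos N₀ with rfl | hN
  · simp only [Wsum, smooth]
    rw [show Icc 1 0 = (∅ : Finset ℕ) by rfl, filter_empty, sum_empty]
    positivity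
  set W := π.W with hWdef
  set H := Hs N₀ with hH
  have hH0 : 0 ≤ H := Hs_nonneg _
  have hwt : ∀ n ∈ Icc 1 N₀, |smWt C b n| ≤ A * (N₀ : ℝ) ^ (2 * b) * (n : ℝ)⁻¹ := by
    intro n hn
    obtain ⟨h1, h2⟩ := Finset.mem_Icc.1 hn
    have hn0 : (0 : ℝ) < n := Nat.cast_pos.2 h1
    rw [smWt, abs_mul, abs_pow, abs_of_pos (Real.rpow_pos_of_pos hn0 _)]
    calc |C| ^ n.primeFactors.card * (n : ℝ) ^ (b - 1)
        ≤ A * (n : ℝ) ^ b * (n : ℝ) ^ (b - 1) :=
          mul_le_mul_of_nonneg_right (hA n h1) (by positivity)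
      _ = A * (n : ℝ) ^ (2 * b) * (n : ℝ)⁻¹ := by
          rw [← Real.rpow_neg_one (n : ℝ), mul_assoc, mul_assoc, ← Real.rpow_add hn0,
            ← Real.rpow_add hn0]
          ring_nf
      _ ≤ _ := by gcongr
  set s := max 1 (K₀ / (4 * W)) with hs
  have hs0 : 0 < s := lt_of_lt_of_le one_pos (le_max_left _ _)
  set J := (Ioo (-(W : ℤ)) W ×ˢ Ioo (-(W : ℤ)) W) with hJ
  set X : Finset (ℕ × ℕ) := (Icc 1 N₀ ×ˢ Icc 1 N₀).filter
    (fun x => Major π N₀ x.1 x.2) with hX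
  have hstep : Wsum π N₀ C b S 1 1
      ≤ A ^ 2 * (N₀ : ℝ) ^ (4 * b) * ∑ x ∈ X, (x.1 : ℝ)⁻¹ * (x.2 : ℝ)⁻¹ := by
    rw [hX, mul_sum, sum_filter, sum_product]
    unfold Wsum
    refine le_trans (sum_le_sum fun n hn => sum_le_sum fun n' hn' =>
      (?_ : _ ≤ if Major π N₀ n n' then
        A ^ 2 * (N₀ : ℝ) ^ (4 * b) * ((n : ℝ)⁻¹ * (n' : ℝ)⁻¹) else 0))
      ((sum_le_sum fun n _ => sum_le_sum_of_subset_of_nonneg (filter_subset _ _)
          fun n' _ _ => ?_).trans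
        (sum_le_sum_of_subset_of_nonneg (filter_subset _ _) fun n _ _ => ?_))
    · rw [one_mul, one_mul]
      split
      · refine (le_abs_self _).trans ?_
        rw [abs_mul]
        refine (mul_le_mul (hwt n (Finset.mem_filter.1 hn).1) (hwt n' (Finset.mem_filter.1 hn').1)
          (abs_nonneg _) (by positivity)).trans (le_of_eq ?_)
        rw [show 4 * b = 2 * b + 2 * b by ring, Real.rpow_add (Nat.cast_pos.2 hN)]
        ring
      · exact le_rfl
    · split <;> positivity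
    · exact sum_nonneg fun n' _ => by split <;> positivity
  set G₁ : ℤ × ℤ → Finset (ℕ × ℕ) := fun j => (Icc 1 N₀ ×ˢ Icc 1 N₀).filter
    (fun x => j.1 ≠ 0 ∧ s ≤ x.1 ∧ Hit π.γ (2 * π.y) ((x.1 * j.1 + -(x.2 * j.2) : ℤ) : ℝ))
  set G₂ : ℤ × ℤ → Finset (ℕ × ℕ) := fun j => (Icc 1 N₀ ×ˢ Icc 1 N₀).filter
    (fun x => j.2 ≠ 0 ∧ s ≤ x.2 ∧ Hit π.γ (2 * π.y) ((x.2 * (-j.2) + x.1 * j.1 : ℤ) : ℝ))
  have hcover : ∀ x ∈ X, ∃ j ∈ J, x ∈ G₁ j ∪ G₂ j := by
    intro x hx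
    obtain ⟨hxI, -, -, hng⟩ := Finset.mem_filter.1 hx
    simp only [Good, not_forall, not_not] at hng
    obtain ⟨m, l, hm, hl, hne, hit⟩ := hng
    refine ⟨(m, l), by simp only [hJ, Finset.mem_product, Finset.mem_Ioo]; rw [abs_lt] at hm hl
                       exact ⟨hm, hl⟩, ?_⟩
    obtain ⟨ha, hb'⟩ := Finset.mem_product.1 hxI
    have hx1 := (Finset.mem_Icc.1 ha).1
    have hx2 := (Finset.mem_Icc.1 hb').1
    by_contra hnot
    simp only [Finset.mem_union, G₁, G₂, Finset.mem_filter, hxI, true_and, not_or, not_and] at hnot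
    have e1 : m = 0 ∨ x.1 < s := by
      by_contra h; push Not at h
      exact hnot.1 h.1 h.2 (by convert hit using 2; push_cast; ring)
    have e2 : l = 0 ∨ x.2 < s := by
      by_contra h; push Not at h
      exact hnot.2 h.1 h.2 (by convert hit using 2; push_cast; ring)
    have hdiv : s = 1 ∨ s * (4 * W) ≤ K₀ := by
      rcases le_total (K₀ / (4 * W)) 1 with h | h
      · exact Or.inl (max_eq_left h)
      · exact Or.inr (by rw [hs, max_eq_right h]; exact Nat.div_mul_le_self _ _)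
    rcases hdiv with h1 | h1
    · have hm0 : m = 0 := e1.resolve_right (by omega)
      have hl0 : l = 0 := e2.resolve_right (by omega)
      simp [hm0, hl0] at hne
    · refine hflat _ (sub_ne_zero.2 hne) ?_ hit
      have hb1 : |(x.1 : ℤ) * m| ≤ (s : ℤ) * W := by
        rcases e1 with h | h
        · rw [h, mul_zero, abs_zero]; positivity
        · rw [abs_mul, Nat.abs_cast]
          exact mul_le_mul (by exact_mod_cast h.le) hm.le (abs_nonneg _) (Int.natCast_nonneg _)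
      have hb2 : |(x.2 : ℤ) * l| ≤ (s : ℤ) * W := by
        rcases e2 with h | h
        · rw [h, mul_zero, abs_zero]; positivity
        · rw [abs_mul, Nat.abs_cast]
          exact mul_le_mul (by exact_mod_cast h.le) hl.le (abs_nonneg _) (Int.natCast_nonneg _)
      have h2 : 4 * ((s : ℤ) * W) ≤ K₀ := by
        have : ((s * (4 * W) : ℕ) : ℤ) ≤ K₀ := by exact_mod_cast h1
        push_cast at this
        linarith
      have h3 : (1 : ℤ) ≤ (s : ℤ) * W := by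
        exact_mod_cast Nat.one_le_iff_ne_zero.2 (Nat.mul_pos hs0 hW).ne'
      have h4 := abs_sub ((x.1 : ℤ) * m) ((x.2 : ℤ) * l)
      linarith
  have hsm : ∀ m : ℤ, |m| < W → m ≠ 0 → (s : ℤ) * |m| ≤ K₀ ∨ s = 1 := by
    intro m hm _
    rcases le_total (K₀ / (4 * W)) 1 with h | h
    · exact Or.inr (max_eq_left h)
    · left
      have h' : s * (4 * W) ≤ K₀ := by rw [hs, max_eq_right h]; exact Nat.div_mul_le_self _ _
      calc (s : ℤ) * |m| ≤ (s : ℤ) * W := by gcongr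
        _ ≤ (s : ℤ) * (4 * W) := by gcongr; linarith [Int.natCast_nonneg W]
        _ ≤ K₀ := by exact_mod_cast h'
  have htriv : ∀ M ⊆ Icc 1 N₀, ∑ n ∈ M, (n : ℝ)⁻¹ ≤ H := fun M hM =>
    sum_le_sum_of_subset_of_nonneg hM fun n _ _ => by positivity
  have hline : ∀ (m k : ℤ), |m| < W → m ≠ 0 → ∑ n ∈ (Icc 1 N₀).filter (fun n : ℕ =>
      s ≤ n ∧ Hit π.γ (2 * π.y) ((n * m + k : ℤ) : ℝ)), (n : ℝ)⁻¹ ≤ 2 * H / s := by
    intro m k hm hm0
    rcases hsm m hm hm0 with h | h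
    · exact sum_inv_hits hs0 hm0 h hflat
    · rw [h, Nat.cast_one, div_one]
      linarith [htriv _ (filter_subset (fun n : ℕ =>
        1 ≤ n ∧ Hit π.γ (2 * π.y) ((n * m + k : ℤ) : ℝ)) (Icc 1 N₀))]
  have hG : ∀ j ∈ J, ∑ x ∈ G₁ j ∪ G₂ j, (x.1 : ℝ)⁻¹ * (x.2 : ℝ)⁻¹ ≤ 4 * H ^ 2 / s := by
    intro j hj
    simp only [hJ, Finset.mem_product, Finset.mem_Ioo] at hj
    refine le_trans (sum_union_le_add (fun x => by positivity) _ _) ?_
    have b1 : ∑ x ∈ G₁ j, (x.1 : ℝ)⁻¹ * (x.2 : ℝ)⁻¹ ≤ 2 * H ^ 2 / s := by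
      rw [sum_filter, sum_product, sum_comm]
      calc _ ≤ ∑ n' ∈ Icc 1 N₀, (n' : ℝ)⁻¹ * (2 * H / s) := by
            refine sum_le_sum fun n' _ => ?_
            rw [← sum_filter]
            simp only
            rw [← sum_mul, mul_comm]
            refine mul_le_mul_of_nonneg_left ?_ (by positivity)
            by_cases h0 : j.1 = 0
            · rw [filter_false_of_mem fun n _ => by simp [h0], sum_empty]; positivity
            refine le_trans (le_of_eq (sum_congr ?_ fun _ _ => rfl))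
              (hline j.1 (-(n' * j.2)) (abs_lt.2 hj.1) h0)
            exact filter_congr fun n _ => by simp [h0]
        _ = _ := by rw [← sum_mul, hH, Hs]; ring
    have b2 : ∑ x ∈ G₂ j, (x.1 : ℝ)⁻¹ * (x.2 : ℝ)⁻¹ ≤ 2 * H ^ 2 / s := by
      rw [sum_filter, sum_product]
      calc _ ≤ ∑ n ∈ Icc 1 N₀, (n : ℝ)⁻¹ * (2 * H / s) := by
            refine sum_le_sum fun n _ => ?_
            rw [← sum_filter]
            simp only
            rw [← mul_sum]
            refine mul_le_mul_of_nonneg_left ?_ (by positivity)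
            by_cases h0 : j.2 = 0
            · rw [filter_false_of_mem fun n' _ => by simp [h0], sum_empty]; positivity
            refine le_trans (le_of_eq (sum_congr ?_ fun _ _ => rfl))
              (hline (-j.2) (n * j.1) (by rw [abs_neg]; exact abs_lt.2 hj.2) (neg_ne_zero.2 h0))
            exact filter_congr fun n' _ => by simp [h0]
        _ = _ := by rw [← sum_mul, hH, Hs]; ring
    exact (add_le_add b1 b2).trans (le_of_eq (by ring))
  have hXsum : ∑ x ∈ X, (x.1 : ℝ)⁻¹ * (x.2 : ℝ)⁻¹ ≤ (2 * W : ℝ) ^ 2 * (4 * H ^ 2 / s) := by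
    refine (sum_le_sum_of_subset_of_nonneg (t := J.biUnion fun j => G₁ j ∪ G₂ j)
      (fun x hx => Finset.mem_biUnion.2 (hcover x hx)) fun x _ _ => by positivity).trans ?_
    refine (sum_biUnion_le_sum (fun x => by positivity) _ _).trans ((sum_le_sum hG).trans ?_)
    rw [sum_const, nsmul_eq_mul]
    refine mul_le_mul_of_nonneg_right ?_ (by positivity)
    have hc : J.card ≤ (2 * W) * (2 * W) := by
      rw [hJ, card_product, Int.card_Ioo]
      exact Nat.mul_le_mul (by omega) (by omega)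
    rw [sq]
    exact_mod_cast hc
  have hsK : (K₀ : ℝ) / (8 * W) ≤ s := by
    have hW0 : (0 : ℝ) < W := Nat.cast_pos.2 hW
    rw [div_le_iff₀ (by positivity)]
    have : K₀ ≤ s * (8 * W) := by
      have h1 := Nat.div_add_mod K₀ (4 * W)
      have h2 := Nat.mod_lt K₀ (show 0 < 4 * W by omega)
      have h3 : K₀ / (4 * W) ≤ s := le_max_right _ _
      have h4 : 1 ≤ s := le_max_left _ _
      nlinarith
    exact_mod_cast this
  have hinv : (1 : ℝ) / s ≤ 8 * W / K₀ := by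
    rw [div_le_div_iff₀ (Nat.cast_pos.2 hs0) (Nat.cast_pos.2 hK)]
    rw [div_le_iff₀ (by positivity)] at hsK
    linarith
  have hHlog : H ≤ 1 + Real.log N₀ := Hs_le N₀
  refine hstep.trans ((mul_le_mul_of_nonneg_left hXsum (by positivity)).trans ?_)
  calc A ^ 2 * (N₀ : ℝ) ^ (4 * b) * ((2 * W : ℝ) ^ 2 * (4 * H ^ 2 / s))
      = 16 * A ^ 2 * (N₀ : ℝ) ^ (4 * b) * (W : ℝ) ^ 2 * H ^ 2 * (1 / s) := by ring
    _ ≤ 16 * A ^ 2 * (N₀ : ℝ) ^ (4 * b) * (W : ℝ) ^ 2 * (1 + Real.log N₀) ^ 2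
          * (8 * W / K₀) := by gcongr
    _ ≤ _ := by
        rw [show 256 * A ^ 2 * (N₀ : ℝ) ^ (4 * b) * (W : ℝ) ^ 3 * (1 + Real.log N₀) ^ 2 / K₀ =
          2 * (16 * A ^ 2 * (N₀ : ℝ) ^ (4 * b) * (W : ℝ) ^ 2 * (1 + Real.log N₀) ^ 2
            * (8 * W / K₀)) by ring]
        exact le_mul_of_one_le_left (by positivity) one_le_two

end

end Vale.Agent.P028.LogExtra
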