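import Vale.Agent.P028.LogExtra.Cells
import Vale.Agent.P028.LogExtra.Matrix
import Vale.Agent.P028.LogExtra.Potential

/-!
The induction over primes: admissible pairs are bounded through the potential of the multipliers.
-/

namespace Vale.Agent.P028.LogExtra

open Finset Vale.Agent.P028.ErdosVaaler

noncomputable section

open scoped Classical

lemma sum_geom_le {q : ℝ} (hq0 : 0 ≤ q) (hq1 : q < 1) {D : Finset ℕ} (hD : ∀ d ∈ D, 1 ≤ d) :
    ∑ d ∈ D, q ^ d ≤ q / (1 - q) := by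
  calc ∑ d ∈ D, q ^ d = q * ∑ k ∈ D.image (· - 1), q ^ k := by
        rw [mul_sum, sum_image (fun x hx y hy h => by
          have := hD x hx; have := hD y hy; have h' : x - 1 = y - 1 := h; omega)]
        refine sum_congr rfl fun d hd => ?_
        rw [← pow_succ']
        congr 1
        have := hD d hd
        omega
    _ ≤ q * (1 - q)⁻¹ := by
        refine mul_le_mul_of_nonneg_left ?_ hq0
        rw [← tsum_geometric_of_lt_one hq0 hq1]
        exact (summable_geometric_of_lt_one hq0 hq1).sum_le_tsum _ fun k _ => by positivity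
    _ = _ := by rw [div_eq_mul_inv]

/-- The sum of `q ^ dist(i, j)` over `j ≠ i`. -/
lemma sum_dist_le {q : ℝ} (hq0 : 0 ≤ q) (hq1 : q < 1) (N i : ℕ) :
    ∑ j ∈ (range N).erase i, q ^ ((i - j) + (j - i)) ≤ 2 * (q / (1 - q)) := by
  rw [← sum_filter_add_sum_filter_not ((range N).erase i) (· < i), two_mul]
  refine add_le_add ?_ ?_
  · set F := ((range N).erase i).filter (· < i) with hF
    calc ∑ j ∈ F, q ^ ((i - j) + (j - i)) = ∑ d ∈ F.image (fun j => (i - j) + (j - i)), q ^ d := by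
          rw [sum_image]
          intro x hx y hy h
          have h1 := (Finset.mem_filter.1 hx).2
          have h2 := (Finset.mem_filter.1 hy).2
          have h' : (i - x) + (x - i) = (i - y) + (y - i) := h
          omega
      _ ≤ _ := sum_geom_le hq0 hq1 fun d hd => by
          obtain ⟨j, hj, rfl⟩ := Finset.mem_image.1 hd
          have := (Finset.mem_filter.1 hj).2
          omega
  · set F := ((range N).erase i).filter (fun j => ¬ j < i) with hF
    calc ∑ j ∈ F, q ^ ((i - j) + (j - i)) = ∑ d ∈ F.image (fun j => (i - j) + (j - i)), q ^ d := by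
          rw [sum_image]
          intro x hx y hy h
          have h1 := (Finset.mem_filter.1 hx).2
          have h2 := (Finset.mem_filter.1 hy).2
          have h' : (i - x) + (x - i) = (i - y) + (y - i) := h
          omega
      _ ≤ _ := sum_geom_le hq0 hq1 fun d hd => by
          obtain ⟨j, hj, rfl⟩ := Finset.mem_image.1 hd
          have h1 := (Finset.mem_filter.1 hj).2
          have h2 := Finset.ne_of_mem_erase (Finset.mem_filter.1 hj).1
          omega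

/-- Two-term Hölder inequality. -/
lemma holder_two {t s u v x z : ℝ} (ht : 0 < t) (hs : 0 < s) (hts : t + s = 1) (hu : 0 ≤ u)
    (hv : 0 ≤ v) (hx : 0 ≤ x) (hz : 0 ≤ z) (h : x ^ s⁻¹ + z ^ s⁻¹ ≤ 1) :
    u ^ t * x + v ^ t * z ≤ (u + v) ^ t := by
  rcases (add_nonneg hu hv).eq_or_lt with h0 | hpos
  · have hu0 : u = 0 := by linarith
    have hv0 : v = 0 := by linarith
    simp [hu0, hv0, Real.zero_rpow ht.ne']
  have e : ∀ w y : ℝ, 0 ≤ w → 0 ≤ y →
      w ^ t * y ≤ (u + v) ^ t * (t * (w / (u + v)) + s * y ^ s⁻¹) := by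
    intro w y hw hy
    have hg := Real.geom_mean_le_arith_mean2_weighted ht.le hs.le
      (div_nonneg hw hpos.le) (Real.rpow_nonneg hy s⁻¹) hts
    rw [← Real.rpow_mul hy, inv_mul_cancel₀ hs.ne', Real.rpow_one,
      Real.div_rpow hw hpos.le] at hg
    have hp : 0 < (u + v) ^ t := Real.rpow_pos_of_pos hpos _
    rw [div_mul_eq_mul_div, div_le_iff₀ hp] at hg
    linarith
  have h1 := e u x hu hx
  have h2 := e v z hv hz
  have h3 : (u + v) ^ t * (t * (u / (u + v)) + s * x ^ s⁻¹)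
      + (u + v) ^ t * (t * (v / (u + v)) + s * z ^ s⁻¹)
      = (u + v) ^ t * (t + s * (x ^ s⁻¹ + z ^ s⁻¹)) := by
    field_simp
    ring
  have h4 : (u + v) ^ t * (t + s * (x ^ s⁻¹ + z ^ s⁻¹)) ≤ (u + v) ^ t * 1 := by
    refine mul_le_mul_of_nonneg_left ?_ (Real.rpow_nonneg hpos.le _)
    have := mul_le_mul_of_nonneg_left h hs.le
    linarith
  linarith

lemma mul_rpow_split {A B x y s : ℝ} (hA : 0 < A) (hB : 0 < B) (hx : 0 ≤ x) (hy : 0 ≤ y) :
    (x * y) ^ s = (A * B) ^ s * ((x / A) ^ s * (y / B) ^ s) := by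
  rw [← Real.mul_rpow (div_nonneg hx hA.le) (div_nonneg hy hB.le),
    ← Real.mul_rpow (mul_nonneg hA.le hB.le) (mul_nonneg (div_nonneg hx hA.le) (div_nonneg hy hB.le))]
  congr 1
  field_simp

/-- Scaling of the cell bound. -/
lemma cell_scale {ε K Φ pl pr ρi ρj A B : ℝ} (_hε : 0 < ε) (hε' : ε < 1 / 2) (hρi : 0 < ρi)
    (hρj : 0 < ρj) (hρi1 : ρi ≤ 1) (hρj1 : ρj ≤ 1) (hpl : 0 < pl) (hpr : 0 < pr) (hA : 0 ≤ A)
    (hB : 0 ≤ B) (hK : 0 ≤ K) (hΦ : 0 ≤ Φ) :
    ρi * ρj / (pl * pr) * (K * Φ ^ (1 / 2 - ε) * (pl / ρi * A * (pr / ρj * B)) ^ (1 / 2 + ε))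
      ≤ K * ((pl * pr)⁻¹ * Φ) ^ (1 / 2 - ε) * (A * B) ^ (1 / 2 + ε) := by
  set s : ℝ := 1 / 2 + ε with hs
  set t : ℝ := 1 / 2 - ε with ht
  set X : ℝ := pl * pr / (ρi * ρj) with hX
  have hX0 : 0 < X := by positivity
  have e1 : pl / ρi * A * (pr / ρj * B) = X * (A * B) := by rw [hX]; field_simp
  rw [e1, Real.mul_rpow hX0.le (mul_nonneg hA hB)]
  have e2 : ρi * ρj / (pl * pr) = X⁻¹ := by rw [hX, inv_div]
  have e3 : X⁻¹ * X ^ s = X⁻¹ ^ t := by
    rw [Real.inv_rpow hX0.le, ← Real.rpow_neg_one, ← Real.rpow_neg hX0.le,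
      ← Real.rpow_add hX0]
    congr 1
    rw [hs, ht]; ring
  have e4 : X⁻¹ ^ t * Φ ^ t ≤ ((pl * pr)⁻¹ * Φ) ^ t := by
    rw [← Real.mul_rpow (inv_nonneg.2 hX0.le) hΦ]
    refine Real.rpow_le_rpow (mul_nonneg (inv_nonneg.2 hX0.le) hΦ) ?_ (by rw [ht]; linarith)
    refine mul_le_mul_of_nonneg_right ?_ hΦ
    rw [← e2, inv_eq_one_div]
    exact div_le_div_of_nonneg_right (mul_le_one₀ hρi1 hρj.le hρj1) (by positivity)
  calc ρi * ρj / (pl * pr) * (K * Φ ^ t * (X ^ s * (A * B) ^ s))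
      = K * (X⁻¹ ^ t * Φ ^ t) * (A * B) ^ s := by rw [e2, ← e3]; ring
    _ ≤ _ := mul_le_mul_of_nonneg_right (mul_le_mul_of_nonneg_left e4 hK)
        (Real.rpow_nonneg (mul_nonneg hA hB) _)

/-- The plain parameters. -/
def Par.plain (π : Par) : Par := { π with Lam := 1, W := 1 }

variable {π : Par} {N₀ : ℕ} {C b : ℝ}

lemma Wsum_nonneg' (hC : 0 ≤ C) (S : Finset ℕ) (α β : ℕ) : 0 ≤ Wsum π N₀ C b S α β :=
  sum_nonneg fun n _ => sum_nonneg fun n' _ => by
    split <;> [exact mul_nonneg (smWt_nonneg hC n) (smWt_nonneg hC n'); exact le_rfl]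

lemma one_le_Wsum (hC : 0 ≤ C) {S : Finset ℕ} {α β : ℕ} (hα : 1 ≤ α)
    (h : Major π N₀ α β) : 1 ≤ Wsum π N₀ C b S α β := by
  have h0 : ∀ n n' : ℕ,
      0 ≤ if Major π N₀ (α * n) (β * n') then smWt C b n * smWt C b n' else 0 := fun n n' => by
    split <;> [exact mul_nonneg (smWt_nonneg hC n) (smWt_nonneg hC n'); exact le_rfl]
  have h1 : (1 : ℕ) ∈ smooth N₀ S := Finset.mem_filter.2
    ⟨Finset.mem_Icc.2 ⟨le_rfl, hα.trans h.1⟩, by simp⟩
  unfold Wsum
  refine le_trans ?_ (single_le_sum (fun n _ => sum_nonneg fun n' _ => h0 n n') h1)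
  refine le_trans ?_ (single_le_sum (fun n' _ => h0 1 n') h1)
  rw [mul_one, mul_one, if_pos h]
  simp [smWt]

lemma childSum_nonneg (hC : 0 ≤ C) (S : Finset ℕ) (p D α β : ℕ) :
    0 ≤ childSum π N₀ C b S p D α β :=
  sum_nonneg fun d _ =>
    mul_nonneg (by positivity) (add_nonneg (Wsum_nonneg' hC _ _ _) (Wsum_nonneg' hC _ _ _))

lemma Pot_pos {Y a : ℝ} (hY : 0 < Y) (hC : 0 ≤ C) (S : Finset ℕ) {α β : ℕ} (hα : 0 < α)
    (hβ : 0 < β) : 0 < Pot π N₀ Y a C b S α β :=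
  add_pos_of_pos_of_nonneg
    (mul_pos hY (Real.rpow_pos_of_pos (Nat.cast_pos.2 (Nat.mul_pos hα hβ)) _)) (Wsum_nonneg' hC _ _ _)

/-- One step away from the diagonal: the potential of a child. -/
lemma child_le {Y a : ℝ} (hY : 0 < Y) (_ha : 0 < a) (_hb : 0 < b) (hab : a + b < 1) (hC : 0 ≤ C)
    (S : Finset ℕ) {p α β : ℕ} (hp : 0 < p) {D i j : ℕ} (hij : i ≠ j) (hD : i ≤ D)
    (hD' : j ≤ D) :
    (((p : ℝ) ^ (j - i) * (p : ℝ) ^ (i - j))⁻¹
        * Pot π N₀ Y a C b S (α * p ^ (j - i)) (β * p ^ (i - j)))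
      ≤ ((p : ℝ) ^ (-b)) ^ ((i - j) + (j - i)) *
        ((p : ℝ) ^ (-(1 - a - b)) * (Y * ((α * β : ℕ) : ℝ) ^ a) + childSum π N₀ C b S p D α β) := by
  set d := (i - j) + (j - i) with hd
  have hd1 : 1 ≤ d := by omega
  have hpR : (0 : ℝ) < p := Nat.cast_pos.2 hp
  set q : ℝ := (p : ℝ) ^ d with hq
  have hq0 : 0 < q := pow_pos hpR _
  have hq' : (p : ℝ) ^ (j - i) * (p : ℝ) ^ (i - j) = q := by rw [hq, hd, ← pow_add, add_comm]
  have hXeq : (((α * p ^ (j - i)) * (β * p ^ (i - j)) : ℕ) : ℝ) ^ a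
      = q ^ a * ((α * β : ℕ) : ℝ) ^ a := by
    rw [← Real.mul_rpow hq0.le (Nat.cast_nonneg _), ← hq']
    push_cast
    congr 1
    ring
  rw [hq', Pot, hXeq]
  have hb' : ((p : ℝ) ^ (-b)) ^ d = q ^ (-b) := by
    rw [hq, ← Real.rpow_natCast, ← Real.rpow_natCast (p : ℝ) d, ← Real.rpow_mul hpR.le,
      ← Real.rpow_mul hpR.le, mul_comm]
  rw [hb', mul_add, mul_add]
  refine add_le_add ?_ ?_
  · have e : q⁻¹ * q ^ a ≤ q ^ (-b) * (p : ℝ) ^ (-(1 - a - b)) := by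
      have e1 : q⁻¹ * q ^ a = q ^ (-b) * q ^ (-(1 - a - b)) := by
        rw [← Real.rpow_neg_one, ← Real.rpow_add hq0, ← Real.rpow_add hq0]
        congr 1
        ring
      rw [e1]
      refine mul_le_mul_of_nonneg_left ?_ (Real.rpow_nonneg hq0.le _)
      refine Real.rpow_le_rpow_of_nonpos hpR ?_ (by linarith)
      rw [hq]
      exact le_self_pow₀ (Nat.one_le_cast.2 hp) (by omega)
    have h0 : 0 ≤ Y * ((α * β : ℕ) : ℝ) ^ a := mul_nonneg hY.le (by positivity)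
    have := mul_le_mul_of_nonneg_right e h0
    linarith
  · have e1 : q⁻¹ = q ^ (-b) * q ^ (b - 1) := by
      rw [← Real.rpow_add hq0, ← Real.rpow_neg_one]
      congr 1
      ring
    rw [e1, mul_assoc]
    refine mul_le_mul_of_nonneg_left ?_ (Real.rpow_nonneg hq0.le _)
    rw [hq]
    unfold childSum
    refine le_trans ?_ (single_le_sum
      (f := fun d => ((p : ℝ) ^ d) ^ (b - 1) *
        (Wsum π N₀ C b S (α * p ^ d) β + Wsum π N₀ C b S α (β * p ^ d)))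
      (fun d _ => mul_nonneg (by positivity)
        (add_nonneg (Wsum_nonneg' hC _ _ _) (Wsum_nonneg' hC _ _ _)))
      (Finset.mem_Icc.2 ⟨hd1, by omega⟩ : d ∈ Icc 1 D))
    refine mul_le_mul_of_nonneg_left ?_ (by positivity)
    have hw1 := Wsum_nonneg' (π := π) (N₀ := N₀) (b := b) hC S (α * p ^ d) β
    have hw2 := Wsum_nonneg' (π := π) (N₀ := N₀) (b := b) hC S α (β * p ^ d)
    rcases lt_or_gt_of_ne hij with h | h
    · rw [show j - i = d by omega, show i - j = 0 by omega, pow_zero, mul_one]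
      linarith
    · rw [show i - j = d by omega, show j - i = 0 by omega, pow_zero, mul_one]
      linarith

/-- The geometric factor of the row sums. -/
def geoC (ε b : ℝ) : ℝ :=
  2 * ((2 : ℝ) ^ (-(b * (1 / 2 - ε))) / (1 - (2 : ℝ) ^ (-(b * (1 / 2 - ε)))))

/-- The weight constant absorbed by a peel. -/
def peelC (ε b : ℝ) : ℝ :=
  ((8 * geoC ε b) ^ (1 / 2 + ε)⁻¹ / gap ε) ^ ((1 / 2 + ε) / (1 / 2 - ε))

lemma geoC_nonneg {ε : ℝ} (hε : ε < 1 / 2) (hb : 0 < b) : 0 ≤ geoC ε b := by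
  have h1 : 0 < b * (1 / 2 - ε) := mul_pos hb (by linarith)
  have h2 : (2 : ℝ) ^ (-(b * (1 / 2 - ε))) < 1 :=
    Real.rpow_lt_one_of_one_lt_of_neg one_lt_two (by linarith)
  unfold geoC
  exact mul_nonneg zero_le_two (div_nonneg (by positivity) (by linarith))

lemma peelC_nonneg {ε : ℝ} (hε : 0 < ε) (hε' : ε < 1 / 2) (hb : 0 < b) : 0 ≤ peelC ε b := by
  have := geoC_nonneg hε' hb
  have := gap_pos hε
  unfold peelC
  positivity

/-- The factor paid at a small prime. -/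
def smallC (ε b : ℝ) : ℝ :=
  1 + 4 * (2 * geoC ε b) * (4 * (2 * geoC ε b) / gap ε) ^ ((1 / 2 + ε) / (1 / 2 - ε))

/-- The terminal pairs with small multipliers gain `Phi`. -/
def TermBound (π : Par) (N₀ : ℕ) (ε : ℝ) : Prop :=
  ∀ (Pr : Finset ℕ) (k : ℕ → ℕ) (f h : ℕ → ℝ) (P Q : ℕ) (E : Finset (ℕ × ℕ)) (V U : Finset ℕ),
    (∀ p ∈ Pr, p.Prime) → 0 < P → 0 < Q → P ≤ N₀ → Q ≤ N₀ →
    (∀ e ∈ E, TPair π Pr k f h e) → (∀ e ∈ E, Adm π P Q f h e) →
    (∀ e ∈ E, e.1 ∈ V) → (∀ e ∈ E, e.2 ∈ U) → (∀ v ∈ V, 0 ≤ f v) → (∀ w ∈ U, 0 ≤ h w) →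
      ∑ e ∈ E, mu f e.1 * mu h e.2
        ≤ 4 * (Phi π P Q * π.y ^ (1 - 2 * ε)
            * ((∑ v ∈ V, mu f v) * ∑ w ∈ U, mu h w) ^ (1 / 2 + ε))

/-- The saving of `Terminal` is a terminal bound. -/
lemma termBound_of_saving {π : Par} (N₀ : ℕ) {ε : ℝ} (hε : 0 < ε) (hy : 0 < π.y) (hW : 1 ≤ π.W)
    (hθ : 0 ≤ π.θ) (hθt : 2 * π.θ ≤ 1 / 2 - ε) (hsave : Saving π) : TermBound π N₀ ε :=
  fun _ _ _ _ _ _ _ _ _ hPr hP hQ _ _ hE hA hV hU hf hh =>
    terminal hε hy hW hθ hθt hsave hPr hP hQ hE hA hV hU hf hh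

/-- The hypotheses of the induction. -/
structure FrameHyp (π : Par) (N₀ : ℕ) (Y a b ε : ℝ) : Prop where
  hε : 0 < ε
  hε' : ε ≤ 1 / 20
  ha : 0 < a
  hb : 0 < b
  hab : a + b ≤ ε / 2
  hy : 0 < π.y
  hW : 1 ≤ π.W
  hθ : 0 ≤ π.θ
  hθt : 2 * π.θ ≤ 1 / 2 - ε
  hLam : 0 ≤ π.Lam
  hterm : TermBound π N₀ ε
  hY : 0 < Y
  hYs : (π.Lam / π.W) ^ π.θ ≤ Y ^ (1 / 2 - ε)
  hN : ∀ x : ℕ, Y * (x : ℝ) ^ a < 1 → x ≤ N₀
  hpeel : ∀ (p : ℕ) (S : Finset ℕ), p.Prime → p ∈ S → ∀ D α β : ℕ, 0 < α → 0 < β →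
    Wsum π N₀ (peelC ε b) b (S.erase p) α β
        + peelC ε b * childSum π N₀ (peelC ε b) b (S.erase p) p D α β
      ≤ Wsum π N₀ (peelC ε b) b S α β

variable {Y a ε : ℝ} {f h : ℕ → ℝ} {V U : Finset ℕ} {S : Finset ℕ} {P Q : ℕ}

lemma FrameHyp.Lam_nonneg (H : FrameHyp π N₀ Y a b ε) : 0 ≤ π.Lam := H.hLam

/-- The terminal pairs against the potential. -/
lemma FrameHyp.terminal_le (H : FrameHyp π N₀ Y a b ε) (hS : ∀ q ∈ S, q.Prime) (k : ℕ → ℕ)
    (hP : 0 < P) (hQ : 0 < Q) (hV : SideOK S f V) (hU : SideOK S h U) :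
    ∑ e ∈ (pairs π P Q f h V U).filter
        (fun e => ∀ p ∈ S, e.1.factorization p = k p ∨ e.2.factorization p = k p),
      mu f e.1 * mu h e.2
      ≤ 4 * π.y ^ (1 - 2 * ε) * Pot π N₀ Y a (peelC ε b) b S P Q ^ (1 / 2 - ε)
          * ((∑ v ∈ V, mu f v) * ∑ w ∈ U, mu h w) ^ (1 / 2 + ε) := by
  set E := (pairs π P Q f h V U).filter
    (fun e => ∀ p ∈ S, e.1.factorization p = k p ∨ e.2.factorization p = k p) with hE
  have hC : 0 ≤ peelC ε b := peelC_nonneg H.hε (by linarith [H.hε']) H.hb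
  set Pt := Pot π N₀ Y a (peelC ε b) b S P Q with hPt
  have hPt0 : 0 < Pt := Pot_pos H.hY hC S hP hQ
  have hmemE : ∀ e ∈ E, e.1 ∈ V ∧ e.2 ∈ U ∧ Adm π P Q f h e ∧
      ∀ p ∈ S, e.1.factorization p = k p ∨ e.2.factorization p = k p := by
    intro e he
    obtain ⟨he1, he2⟩ := Finset.mem_filter.1 he
    obtain ⟨he3, he4⟩ := Finset.mem_filter.1 he1
    exact ⟨(Finset.mem_product.1 he3).1, (Finset.mem_product.1 he3).2, he4, he2⟩
  have hT : ∀ e ∈ E, TPair π S k f h e := by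
    intro e he
    obtain ⟨h1, h2, h3, h4⟩ := hmemE e he
    exact ⟨(hV _ h1).1, (hU _ h2).1, (hV _ h1).2.2, (hU _ h2).2.2, (hV _ h1).2.1, (hU _ h2).2.1,
      h4, h3.1⟩
  have hT' : ∀ e ∈ E, TPair π.plain S k f h e := fun e he => hT e he
  have hA' : ∀ e ∈ E, Adm π.plain P Q f h e := fun e he => (hmemE e he).2.2.1
  have hrest : 0 ≤ π.y ^ (1 - 2 * ε)
      * ((∑ v ∈ V, mu f v) * ∑ w ∈ U, mu h w) ^ (1 / 2 + ε) :=
    mul_nonneg (Real.rpow_nonneg H.hy.le _)
      (Real.rpow_nonneg (mul_nonneg hV.sum_nonneg hU.sum_nonneg) _)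
  have ht : 0 ≤ 1 / 2 - ε := by linarith [H.hε']
  rcases le_or_gt 1 Pt with hbig | hsmall
  · have h1 := terminal (π := π.plain) H.hε H.hy (le_refl 1) H.hθ H.hθt (Or.inr ⟨rfl, rfl⟩) hS
      hP hQ hT' hA' (V := V) (U := U) (fun e he => (hmemE e he).1) (fun e he => (hmemE e he).2.1)
      (fun v hv => (hV v hv).2.1) (fun w hw => (hU w hw).2.1)
    have hphi : Phi π.plain P Q = 1 := by
      have hz : Z π.plain P Q = 1 :=
        le_antisymm (Z_le_W (π := π.plain)) (one_le_Z (π := π.plain) le_rfl)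
      rw [Phi, hz, Nat.cast_one, show π.plain.Lam = 1 from rfl, div_one, Real.one_rpow]
    rw [hphi, one_mul] at h1
    have h2 := Real.one_le_rpow hbig ht
    have h3 := mul_le_mul_of_nonneg_right h2 hrest
    refine h1.trans ?_
    show 4 * (π.y ^ (1 - 2 * ε) * _) ≤ _
    linarith
  · have hW0 := Wsum_nonneg' (π := π) (N₀ := N₀) (b := b) hC S P Q
    have hXlt : Y * ((P * Q : ℕ) : ℝ) ^ a < 1 :=
      lt_of_le_of_lt (le_add_of_nonneg_right hW0) hsmall
    have hPQ := H.hN _ hXlt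
    have h1 := H.hterm S k f h P Q E V U hS hP hQ ((Nat.le_mul_of_pos_right P hQ).trans hPQ)
      ((Nat.le_mul_of_pos_left Q hP).trans hPQ) hT (fun e he => (hmemE e he).2.2.1)
      (fun e he => (hmemE e he).1) (fun e he => (hmemE e he).2.1)
      (fun v hv => (hV v hv).2.1) (fun w hw => (hU w hw).2.1)
    have hgood : Good π P Q π.W := by
      by_contra hng
      have h2 := one_le_Wsum (π := π) (N₀ := N₀) (b := b) hC (S := S) hP
        (show Major π N₀ P Q from ⟨(Nat.le_mul_of_pos_right P hQ).trans hPQ,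
          (Nat.le_mul_of_pos_left Q hP).trans hPQ, hng⟩)
      have hX0 : 0 ≤ Y * ((P * Q : ℕ) : ℝ) ^ a :=
        mul_nonneg H.hY.le (Real.rpow_nonneg (Nat.cast_nonneg _) _)
      rw [hPt, Pot] at hsmall
      linarith
    have hZ : Z π P Q = π.W := le_antisymm Z_le_W (Nat.le_findGreatest le_rfl hgood)
    have hphi : Phi π P Q ≤ Pt ^ (1 / 2 - ε) := by
      rw [Phi, hZ]
      refine H.hYs.trans (Real.rpow_le_rpow H.hY.le ?_ ht)
      calc Y = Y * 1 := (mul_one Y).symm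
        _ ≤ Y * ((P * Q : ℕ) : ℝ) ^ a := mul_le_mul_of_nonneg_left
            (Real.one_le_rpow (Nat.one_le_cast.2 (Nat.mul_pos hP hQ)) H.ha.le) H.hY.le
        _ ≤ _ := le_add_of_nonneg_right hW0
    have h3 := mul_le_mul_of_nonneg_right hphi hrest
    refine h1.trans ?_
    linarith

/-- The exponent of the exceptional mass. -/
lemma exc_exponent (hε : 0 < ε) (hε' : ε ≤ 1 / 20) (hab : a + b ≤ ε / 2) :
    1 + ε ≤ (1 - a - b) * (1 + 2 * ε) := by
  nlinarith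

/-- The constant of the exceptional mass at one prime. -/
def excC (ε b : ℝ) : ℝ :=
  (1 + 2 * geoC ε b) * (4 * (2 * geoC ε b) / gap ε) ^ ((1 + 2 * ε) / (1 / 2 - ε))

/-- The geometric decay along the distance from the diagonal. -/
lemma sum_decay_le {p : ℕ} (hp : 2 ≤ p) {ε : ℝ} (hε : ε < 1 / 2) (hb : 0 < b) (N i : ℕ) :
    ∑ j ∈ (range N).erase i, ((p : ℝ) ^ (-(b * (1 / 2 - ε)))) ^ ((i - j) + (j - i))
      ≤ geoC ε b := by
  have hpos : 0 < b * (1 / 2 - ε) := mul_pos hb (by linarith)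
  set r : ℝ := (p : ℝ) ^ (-(b * (1 / 2 - ε))) with hr
  have hr0 : 0 < r := Real.rpow_pos_of_pos (Nat.cast_pos.2 (by omega)) _
  have hr2 : r ≤ (2 : ℝ) ^ (-(b * (1 / 2 - ε))) :=
    Real.rpow_le_rpow_of_nonpos two_pos (by exact_mod_cast hp) (by linarith)
  have h21 : (2 : ℝ) ^ (-(b * (1 / 2 - ε))) < 1 :=
    Real.rpow_lt_one_of_one_lt_of_neg one_lt_two (by linarith)
  refine (sum_dist_le hr0.le (lt_of_le_of_lt hr2 h21) N i).trans ?_
  rw [geoC]
  refine mul_le_mul_of_nonneg_left ?_ zero_le_two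
  rw [div_le_div_iff₀ (by linarith) (by linarith)]
  linarith

/-- The Hölder absorption when the children carry the potential. -/
lemma peel_good {ε b u σ M m : ℝ} (hε : 0 < ε) (hε' : ε ≤ 1 / 20) (hb : 0 < b) (hu : 0 ≤ u)
    (hσ : 0 ≤ σ) (hM0 : 0 ≤ M) (hM : M ≤ 2 * σ) (hm0 : 0 ≤ m) (hm2 : m ≤ 2) :
    u ^ (1 / 2 - ε) * (1 - gap ε * m) + 4 * geoC ε b * M ^ (1 / 2 - ε) * m ^ (1 / 2 + ε)
      ≤ (u + peelC ε b * σ) ^ (1 / 2 - ε) := by
  set t : ℝ := 1 / 2 - ε with ht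
  set s : ℝ := 1 / 2 + ε with hs
  set Cg := geoC ε b with hCg
  set C := peelC ε b with hCdef
  have ht0 : 0 < t := by rw [ht]; linarith
  have hs0 : 0 < s := by rw [hs]; linarith
  have hC0 : 0 ≤ C := peelC_nonneg hε (by linarith) hb
  have hCg0 : 0 ≤ Cg := geoC_nonneg (by linarith) hb
  have hg := gap_pos hε
  have hMt : M ^ t ≤ 2 * σ ^ t := by
    refine (Real.rpow_le_rpow hM0 hM ht0.le).trans ?_
    rw [Real.mul_rpow zero_le_two hσ]
    refine mul_le_mul_of_nonneg_right ?_ (Real.rpow_nonneg hσ _)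
    calc (2 : ℝ) ^ t ≤ (2 : ℝ) ^ (1 : ℝ) :=
          Real.rpow_le_rpow_of_exponent_le one_le_two (by rw [ht]; linarith)
      _ = 2 := Real.rpow_one 2
  have hx0 : 0 ≤ 1 - gap ε * m := by
    have := mul_le_mul (gap_le (ε := ε)) hm2 hm0 hε.le
    linarith
  have hhold := holder_two (u := u) (v := C * σ) (x := 1 - gap ε * m)
    (z := 8 * Cg / C ^ t * m ^ s) ht0 hs0 (by rw [ht, hs]; ring) hu
    (mul_nonneg hC0 hσ) hx0 (by positivity) ?_
  · refine le_trans (add_le_add le_rfl ?_) hhold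
    rcases (show 0 ≤ C ^ t by positivity).eq_or_lt with h0 | hCt
    · have hCg00 : Cg = 0 := by
        by_contra hne
        have hCgpos : 0 < Cg := lt_of_le_of_ne hCg0 (Ne.symm hne)
        have : 0 < C := by
          rw [hCdef, peelC, ← hCg]
          positivity
        exact absurd h0.symm (Real.rpow_pos_of_pos this t).ne'
      simp [hCg00]
    · rw [Real.mul_rpow hC0 hσ]
      calc 4 * Cg * M ^ t * m ^ s ≤ 4 * Cg * (2 * σ ^ t) * m ^ s := by gcongr
        _ = _ := by field_simp; ring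
  · have hC1 : C ^ t = ((8 * Cg) ^ s⁻¹ / gap ε) ^ s := by
      rw [hCdef, peelC, ← hCg, ← hs, ← ht, ← Real.rpow_mul (by positivity),
        div_mul_cancel₀ _ ht0.ne']
    have hx1 : (1 - gap ε * m) ^ s⁻¹ ≤ 1 - gap ε * m :=
      Real.rpow_le_self_of_le_one hx0 (by linarith [mul_nonneg hg.le hm0])
        ((one_le_inv₀ hs0).2 (by rw [hs]; linarith))
    have hz1 : (8 * Cg / C ^ t * m ^ s) ^ s⁻¹ ≤ gap ε * m := by
      rcases hCg0.eq_or_lt with h0 | hpos
      · rw [← h0, mul_zero, zero_div, zero_mul, Real.zero_rpow (inv_ne_zero hs0.ne')]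
        positivity
      · rw [hC1, Real.mul_rpow (by positivity) (Real.rpow_nonneg hm0 _),
          Real.div_rpow (by positivity) (by positivity),
          ← Real.rpow_mul hm0, mul_inv_cancel₀ hs0.ne', Real.rpow_one,
          ← Real.rpow_mul (by positivity) s s⁻¹, mul_inv_cancel₀ hs0.ne', Real.rpow_one,
          div_div_cancel₀ (by positivity)]
    linarith

/-- The exceptional mass when the off-diagonal is small. -/
lemma exc_bound {p : ℕ} {ε a b G : ℝ} (hp : 1 ≤ p) (hε : 0 < ε) (hε' : ε ≤ 1 / 20) (ha : 0 < a)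
    (hb : 0 < b) (hab : a + b ≤ ε / 2) (hG0 : 0 ≤ G)
    (hG : G ≤ 2 * geoC ε b * ((p : ℝ) ^ (-(1 - a - b))) ^ (1 / 2 - ε)) :
    (1 + G) * (4 * G / gap ε) ^ ((1 + 2 * ε) / (1 / 2 - ε))
      ≤ excC ε b * (p : ℝ) ^ (-(1 + ε)) := by
  set Cg := geoC ε b with hCg
  have hCg0 : 0 ≤ Cg := geoC_nonneg (by linarith) hb
  have hg := gap_pos hε
  have hpR : (0 : ℝ) < p := Nat.cast_pos.2 hp
  have ht0 : (0 : ℝ) < 1 / 2 - ε := by linarith
  have hpk1 : (p : ℝ) ^ (-(1 - a - b)) ≤ 1 :=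
    Real.rpow_le_one_of_one_le_of_nonpos (Nat.one_le_cast.2 hp) (by linarith)
  have hG2 : G ≤ 2 * Cg := hG.trans
    (mul_le_of_le_one_right (by positivity) (Real.rpow_le_one (by positivity) hpk1 ht0.le))
  have he0 : 0 ≤ (1 + 2 * ε) / (1 / 2 - ε) := div_nonneg (by linarith) ht0.le
  have hexp : (4 * G / gap ε) ^ ((1 + 2 * ε) / (1 / 2 - ε))
      ≤ (4 * (2 * Cg) / gap ε) ^ ((1 + 2 * ε) / (1 / 2 - ε)) * (p : ℝ) ^ (-(1 + ε)) := by
    calc (4 * G / gap ε) ^ ((1 + 2 * ε) / (1 / 2 - ε))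
        ≤ (4 * (2 * Cg * ((p : ℝ) ^ (-(1 - a - b))) ^ (1 / 2 - ε)) / gap ε)
            ^ ((1 + 2 * ε) / (1 / 2 - ε)) := by
          gcongr
      _ = (4 * (2 * Cg) / gap ε) ^ ((1 + 2 * ε) / (1 / 2 - ε))
            * (p : ℝ) ^ (-((1 - a - b) * (1 + 2 * ε))) := by
          rw [show 4 * (2 * Cg * ((p : ℝ) ^ (-(1 - a - b))) ^ (1 / 2 - ε)) / gap ε
              = 4 * (2 * Cg) / gap ε * ((p : ℝ) ^ (-(1 - a - b))) ^ (1 / 2 - ε) by ring,
            Real.mul_rpow (by positivity) (by positivity), ← Real.rpow_mul hpR.le,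
            ← Real.rpow_mul hpR.le]
          congr 2
          field_simp
          rw [mul_div_cancel_right₀ _ (ne_of_gt (show (0 : ℝ) < 1 - 2 * ε by linarith))]
      _ ≤ _ := by
          refine mul_le_mul_of_nonneg_left ?_ (by positivity)
          refine Real.rpow_le_rpow_of_exponent_le (Nat.one_le_cast.2 hp) ?_
          have := exc_exponent hε hε' hab
          linarith
  rw [excC, ← hCg, mul_assoc]
  exact mul_le_mul (by linarith) hexp (by positivity) (by positivity)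

/-- Rescaling a bound through the potential. -/
lemma scale_le {K yy u0 AB X c P : ℝ} (hK : 0 ≤ K) (hyy : 0 ≤ yy) (hAB : 0 ≤ AB)
    (h : u0 * X ≤ c * P) : K * yy * u0 * AB * X ≤ K * c * yy * P * AB := by
  have := mul_le_mul_of_nonneg_left h (mul_nonneg (mul_nonneg hK hyy) hAB)
  linarith

/-- The off-diagonal mass against a small factor. -/
lemma off_le {C M q u t : ℝ} (hC : 0 ≤ C) (hM0 : 0 ≤ M) (hM : M ≤ 2 * (q * u)) (hq : 0 ≤ q)
    (hu : 0 < u) (ht0 : 0 ≤ t) (ht1 : t ≤ 1) : C * M ^ t / u ^ t ≤ 2 * C * q ^ t := by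
  rw [div_le_iff₀ (Real.rpow_pos_of_pos hu _)]
  have h1 := Real.rpow_le_rpow hM0 hM ht0
  rw [Real.mul_rpow zero_le_two (mul_nonneg hq hu.le), Real.mul_rpow hq hu.le] at h1
  have h2 : (2 : ℝ) ^ t ≤ 2 := by
    calc (2 : ℝ) ^ t ≤ (2 : ℝ) ^ (1 : ℝ) := Real.rpow_le_rpow_of_exponent_le one_le_two ht1
      _ = 2 := Real.rpow_one 2
  calc C * M ^ t ≤ C * (2 ^ t * (q ^ t * u ^ t)) := mul_le_mul_of_nonneg_left h1 hC
    _ ≤ C * (2 * (q ^ t * u ^ t)) := by
        refine mul_le_mul_of_nonneg_left (mul_le_mul_of_nonneg_right h2 ?_) hC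
        exact mul_nonneg (Real.rpow_nonneg hq _) (Real.rpow_nonneg hu.le _)
    _ = _ := by ring

/-- One prime: the cells through a kernel on the exponents. -/
theorem FrameHyp.step_cells (H : FrameHyp π N₀ Y a b ε) (hS : ∀ q ∈ S, q.Prime) {p : ℕ}
    (hpS : p ∈ S) (hP : 0 < P) (hQ : 0 < Q) (hV : SideOK S f V) (hU : SideOK S h U) {K : ℝ}
    (hK : 0 ≤ K) (hApos : 0 < ∑ v ∈ V, mu f v) (hBpos : 0 < ∑ w ∈ U, mu h w)
    (hIH : ∀ (P' Q' : ℕ) (f' h' : ℕ → ℝ) (V' U' : Finset ℕ), 0 < P' → 0 < Q' →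
      SideOK (S.erase p) f' V' → SideOK (S.erase p) h' U' →
      Lsum π P' Q' f' h' V' U' ≤ K * (π.y ^ (1 - 2 * ε))
        * Pot π N₀ Y a (peelC ε b) b (S.erase p) P' Q' ^ (1 / 2 - ε)
        * ((∑ v ∈ V', mu f' v) * ∑ w ∈ U', mu h' w) ^ (1 / 2 + ε)) :
    ∃ (N : ℕ) (σ : ℝ) (av bv : ℕ → ℝ) (c : ℕ → ℕ → ℝ) (G base : ℝ),
      0 ≤ σ ∧
      Wsum π N₀ (peelC ε b) b (S.erase p) P Q + peelC ε b * σ
        ≤ Wsum π N₀ (peelC ε b) b S P Q ∧
      G = geoC ε b * ((p : ℝ) ^ (-(1 - a - b)) * (Y * ((P * Q : ℕ) : ℝ) ^ a) + σ) ^ (1 / 2 - ε)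
        / (Y * ((P * Q : ℕ) : ℝ) ^ a + Wsum π N₀ (peelC ε b) b (S.erase p) P Q) ^ (1 / 2 - ε) ∧
      base = K * (π.y ^ (1 - 2 * ε))
        * (Y * ((P * Q : ℕ) : ℝ) ^ a + Wsum π N₀ (peelC ε b) b (S.erase p) P Q) ^ (1 / 2 - ε)
        * ((∑ v ∈ V, mu f v) * ∑ w ∈ U, mu h w) ^ (1 / 2 + ε) ∧
      Kernel N av bv c G ∧
      Lsum π P Q f h V U ≤ base * ∑ i ∈ range N, ∑ j ∈ range N,
        c i j * (av i ^ (1 / 2 + ε) * bv j ^ (1 / 2 + ε)) ∧
      ∀ k : ℕ, ∑ e ∈ (pairs π P Q f h V U).filter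
          (fun e => e.1.factorization p ≠ k ∧ e.2.factorization p ≠ k), mu f e.1 * mu h e.2
        ≤ base * ∑ i ∈ (range N).erase k, ∑ j ∈ (range N).erase k,
          c i j * (av i ^ (1 / 2 + ε) * bv j ^ (1 / 2 + ε)) := by
  have hp : p.Prime := hS p hpS
  obtain ⟨hε, hε', ha, hb⟩ : 0 < ε ∧ ε ≤ 1 / 20 ∧ 0 < a ∧ 0 < b := ⟨H.hε, H.hε', H.ha, H.hb⟩
  have hab := H.hab
  set C := peelC ε b with hCdef
  set t : ℝ := 1 / 2 - ε with ht
  set s : ℝ := 1 / 2 + ε with hs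
  set Cg := geoC ε b with hCg
  have ht0 : 0 < t := by rw [ht]; linarith
  have hs0 : 0 < s := by rw [hs]; linarith
  have hC0 : 0 ≤ C := peelC_nonneg hε (by linarith) hb
  have hCg0 : 0 ≤ Cg := geoC_nonneg (by linarith) hb
  have hg := gap_pos hε
  set A := ∑ v ∈ V, mu f v with hA
  set B := ∑ w ∈ U, mu h w with hB
  set yy := π.y ^ (1 - 2 * ε) with hyy
  have hyy0 : 0 ≤ yy := Real.rpow_nonneg H.hy.le _
  set X := Y * ((P * Q : ℕ) : ℝ) ^ a with hX
  have hX0 : 0 < X :=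
    mul_pos H.hY (Real.rpow_pos_of_pos (Nat.cast_pos.2 (Nat.mul_pos hP hQ)) _)
  set N := (V ∪ U).sup (fun v => v.factorization p) + 1 with hN
  set w0 := Wsum π N₀ C b (S.erase p) P Q with hw0
  set W1 := Wsum π N₀ C b S P Q with hW1
  set σp := childSum π N₀ C b (S.erase p) p N P Q with hσp
  have hw00 : 0 ≤ w0 := Wsum_nonneg' hC0 _ _ _
  have hσ0 : 0 ≤ σp := childSum_nonneg hC0 _ _ _ _ _
  have hpeel : w0 + C * σp ≤ W1 := H.hpeel p S hp hpS N P Q hP hQ
  set Pt := Pot π N₀ Y a C b S P Q with hPt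
  have hPt_eq : Pt = X + W1 := rfl
  set u0 := (X + w0) ^ t with hu0
  have hu0pos : 0 < u0 := Real.rpow_pos_of_pos (by linarith) _
  have hu0le : u0 ≤ Pt ^ t := Real.rpow_le_rpow (by linarith)
    (by rw [hPt_eq]; linarith [mul_nonneg hC0 hσ0]) ht0.le
  set κ : ℝ := 1 - a - b with hκ
  have hpR : (0 : ℝ) < p := Nat.cast_pos.2 hp.pos
  set M := (p : ℝ) ^ (-κ) * X + σp with hM
  have hM0 : 0 ≤ M := by positivity
  set r : ℝ := (p : ℝ) ^ (-(b * t)) with hr
  have hr0 : 0 < r := Real.rpow_pos_of_pos hpR _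
  -- the kernel
  set c : ℕ → ℕ → ℝ := fun i j => if i = j then 1 else r ^ ((i - j) + (j - i)) * M ^ t / u0
    with hc
  set G := Cg * M ^ t / u0 with hG
  set av : ℕ → ℝ := fun i => (∑ v ∈ lev p i V, mu f v) / A with hav
  set bv : ℕ → ℝ := fun i => (∑ w ∈ lev p i U, mu h w) / B with hbv
  have hsumA : ∀ i, 0 ≤ ∑ v ∈ lev p i V, mu f v := fun i =>
    sum_nonneg fun v hv => mu_nonneg (hV v (Finset.mem_filter.1 hv).1).2.1
  have hsumB : ∀ i, 0 ≤ ∑ w ∈ lev p i U, mu h w := fun i =>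
    sum_nonneg fun w hw => mu_nonneg (hU w (Finset.mem_filter.1 hw).1).2.1
  have hrowsum : ∀ i : ℕ, ∑ j ∈ (range N).erase i, r ^ ((i - j) + (j - i)) ≤ Cg := fun i =>
    sum_decay_le hp.two_le (by linarith) hb N i
  have hker : Kernel N av bv c G := by
    refine ⟨fun i => div_nonneg (hsumA i) hApos.le, fun i => div_nonneg (hsumB i) hBpos.le,
      ?_, ?_, fun i j => by simp only [hc]; split <;> positivity,
      fun i => by simp [hc], fun i hi => ?_, fun j hj => ?_, by positivity⟩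
    · simp only [hav, ← sum_div]
      rw [div_eq_one_iff_eq hApos.ne', hA]
      exact sum_fiberwise_of_maps_to (fun v hv => Finset.mem_range.2 (Nat.lt_succ_of_le
        (le_sup (f := fun v => v.factorization p) (Finset.mem_union_left U hv)))) _
    · simp only [hbv, ← sum_div]
      rw [div_eq_one_iff_eq hBpos.ne', hB]
      exact sum_fiberwise_of_maps_to (fun v hv => Finset.mem_range.2 (Nat.lt_succ_of_le
        (le_sup (f := fun v => v.factorization p) (Finset.mem_union_right V hv)))) _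
    · rw [sum_congr rfl fun j hj => show c i j = r ^ ((i - j) + (j - i)) * M ^ t / u0 by
        simp only [hc]; rw [if_neg (Ne.symm (Finset.ne_of_mem_erase hj))], ← sum_div, ← sum_mul]
      exact div_le_div_of_nonneg_right
        (mul_le_mul_of_nonneg_right (hrowsum i) (Real.rpow_nonneg hM0 _)) hu0pos.le
    · rw [sum_congr rfl fun i hi => show c i j = r ^ ((j - i) + (i - j)) * M ^ t / u0 by
        simp only [hc]; rw [if_neg (Finset.ne_of_mem_erase hi), add_comm], ← sum_div, ← sum_mul]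
      exact div_le_div_of_nonneg_right
        (mul_le_mul_of_nonneg_right (hrowsum j) (Real.rpow_nonneg hM0 _)) hu0pos.le
  set base := K * yy * u0 * (A * B) ^ s with hbase
  have hABs : 0 ≤ (A * B) ^ s := Real.rpow_nonneg (mul_nonneg hApos.le hBpos.le) _
  have hbase0 : 0 ≤ base := by positivity
  -- the cells
  have hcell : ∀ i ∈ range N, ∀ j ∈ range N, ∑ e ∈ (pairs π P Q f h V U).filter
        (fun e => e.1.factorization p = i ∧ e.2.factorization p = j), mu f e.1 * mu h e.2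
      ≤ base * (c i j * (av i ^ s * bv j ^ s)) := by
    intro i hi j hj
    set P' := P * p ^ (j - i) with hP'
    set Q' := Q * p ^ (i - j) with hQ'
    have hP'0 : 0 < P' := Nat.mul_pos hP (pow_pos hp.pos _)
    have hQ'0 : 0 < Q' := Nat.mul_pos hQ (pow_pos hp.pos _)
    have hPot0 := (Pot_pos (π := π) (N₀ := N₀) (b := b) (a := a) H.hY hC0 (S.erase p) hP'0 hQ'0).le
    refine (cell_le hp (fun v hv => ⟨(hV v hv).1, (hV v hv).2.1⟩)
      (fun w hw => ⟨(hU w hw).1, (hU w hw).2.1⟩) i j).trans ?_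
    refine (mul_le_mul_of_nonneg_left (hIH P' Q' _ _ _ _ hP'0 hQ'0 (SideOK.red hp hV i _)
      (SideOK.red hp hU j _)) (div_nonneg (mul_nonneg (rhoP_pos hp i).le (rhoP_pos hp j).le)
        (by positivity))).trans ?_
    rw [sum_mu_red hp (fun v hv => (hV v hv).1), sum_mu_red hp (fun w hw => (hU w hw).1)]
    refine (cell_scale hε (by linarith) (rhoP_pos hp i) (rhoP_pos hp j) (rhoP_le_one p i)
      (rhoP_le_one p j) (pow_pos hpR _) (pow_pos hpR _) (hsumA i) (hsumB j)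
      (mul_nonneg hK hyy0) hPot0).trans ?_
    rw [mul_rpow_split hApos hBpos (hsumA i) (hsumB j), ← ht, ← hs]
    have hkey : (((p : ℝ) ^ (j - i) * (p : ℝ) ^ (i - j))⁻¹
        * Pot π N₀ Y a C b (S.erase p) P' Q') ^ t ≤ u0 * c i j := by
      rcases eq_or_ne i j with rfl | hij
      · simp only [hc, if_pos, hP', hQ', Nat.sub_self, pow_zero, mul_one, inv_one, one_mul]
        exact le_rfl
      · simp only [hc, if_neg hij]
        rw [mul_div_assoc', mul_div_cancel_left₀ _ hu0pos.ne']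
        have h1 := child_le (π := π) (N₀ := N₀) (α := P) (β := Q) H.hY ha hb (by linarith) hC0
          (S.erase p) hp.pos hij (D := N) (Finset.mem_range.1 hi).le (Finset.mem_range.1 hj).le
        refine (Real.rpow_le_rpow (mul_nonneg (by positivity) hPot0) h1 ht0.le).trans (le_of_eq ?_)
        rw [Real.mul_rpow (by positivity) hM0, ← Real.rpow_pow_comm (by positivity), hr,
          ← Real.rpow_mul hpR.le, neg_mul]
    have h0 : 0 ≤ (A * B) ^ s * (av i ^ s * bv j ^ s) :=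
      mul_nonneg hABs (mul_nonneg (Real.rpow_nonneg (div_nonneg (hsumA i) hApos.le) _)
        (Real.rpow_nonneg (div_nonneg (hsumB j) hBpos.le) _))
    have := mul_le_mul_of_nonneg_left hkey (mul_nonneg (mul_nonneg hK hyy0) h0)
    simp only [hav, hbv] at this ⊢
    rw [hbase]
    linarith
  set Wk := ∑ i ∈ range N, ∑ j ∈ range N, c i j * (av i ^ s * bv j ^ s) with hWk
  have hmaps : ∀ e ∈ pairs π P Q f h V U,
      (e.1.factorization p, e.2.factorization p) ∈ range N ×ˢ range N := fun e he => by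
    obtain ⟨h1, h2⟩ := Finset.mem_product.1 (Finset.mem_filter.1 he).1
    exact Finset.mem_product.2
      ⟨Finset.mem_range.2 (Nat.lt_succ_of_le
        (le_sup (f := fun v => v.factorization p) (Finset.mem_union_left U h1))),
      Finset.mem_range.2 (Nat.lt_succ_of_le
        (le_sup (f := fun v => v.factorization p) (Finset.mem_union_right V h2)))⟩
  have hall : Lsum π P Q f h V U ≤ base * Wk := by
    rw [Lsum, ← sum_fiberwise_of_maps_to
      (g := fun e : ℕ × ℕ => (e.1.factorization p, e.2.factorization p)) hmaps, sum_product, hWk,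
      mul_sum]
    refine sum_le_sum fun i hi => ?_
    rw [mul_sum]
    refine sum_le_sum fun j hj => le_trans (le_of_eq ?_) (hcell i hi j hj)
    simp only [Prod.mk.injEq]
  refine ⟨N, σp, av, bv, c, G, base, hσ0, hpeel, rfl, rfl, hker, hall, fun k => ?_⟩
  set E := (pairs π P Q f h V U).filter
    (fun e => e.1.factorization p ≠ k ∧ e.2.factorization p ≠ k) with hE
  have hmapsE : ∀ e ∈ E, (e.1.factorization p, e.2.factorization p)
      ∈ (range N).erase k ×ˢ (range N).erase k := fun e he => by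
    obtain ⟨he1, he2, he3⟩ := Finset.mem_filter.1 he
    obtain ⟨h1, h2⟩ := Finset.mem_product.1 (hmaps e he1)
    exact Finset.mem_product.2 ⟨Finset.mem_erase.2 ⟨he2, h1⟩, Finset.mem_erase.2 ⟨he3, h2⟩⟩
  have h1 : ∑ e ∈ E, mu f e.1 * mu h e.2
      ≤ base * ∑ i ∈ (range N).erase k, ∑ j ∈ (range N).erase k,
        c i j * (av i ^ s * bv j ^ s) := by
    rw [← sum_fiberwise_of_maps_to
      (g := fun e : ℕ × ℕ => (e.1.factorization p, e.2.factorization p)) hmapsE, sum_product,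
      mul_sum]
    refine sum_le_sum fun i hi => ?_
    rw [mul_sum]
    refine sum_le_sum fun j hj => ?_
    refine le_trans (le_of_eq ?_)
      (hcell i (Finset.mem_of_mem_erase hi) j (Finset.mem_of_mem_erase hj))
    rw [hE, Finset.filter_filter]
    refine sum_congr (Finset.filter_congr fun e _ => ?_) fun _ _ => rfl
    simp only [Prod.mk.injEq]
    constructor
    · exact fun h' => h'.2
    · rintro ⟨rfl, rfl⟩
      exact ⟨⟨Finset.ne_of_mem_erase hi, Finset.ne_of_mem_erase hj⟩, rfl, rfl⟩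
  exact h1

/-- One prime: peel it, peel it at a bounded cost, or find an index carrying almost all mass. -/
theorem FrameHyp.step (H : FrameHyp π N₀ Y a b ε) (hS : ∀ q ∈ S, q.Prime) {p : ℕ} (hpS : p ∈ S)
    (hP : 0 < P) (hQ : 0 < Q) (hV : SideOK S f V) (hU : SideOK S h U) {K : ℝ} (hK : 0 ≤ K)
    (hApos : 0 < ∑ v ∈ V, mu f v) (hBpos : 0 < ∑ w ∈ U, mu h w)
    (hIH : ∀ (P' Q' : ℕ) (f' h' : ℕ → ℝ) (V' U' : Finset ℕ), 0 < P' → 0 < Q' →
      SideOK (S.erase p) f' V' → SideOK (S.erase p) h' U' →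
      Lsum π P' Q' f' h' V' U' ≤ K * (π.y ^ (1 - 2 * ε))
        * Pot π N₀ Y a (peelC ε b) b (S.erase p) P' Q' ^ (1 / 2 - ε)
        * ((∑ v ∈ V', mu f' v) * ∑ w ∈ U', mu h' w) ^ (1 / 2 + ε)) :
    Lsum π P Q f h V U ≤ K * smallC ε b * (π.y ^ (1 - 2 * ε))
        * Pot π N₀ Y a (peelC ε b) b S P Q ^ (1 / 2 - ε)
        * ((∑ v ∈ V, mu f v) * ∑ w ∈ U, mu h w) ^ (1 / 2 + ε) ∧
    (Lsum π P Q f h V U ≤ K * (π.y ^ (1 - 2 * ε))
        * Pot π N₀ Y a (peelC ε b) b S P Q ^ (1 / 2 - ε)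
        * ((∑ v ∈ V, mu f v) * ∑ w ∈ U, mu h w) ^ (1 / 2 + ε) ∨
      ∃ k : ℕ, ∑ e ∈ (pairs π P Q f h V U).filter
          (fun e => e.1.factorization p ≠ k ∧ e.2.factorization p ≠ k), mu f e.1 * mu h e.2
        ≤ K * (excC ε b * (p : ℝ) ^ (-(1 + ε))) * (π.y ^ (1 - 2 * ε))
          * Pot π N₀ Y a (peelC ε b) b S P Q ^ (1 / 2 - ε)
          * ((∑ v ∈ V, mu f v) * ∑ w ∈ U, mu h w) ^ (1 / 2 + ε))       := by
  have hp : p.Prime := hS p hpS
  obtain ⟨N, σp, av, bv, c, G, base, hσ0, hpeel, hG, hbase, hker, hall, hbothk⟩ :=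
    H.step_cells hS hpS hP hQ hV hU hK hApos hBpos hIH
  obtain ⟨hε, hε', ha, hb⟩ : 0 < ε ∧ ε ≤ 1 / 20 ∧ 0 < a ∧ 0 < b := ⟨H.hε, H.hε', H.ha, H.hb⟩
  have hab := H.hab
  set C := peelC ε b with hCdef
  set t : ℝ := 1 / 2 - ε with ht
  set s : ℝ := 1 / 2 + ε with hs
  set Cg := geoC ε b with hCg
  have ht0 : 0 < t := by rw [ht]; linarith
  have hC0 : 0 ≤ C := peelC_nonneg hε (by linarith) hb
  have hCg0 : 0 ≤ Cg := geoC_nonneg (by linarith) hb
  have hg := gap_pos hε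
  set A := ∑ v ∈ V, mu f v with hA
  set B := ∑ w ∈ U, mu h w with hB
  set yy := π.y ^ (1 - 2 * ε) with hyy
  have hyy0 : 0 ≤ yy := Real.rpow_nonneg H.hy.le _
  set X := Y * ((P * Q : ℕ) : ℝ) ^ a with hX
  have hX0 : 0 < X :=
    mul_pos H.hY (Real.rpow_pos_of_pos (Nat.cast_pos.2 (Nat.mul_pos hP hQ)) _)
  set w0 := Wsum π N₀ C b (S.erase p) P Q with hw0
  set W1 := Wsum π N₀ C b S P Q with hW1
  have hw00 : 0 ≤ w0 := Wsum_nonneg' hC0 _ _ _
  set Pt := Pot π N₀ Y a C b S P Q with hPt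
  have hPt_eq : Pt = X + W1 := rfl
  set u0 := (X + w0) ^ t with hu0
  have hu0pos : 0 < u0 := Real.rpow_pos_of_pos (by linarith) _
  have hu0le : u0 ≤ Pt ^ t := Real.rpow_le_rpow (by linarith)
    (by rw [hPt_eq]; linarith [mul_nonneg hC0 hσ0]) ht0.le
  set κ : ℝ := 1 - a - b with hκ
  have hpR : (0 : ℝ) < p := Nat.cast_pos.2 hp.pos
  set M := (p : ℝ) ^ (-κ) * X + σp with hM
  have hM0 : 0 ≤ M := by positivity
  have hABs : 0 ≤ (A * B) ^ s := Real.rpow_nonneg (mul_nonneg hApos.le hBpos.le) _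
  have hbase0 : 0 ≤ base := by rw [hbase]; positivity
  set Wk := ∑ i ∈ range N, ∑ j ∈ range N, c i j * (av i ^ s * bv j ^ s) with hWk
  have hrhs : ∀ {X' : ℝ}, u0 * X' ≤ Pt ^ t → base * X' ≤ K * yy * Pt ^ t * (A * B) ^ s := by
    intro X' hX'
    have := mul_le_mul_of_nonneg_left hX' (mul_nonneg (mul_nonneg hK hyy0) hABs)
    rw [hbase]; linarith
  have hone : 1 ≤ smallC ε b := by
    rw [smallC, ← hCg]
    exact le_add_of_nonneg_right (mul_nonneg (by positivity) (by positivity))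
  have hgoal0 : 0 ≤ K * yy * Pt ^ t * (A * B) ^ s := by
    have : 0 ≤ Pt ^ t := hu0pos.le.trans hu0le
    positivity
  by_cases hbig : (p : ℝ) ^ (-κ) * (X + w0) ≤ σp
  · -- the children carry the potential
    have hgood : u0 * Wk ≤ Pt ^ t := by
      obtain ⟨k, m, -, hm0, hm2, hW, -⟩ := hker.split hε (by linarith)
      refine le_trans (mul_le_mul_of_nonneg_left hW hu0pos.le) ?_
      have hMσ : M ≤ 2 * σp := by
        have : 0 ≤ (p : ℝ) ^ (-κ) * w0 := by positivity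
        rw [hM]; linarith
      have hpg := peel_good (ε := ε) (b := b) (u := X + w0) (σ := σp) (M := M) (m := m) hε hε' hb
        (by linarith) hσ0 hM0 hMσ hm0 hm2
      rw [← ht, ← hs, ← hu0, ← hCdef, ← hCg] at hpg
      have e1 : u0 * (1 - gap ε * m + 4 * G * m ^ s)
          = u0 * (1 - gap ε * m) + 4 * Cg * M ^ t * m ^ s := by
        rw [hG]; field_simp
      rw [e1]
      exact hpg.trans (Real.rpow_le_rpow (by linarith [mul_nonneg hC0 hσ0])
        (by rw [hPt_eq]; linarith) ht0.le)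
    have h1 := hall.trans (hrhs hgood)
    refine ⟨h1.trans ?_, Or.inl h1⟩
    have := mul_le_mul_of_nonneg_left hone hgoal0
    linarith
  · push Not at hbig
    have hGle : G ≤ 2 * Cg * ((p : ℝ) ^ (-κ)) ^ t := by
      rw [hG]
      refine off_le hCg0 hM0 ?_ (Real.rpow_nonneg hpR.le _) (by linarith) ht0.le ?_
      · have : 0 ≤ (p : ℝ) ^ (-κ) * w0 := mul_nonneg (Real.rpow_nonneg hpR.le _) hw00
        rw [hM]; linarith
      · rw [ht]; linarith
    have hpk1 : (p : ℝ) ^ (-κ) ≤ 1 :=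
      Real.rpow_le_one_of_one_le_of_nonpos (Nat.one_le_cast.2 hp.pos) (by rw [hκ]; linarith)
    have hG2 : G ≤ 2 * Cg := hGle.trans
      (mul_le_of_le_one_right (by positivity) (Real.rpow_le_one (by positivity) hpk1 ht0.le))
    refine ⟨?_, ?_⟩
    · have hsl := hker.sum_le hε (by linarith)
      rw [← hs] at hsl
      have hsmall : Wk ≤ smallC ε b := by
        refine hsl.trans ?_
        rw [smallC, ← hCg, ← hs, ← ht]
        have hG0 := hker.hG
        gcongr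
      refine hall.trans ((mul_le_mul_of_nonneg_left hsmall hbase0).trans ?_)
      rw [hbase]
      refine scale_le hK hyy0 hABs ?_
      rw [mul_comm u0]
      exact mul_le_mul_of_nonneg_left hu0le (zero_le_one.trans hone)
    · rcases le_or_gt Wk 1 with hle | hgt
      · exact Or.inl (hall.trans (hrhs ((mul_le_of_le_one_right hu0pos.le hle).trans hu0le)))
      · obtain ⟨k, -, hboth⟩ := hker.dichotomy hε (by linarith) hgt
        refine Or.inr ⟨k, ?_⟩
        refine (hbothk k).trans ((mul_le_mul_of_nonneg_left hboth hbase0).trans ?_)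
        have hexc : (1 + G) * (4 * G / gap ε) ^ ((1 + 2 * ε) / (1 / 2 - ε))
            ≤ excC ε b * (p : ℝ) ^ (-(1 + ε)) :=
          exc_bound hp.pos hε hε' ha hb hab hker.hG hGle
        refine (mul_le_mul_of_nonneg_left hexc hbase0).trans ?_
        rw [hbase]
        refine scale_le hK hyy0 hABs ?_
        rw [mul_comm u0]
        refine mul_le_mul_of_nonneg_left hu0le (le_trans ?_ hexc)
        exact mul_nonneg (by linarith only [hker.hG]) (Real.rpow_nonneg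
          (div_nonneg (by linarith only [hker.hG]) hg.le) _)

lemma exists_small_bound {ε : ℝ} (hε : 0 < ε) (_hε' : ε < 1 / 2) (_hb : 0 < b) :
    ∃ p₀ : ℕ, ∀ S : Finset ℕ, (∀ p ∈ S, p₀ < p) →
      ∑ p ∈ S, excC ε b * (p : ℝ) ^ (-(1 + ε)) ≤ 1 / 2 := by
  have hs : Summable fun n : ℕ => excC ε b * (n : ℝ) ^ (-(1 + ε)) :=
    (Real.summable_nat_rpow.2 (by linarith)).mul_left _
  obtain ⟨s, hs'⟩ := hs.vanishing (Iio_mem_nhds (show (0 : ℝ) < 1 / 2 by norm_num))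
  refine ⟨s.sup id, fun S hS => le_of_lt (hs' S (Finset.disjoint_left.2 fun x hx hxs => ?_))⟩
  have := le_sup (f := id) hxs
  have := hS x hx
  simp only [id] at *
  omega

/-- The induction. -/
theorem exists_frame {ε a b : ℝ} (hε : 0 < ε) (hε' : ε ≤ 1 / 20) (hb : 0 < b) :
    ∃ K : ℝ, 0 ≤ K ∧ ∀ (π : Par) (N₀ : ℕ) (Y : ℝ), FrameHyp π N₀ Y a b ε →
      ∀ (S : Finset ℕ), (∀ q ∈ S, q.Prime) → ∀ (P Q : ℕ) (f h : ℕ → ℝ) (V U : Finset ℕ),
        0 < P → 0 < Q → SideOK S f V → SideOK S h U →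
        Lsum π P Q f h V U ≤ K * π.y ^ (1 - 2 * ε)
          * Pot π N₀ Y a (peelC ε b) b S P Q ^ (1 / 2 - ε)
          * ((∑ v ∈ V, mu f v) * ∑ w ∈ U, mu h w) ^ (1 / 2 + ε) := by
  obtain ⟨p₀, hp₀⟩ := exists_small_bound hε (by linarith) hb
  set Cs := smallC ε b with hCs
  have hCg0 : 0 ≤ geoC ε b := geoC_nonneg (by linarith) hb
  have hg := gap_pos hε
  have hCs1 : 1 ≤ Cs := by
    rw [hCs, smallC]
    exact le_add_of_nonneg_right (mul_nonneg (by positivity) (by positivity))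
  have hexc0 : 0 ≤ excC ε b := by rw [excC]; positivity
  refine ⟨8 * Cs ^ (p₀ + 1), by positivity, fun π N₀ Y H => ?_⟩
  suffices key : ∀ S : Finset ℕ, (∀ q ∈ S, q.Prime) →
      ∀ (P Q : ℕ) (f h : ℕ → ℝ) (V U : Finset ℕ), 0 < P → 0 < Q → SideOK S f V → SideOK S h U →
        Lsum π P Q f h V U ≤ 8 * Cs ^ (S.filter (· ≤ p₀)).card * π.y ^ (1 - 2 * ε)
          * Pot π N₀ Y a (peelC ε b) b S P Q ^ (1 / 2 - ε)
          * ((∑ v ∈ V, mu f v) * ∑ w ∈ U, mu h w) ^ (1 / 2 + ε) by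
    intro S hS P Q f h V U hP hQ hV hU
    refine (key S hS P Q f h V U hP hQ hV hU).trans ?_
    have hcard : (S.filter (· ≤ p₀)).card ≤ p₀ + 1 := by
      refine le_trans (card_le_card (t := range (p₀ + 1)) fun x hx => ?_) (card_range _).le
      exact Finset.mem_range.2 (Nat.lt_succ_of_le (Finset.mem_filter.1 hx).2)
    have h1 : 0 ≤ π.y ^ (1 - 2 * ε) * Pot π N₀ Y a (peelC ε b) b S P Q ^ (1 / 2 - ε)
        * ((∑ v ∈ V, mu f v) * ∑ w ∈ U, mu h w) ^ (1 / 2 + ε) := by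
      have := (Pot_pos (π := π) (N₀ := N₀) (b := b) (a := a) H.hY
        (peelC_nonneg hε (by linarith) hb) S hP hQ).le
      have := mul_nonneg hV.sum_nonneg hU.sum_nonneg
      have := H.hy.le
      positivity
    have := mul_le_mul_of_nonneg_right
      (mul_le_mul_of_nonneg_left (pow_le_pow_right₀ hCs1 hcard) (by norm_num : (0 : ℝ) ≤ 8)) h1
    linarith
  intro S
  induction S using Finset.strongInduction with
  | _ S ih =>
  intro hS P Q f h V U hP hQ hV hU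
  set A := ∑ v ∈ V, mu f v with hA
  set B := ∑ w ∈ U, mu h w with hB
  set Pt := Pot π N₀ Y a (peelC ε b) b S P Q with hPt
  set K₀ : ℝ := 8 * Cs ^ (S.filter (· ≤ p₀)).card with hK₀
  set yy := π.y ^ (1 - 2 * ε) with hyy
  have hC : 0 ≤ peelC ε b := peelC_nonneg hε (by linarith) hb
  have hyy0 : 0 ≤ yy := Real.rpow_nonneg H.hy.le _
  have hA0 : 0 ≤ A := hV.sum_nonneg
  have hB0 : 0 ≤ B := hU.sum_nonneg
  have hPt0 : 0 ≤ Pt := (Pot_pos H.hY hC S hP hQ).le
  have hK0 : 0 ≤ K₀ := by positivity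
  have hR : 0 ≤ yy * Pt ^ (1 / 2 - ε) * (A * B) ^ (1 / 2 + ε) := by positivity
  by_cases hz : A * B ≤ 0
  · refine le_trans ?_ (le_trans (mul_nonneg hK0 hR) (le_of_eq (by ring)))
    refine le_trans ?_ hz
    rw [Lsum, hA, hB, sum_mul_sum, ← sum_product (f := fun e : ℕ × ℕ => mu f e.1 * mu h e.2)]
    exact sum_le_sum_of_subset_of_nonneg (Finset.filter_subset _ _) fun e he _ =>
      mul_nonneg (mu_nonneg (hV _ (Finset.mem_product.1 he).1).2.1)
        (mu_nonneg (hU _ (Finset.mem_product.1 he).2).2.1)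
  push Not at hz
  have hApos : 0 < A := pos_of_mul_pos_left hz hB0
  have hBpos : 0 < B := pos_of_mul_pos_right hz hA0
  have hstep : ∀ p ∈ S, _ := fun p hp => H.step hS hp hP hQ hV hU
    (K := 8 * Cs ^ ((S.erase p).filter (· ≤ p₀)).card) (by positivity) hApos hBpos
    (fun P' Q' f' h' V' U' hP' hQ' hV' hU' => ih (S.erase p) (Finset.erase_ssubset hp)
      (fun q hq => hS q (Finset.mem_of_mem_erase hq)) P' Q' f' h' V' U' hP' hQ' hV' hU')
  have hKle : ∀ p ∈ S, 8 * Cs ^ ((S.erase p).filter (· ≤ p₀)).card ≤ K₀ := fun p _ =>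
    mul_le_mul_of_nonneg_left (pow_le_pow_right₀ hCs1
      (card_le_card (Finset.filter_subset_filter _ (Finset.erase_subset p S)))) (by norm_num)
  by_cases hsmall : ∃ p ∈ S, p ≤ p₀
  · obtain ⟨p, hp, hple⟩ := hsmall
    refine (hstep p hp).1.trans (le_of_eq ?_)
    have hcard : (S.filter (· ≤ p₀)).card = ((S.erase p).filter (· ≤ p₀)).card + 1 := by
      rw [Finset.filter_erase, card_erase_add_one (Finset.mem_filter.2 ⟨hp, hple⟩)]
    rw [hK₀, hcard, pow_succ, hCs]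
    ring
  push Not at hsmall
  by_cases hgood : ∃ p ∈ S, Lsum π P Q f h V U
      ≤ 8 * Cs ^ ((S.erase p).filter (· ≤ p₀)).card * yy * Pt ^ (1 / 2 - ε)
        * (A * B) ^ (1 / 2 + ε)
  · obtain ⟨p, hp, hle⟩ := hgood
    refine hle.trans ?_
    have := mul_le_mul_of_nonneg_right (hKle p hp) hR
    linarith
  push Not at hgood
  have hex : ∀ p ∈ S, ∃ k : ℕ, ∑ e ∈ (pairs π P Q f h V U).filter
      (fun e => e.1.factorization p ≠ k ∧ e.2.factorization p ≠ k), mu f e.1 * mu h e.2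
      ≤ K₀ * (excC ε b * (p : ℝ) ^ (-(1 + ε))) * yy * Pt ^ (1 / 2 - ε)
        * (A * B) ^ (1 / 2 + ε) := by
    intro p hp
    obtain ⟨k, hk⟩ := (hstep p hp).2.resolve_left (not_le.2 (hgood p hp))
    refine ⟨k, hk.trans ?_⟩
    have := mul_le_mul_of_nonneg_left (hKle p hp)
      (mul_nonneg hR (mul_nonneg hexc0 (Real.rpow_nonneg (Nat.cast_nonneg (α := ℝ) p) (-(1 + ε)))))
    linarith
  choose! k hk using hex
  have hterm := H.terminal_le hS k hP hQ hV hU
  have hrest : ∑ e ∈ (pairs π P Q f h V U).filter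
      (fun e => ¬ ∀ p ∈ S, e.1.factorization p = k p ∨ e.2.factorization p = k p),
      mu f e.1 * mu h e.2
      ≤ ∑ p ∈ S, ∑ e ∈ (pairs π P Q f h V U).filter
        (fun e => e.1.factorization p ≠ k p ∧ e.2.factorization p ≠ k p),
        mu f e.1 * mu h e.2 := by
    simp only [sum_filter]
    rw [sum_comm]
    refine sum_le_sum fun e he => ?_
    obtain ⟨h1, h2⟩ := Finset.mem_product.1 (Finset.mem_filter.1 he).1
    have h0 : 0 ≤ mu f e.1 * mu h e.2 :=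
      mul_nonneg (mu_nonneg (hV _ h1).2.1) (mu_nonneg (hU _ h2).2.1)
    split_ifs with hq
    · exact sum_nonneg fun p _ => by split <;> [exact h0; exact le_rfl]
    · push Not at hq
      obtain ⟨p, hp, hq'⟩ := hq
      refine le_trans (le_of_eq (if_pos ?_).symm) (single_le_sum
        (f := fun p => if e.1.factorization p ≠ k p ∧ e.2.factorization p ≠ k p
          then mu f e.1 * mu h e.2 else 0)
        (fun p _ => by split <;> [exact h0; exact le_rfl]) hp)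
      exact hq'
  have hsum := (sum_le_sum fun p hp => hk p hp).trans_eq
    (show ∑ p ∈ S, K₀ * (excC ε b * (p : ℝ) ^ (-(1 + ε))) * yy * Pt ^ (1 / 2 - ε)
        * (A * B) ^ (1 / 2 + ε)
      = (∑ p ∈ S, excC ε b * (p : ℝ) ^ (-(1 + ε)))
        * (K₀ * (yy * Pt ^ (1 / 2 - ε) * (A * B) ^ (1 / 2 + ε))) by
      rw [Finset.sum_mul S]; exact sum_congr rfl fun p _ => by ring)
  have hhalf := mul_le_mul_of_nonneg_right (hp₀ S fun p hp => hsmall p hp) (mul_nonneg hK0 hR)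
  have h8 : (8 : ℝ) ≤ K₀ := le_mul_of_one_le_right (by norm_num) (one_le_pow₀ hCs1)
  have h4 := mul_le_mul_of_nonneg_right h8 hR
  rw [Lsum, ← sum_filter_add_sum_filter_not (pairs π P Q f h V U)
    (fun e => ∀ p ∈ S, e.1.factorization p = k p ∨ e.2.factorization p = k p)]
  linarith

end

end Vale.Agent.P028.LogExtra
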