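import Vale.Agent.P028.ErdosVaaler.Hits

/-!
A nonnegative trigonometric majorant of a hit, and its sums along multiples of a frequency of
finite irrationality exponent.
-/

namespace Vale.Agent.P028.LogExtra

open Finset Vale.Agent.P028.ErdosVaaler

noncomputable section

open scoped Real

/-- The majorant: four times the squared modulus of the normalised sum of `H` harmonics. -/
def kern (H : ℕ) (x : ℝ) : ℝ :=
  4 / (H : ℝ) ^ 2 * ∑ h ∈ range H, ∑ h' ∈ range H,
    Real.cos (2 * π * (((h : ℝ) - h') * x))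

lemma kern_eq_sq (H : ℕ) (x : ℝ) :
    kern H x = 4 / (H : ℝ) ^ 2 * ((∑ h ∈ range H, Real.cos (2 * π * ((h : ℝ) * x))) ^ 2
      + (∑ h ∈ range H, Real.sin (2 * π * ((h : ℝ) * x))) ^ 2) := by
  unfold kern
  congr 1
  rw [sq, sq, sum_mul_sum, sum_mul_sum, ← sum_add_distrib]
  refine sum_congr rfl fun h _ => ?_
  rw [← sum_add_distrib]
  refine sum_congr rfl fun h' _ => ?_
  rw [← Real.cos_sub]
  congr 1
  ring

lemma kern_nonneg (H : ℕ) (x : ℝ) : 0 ≤ kern H x := by
  rw [kern_eq_sq]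
  exact mul_nonneg (by positivity) (add_nonneg (sq_nonneg _) (sq_nonneg _))

/-- Near an integer the majorant is at least one. -/
lemma one_le_kern {H : ℕ} (hH : 1 ≤ H) {x D : ℝ} (n : ℤ) (hn : |x - n| ≤ D)
    (hD : ((H : ℝ) - 1) * D ≤ 1 / 6) : 1 ≤ kern H x := by
  have hD0 : 0 ≤ D := le_trans (abs_nonneg _) hn
  have hHR : (0 : ℝ) < H := Nat.cast_pos.2 hH
  have hhalf : ∀ h ∈ range H, (1 / 2 : ℝ) ≤ Real.cos (2 * π * ((h : ℝ) * x)) := by
    intro h hh
    have h1 : (h : ℝ) + 1 ≤ H := by exact_mod_cast mem_range.1 hh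
    have e : 2 * π * ((h : ℝ) * x) - (((h : ℤ) * n : ℤ) : ℝ) * (2 * π)
        = 2 * π * ((h : ℝ) * (x - n)) := by push_cast; ring
    rw [← Real.cos_sub_int_mul_two_pi _ ((h : ℤ) * n), e, ← Real.cos_abs,
      ← Real.cos_pi_div_three]
    refine Real.cos_le_cos_of_nonneg_of_le_pi (abs_nonneg _)
      (by linarith [Real.pi_pos]) ?_
    rw [abs_mul, abs_of_pos (by positivity : (0 : ℝ) < 2 * π), abs_mul, Nat.abs_cast]
    have h2 : (h : ℝ) * |x - n| ≤ 1 / 6 :=
      le_trans (mul_le_mul (by linarith) hn (abs_nonneg _) (by linarith)) hD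
    have := mul_le_mul_of_nonneg_left h2 (by positivity : (0 : ℝ) ≤ 2 * π)
    linarith
  have hs : (H : ℝ) / 2 ≤ ∑ h ∈ range H, Real.cos (2 * π * ((h : ℝ) * x)) := by
    refine le_trans (le_of_eq ?_) (sum_le_sum hhalf)
    rw [sum_const, card_range, nsmul_eq_mul]
    ring
  rw [kern_eq_sq]
  have h3 : ((H : ℝ) / 2) ^ 2 ≤ (∑ h ∈ range H, Real.cos (2 * π * ((h : ℝ) * x))) ^ 2 :=
    pow_le_pow_left₀ (by positivity) hs 2
  calc (1 : ℝ) = 4 / (H : ℝ) ^ 2 * ((H : ℝ) / 2) ^ 2 := by field_simp; ring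
    _ ≤ _ := mul_le_mul_of_nonneg_left (le_trans h3 (le_add_of_nonneg_right (sq_nonneg _)))
      (by positivity)

/-- A cosine sum along a progression is at most the inverse of the distance of the step to the
integers. -/
lemma abs_cos_sum_le (θ b : ℝ) (L : ℕ) {δ : ℝ} (hδ : 0 < δ)
    (hdist : δ ≤ |θ - round θ|) :
    |∑ m ∈ Icc 1 L, Real.cos (2 * π * (θ * m + b))| ≤ 1 / (2 * δ) := by
  set F : ℕ → ℝ := fun m => Real.sin (2 * π * (θ * m + b) + π * θ) with hF
  have htel : ∀ M : ℕ, 2 * Real.sin (π * θ) * ∑ m ∈ Icc 1 M, Real.cos (2 * π * (θ * m + b))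
      = F M - F 0 := by
    intro M
    induction M with
    | zero => simp
    | succ M ih =>
      rw [sum_Icc_succ_top (by omega), mul_add, ih]
      have : F (M + 1) - F M
          = 2 * Real.sin (π * θ) * Real.cos (2 * π * (θ * ((M + 1 : ℕ) : ℝ) + b)) := by
        simp only [hF]
        rw [Real.sin_sub_sin]
        push_cast
        ring_nf
      linarith
  have hd : 2 * δ ≤ |Real.sin (π * θ)| := by
    set r := θ - round θ with hr
    have h1 : |Real.sin (π * r)| = |Real.sin (π * θ)| := by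
      rw [hr, show π * (θ - round θ) = π * θ - (round θ : ℤ) * π by ring,
        Real.sin_sub_int_mul_pi, abs_mul, abs_zpow, abs_neg, abs_one, one_zpow, one_mul]
    have h2 : |r| ≤ 1 / 2 := abs_sub_round θ
    have h3 : 2 * |r| ≤ Real.sin (π * |r|) := by
      have := Real.mul_le_sin (x := π * |r|) (by positivity)
        (by nlinarith [Real.pi_pos])
      rw [show 2 / π * (π * |r|) = 2 * |r| by field_simp] at this
      exact this
    rw [← h1]
    rcases le_or_gt 0 r with hr0 | hr0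
    · rw [abs_of_nonneg hr0] at h3
      exact le_trans (le_trans (by linarith [abs_of_nonneg hr0]) h3) (le_abs_self _)
    · rw [abs_of_neg hr0, mul_neg π r, Real.sin_neg] at h3
      exact le_trans (le_trans (by linarith [abs_of_neg hr0]) h3) (neg_le_abs _)
  have h := htel L
  have h4 : |2 * Real.sin (π * θ) * ∑ m ∈ Icc 1 L, Real.cos (2 * π * (θ * m + b))| ≤ 2 := by
    rw [h]
    refine le_trans (abs_sub _ _) ?_
    linarith [Real.abs_sin_le_one (2 * π * (θ * (L : ℕ) + b) + π * θ),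
      Real.abs_sin_le_one (2 * π * (θ * ((0 : ℕ) : ℝ) + b) + π * θ)]
  rw [abs_mul, abs_mul, abs_two] at h4
  rw [le_div_iff₀ (by positivity)]
  have := mul_le_mul_of_nonneg_right hd
    (abs_nonneg (∑ m ∈ Icc 1 L, Real.cos (2 * π * (θ * m + b))))
  linarith

/-- The distance of an integer multiple of `γ` to the integers. -/
lemma Dio.dist_le {γ c : ℝ} {w : ℕ} (hdio : Dio γ c w) {k : ℤ} (hk : k ≠ 0) :
    c / (k.natAbs : ℝ) ^ w ≤ |(k : ℝ) * γ - round ((k : ℝ) * γ)| := by
  obtain ⟨-, -, hd⟩ := hdio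
  have h0 : 0 < k.natAbs := Int.natAbs_pos.2 hk
  rcases Int.natAbs_eq k with h | h
  · have := hd _ h0 (round ((k : ℝ) * γ))
    have e : ((k.natAbs : ℕ) : ℝ) = (k : ℝ) := by
      rw [← Int.cast_natCast (R := ℝ), ← h]
    rw [e] at this ⊢
    exact this
  · have := hd _ h0 (-round ((k : ℝ) * γ))
    have e : ((k.natAbs : ℕ) : ℝ) = -(k : ℝ) := by
      rw [← Int.cast_natCast (R := ℝ), show ((k.natAbs : ℕ) : ℤ) = -k by omega, Int.cast_neg]
    rw [e] at this ⊢
    refine le_trans this (le_of_eq ?_)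
    push_cast
    rw [show -(k : ℝ) * γ - -(round ((k : ℝ) * γ) : ℝ)
      = -((k : ℝ) * γ - round ((k : ℝ) * γ)) by ring, abs_neg]

/-- The majorant along the multiples of `N γ` has mean `4 / H`, up to an error independent of the
length. -/
lemma kern_sum_le {γ c : ℝ} {w : ℕ} (hdio : Dio γ c w) {H N : ℕ} (hH : 1 ≤ H) (hN : 0 < N)
    (t : ℝ) (L : ℕ) :
    |∑ m ∈ Icc 1 L, kern H ((m : ℝ) * (N : ℝ) * γ - t) - 4 / (H : ℝ) * L|
      ≤ 2 * ((H : ℝ) * N) ^ w / c := by
  have hc : 0 < c := hdio.1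
  have hHR : (0 : ℝ) < H := Nat.cast_pos.2 hH
  set Bd : ℝ := ((H : ℝ) * N) ^ w / (2 * c) with hBd
  set T : ℕ → ℕ → ℝ := fun h h' => ∑ m ∈ Icc 1 L,
    Real.cos (2 * π * (((h : ℝ) - h') * ((m : ℝ) * (N : ℝ) * γ - t))) with hT
  have e1 : ∑ m ∈ Icc 1 L, kern H ((m : ℝ) * (N : ℝ) * γ - t)
      = 4 / (H : ℝ) ^ 2 * ∑ h ∈ range H, ∑ h' ∈ range H, T h h' := by
    simp only [kern, hT, ← mul_sum]
    congr 1
    rw [sum_comm]
    exact sum_congr rfl fun h _ => sum_comm
  have hdiag : ∀ h : ℕ, T h h = L := by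
    intro h
    simp [hT]
  have hoff : ∀ h ∈ range H, ∀ h' ∈ range H, |T h h' - if h = h' then (L : ℝ) else 0| ≤ Bd := by
    intro h hh h' hh'
    by_cases he : h = h'
    · rw [if_pos he, ← he, hdiag, sub_self, abs_zero, hBd]
      positivity
    rw [if_neg he, sub_zero]
    set k : ℤ := ((h : ℤ) - h') * N with hk
    have hk0 : k ≠ 0 := mul_ne_zero (by omega) (by omega)
    have hkle : (k.natAbs : ℝ) ≤ (H : ℝ) * N := by
      rw [← Nat.cast_mul, Nat.cast_le, hk, Int.natAbs_mul, Int.natAbs_natCast]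
      refine Nat.mul_le_mul_right _ ?_
      have := mem_range.1 hh
      have := mem_range.1 hh'
      omega
    have hpos : (0 : ℝ) < (k.natAbs : ℝ) ^ w :=
      pow_pos (Nat.cast_pos.2 (Int.natAbs_pos.2 hk0)) _
    have hb := abs_cos_sum_le ((k : ℝ) * γ) (-(((h : ℝ) - h') * t)) L
      (div_pos hc hpos) (Dio.dist_le hdio hk0)
    have e : T h h' = ∑ m ∈ Icc 1 L,
        Real.cos (2 * π * ((k : ℝ) * γ * m + -(((h : ℝ) - h') * t))) := by
      simp only [hT]
      refine sum_congr rfl fun m _ => ?_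
      congr 1
      rw [hk]
      push_cast
      ring
    rw [e]
    refine hb.trans ?_
    rw [hBd, show 1 / (2 * (c / (k.natAbs : ℝ) ^ w)) = (k.natAbs : ℝ) ^ w / (2 * c) by
      field_simp]
    exact div_le_div_of_nonneg_right (pow_le_pow_left₀ (Nat.cast_nonneg _) hkle w) (by positivity)
  have e2 : 4 / (H : ℝ) * L
      = 4 / (H : ℝ) ^ 2 * ∑ h ∈ range H, ∑ h' ∈ range H, (if h = h' then (L : ℝ) else 0) := by
    rw [sum_congr rfl fun h (hh : h ∈ range H) => by rw [sum_ite_eq, if_pos hh],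
      sum_const, card_range, nsmul_eq_mul]
    field_simp
  rw [e1, e2, ← mul_sub, abs_mul, abs_of_pos (by positivity : (0 : ℝ) < 4 / (H : ℝ) ^ 2),
    ← sum_sub_distrib]
  simp only [← sum_sub_distrib]
  calc 4 / (H : ℝ) ^ 2 * |∑ h ∈ range H, ∑ h' ∈ range H, (T h h' - if h = h' then (L : ℝ) else 0)|
      ≤ 4 / (H : ℝ) ^ 2 * ∑ h ∈ range H, ∑ h' ∈ range H, Bd := by
        refine mul_le_mul_of_nonneg_left ?_ (by positivity)
        refine le_trans (abs_sum_le_sum_abs _ _) (sum_le_sum fun h hh => ?_)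
        exact le_trans (abs_sum_le_sum_abs _ _) (sum_le_sum fun h' hh' => hoff h hh h' hh')
    _ = 2 * ((H : ℝ) * N) ^ w / c := by
        simp only [sum_const, card_range, nsmul_eq_mul, hBd]
        field_simp
        ring

end

end Vale.Agent.P028.LogExtra
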