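import Vale.Agent.P028.LogExtra.Sieve

/-!
One variable drawn from the totient measure of the divisors of a modulus rarely gives a hit at a
frequency of small height, up to a factor doubly logarithmic in its size.
-/

namespace Vale.Agent.P028.LogExtra

open Finset Vale.Agent.P028.ErdosVaaler

noncomputable section

/-- The loss `1 + log (1 + log T)`. -/
def llog (T : ℝ) : ℝ := 1 + Real.log (1 + Real.log T)

lemma one_le_llog {T : ℝ} (hT : 1 ≤ T) : 1 ≤ llog T :=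
  le_add_of_nonneg_right (Real.log_nonneg (le_add_of_nonneg_right (Real.log_nonneg hT)))

lemma div_totient_eq {n : ℕ} (hn : n ≠ 0) :
    (n : ℝ) / n.totient = ∑ s ∈ n.primeFactors.powerset, gp s := by
  have hp : ∀ p ∈ n.primeFactors, (2 : ℝ) ≤ p := fun p hp => by
    exact_mod_cast (Nat.prime_of_mem_primeFactors hp).two_le
  have h0 : (0 : ℝ) < n.totient := Nat.cast_pos.2 (Nat.totient_pos.2 hn.bot_lt)
  have hid : (n.totient : ℝ) * ∏ p ∈ n.primeFactors, (p : ℝ)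
      = (n : ℝ) * ∏ p ∈ n.primeFactors, ((p : ℝ) - 1) := by
    have h : ((n.totient * ∏ p ∈ n.primeFactors, p : ℕ) : ℝ)
        = ((n * ∏ p ∈ n.primeFactors, (p - 1) : ℕ) : ℝ) := by
      rw [Nat.totient_mul_prod_primeFactors]
    rw [Nat.cast_mul, Nat.cast_mul, Nat.cast_prod, Nat.cast_prod] at h
    refine h.trans (congrArg _ (prod_congr rfl fun p hp' => ?_))
    rw [Nat.cast_sub (Nat.prime_of_mem_primeFactors hp').one_le, Nat.cast_one]
  simp only [gp]
  rw [← prod_one_add, prod_congr (rfl : n.primeFactors = n.primeFactors) fun p hp' => show 1 + ((p : ℝ) - 1)⁻¹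
      = (p : ℝ) / ((p : ℝ) - 1) by
        have := hp p hp'
        field_simp [show ((p : ℝ) - 1) ≠ 0 by linarith]
        ring,
    prod_div_distrib, div_eq_div_iff h0.ne'
      (prod_ne_zero_iff.2 fun p hp' => by linarith [hp p hp'])]
  linarith

lemma sum_inv_mul_pred_le (S : Finset ℕ) (hS : ∀ p ∈ S, p.Prime) :
    ∑ p ∈ S, ((p : ℝ) * ((p : ℝ) - 1))⁻¹ ≤ 1 := by
  set M := S.sup id + 2
  have h : ∀ L : ℕ, ∑ p ∈ Icc 2 (L + 1), ((p : ℝ) * ((p : ℝ) - 1))⁻¹ ≤ 1 - 1 / ((L : ℝ) + 1) := by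
    intro L
    induction L with
    | zero => simp
    | succ L ih =>
      rw [sum_Icc_succ_top (by omega)]
      refine le_trans (add_le_add ih le_rfl) (le_of_eq ?_)
      push_cast
      field_simp
      ring
  refine le_trans (sum_le_sum_of_subset_of_nonneg (t := Icc 2 (M + 1)) (fun p hp => ?_)
    fun p hp _ => ?_) (le_trans (h M) (sub_le_self _ (by positivity)))
  · have : id p ≤ S.sup id := le_sup hp
    exact mem_Icc.2 ⟨(hS p hp).two_le, by simp only [id] at this; omega⟩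
  · have : (2 : ℝ) ≤ p := by exact_mod_cast (mem_Icc.1 hp).1
    exact inv_nonneg.2 (mul_nonneg (by linarith) (by linarith))

/-- The totient measure of the divisors sees `c / φ c` as bounded on average. -/
lemma sum_totient_div_le {N : ℕ} (hN : N ≠ 0) :
    ∑ d ∈ N.divisors, (d.totient : ℝ) / N * (((N / d : ℕ) : ℝ) / ((N / d).totient : ℕ)) ≤ 3 := by
  classical
  have hNR : (0 : ℝ) < N := Nat.cast_pos.2 hN.bot_lt
  have hdvd : ∀ d ∈ N.divisors, N / d ∣ N ∧ N / d ≠ 0 := fun d hd => by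
    obtain ⟨h, -⟩ := Nat.mem_divisors.1 hd
    exact ⟨Nat.div_dvd_of_dvd h,
      (Nat.div_pos (Nat.le_of_dvd hN.bot_lt h) (Nat.pos_of_mem_divisors hd)).ne'⟩
  calc ∑ d ∈ N.divisors, (d.totient : ℝ) / N * (((N / d : ℕ) : ℝ) / ((N / d).totient : ℕ))
      = ∑ d ∈ N.divisors, ∑ s ∈ N.primeFactors.powerset,
          if (∏ p ∈ s, p) ∣ N / d then (d.totient : ℝ) / N * gp s else 0 := by
        refine sum_congr rfl fun d hd => ?_
        obtain ⟨h1, h2⟩ := hdvd d hd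
        rw [div_totient_eq h2, mul_sum, ← sum_filter]
        refine sum_congr ?_ fun _ _ => rfl
        ext s
        simp only [mem_powerset, mem_filter]
        constructor
        · intro hs
          refine ⟨hs.trans (Nat.primeFactors_mono h1 hN), ?_⟩
          exact (prod_dvd_prod_of_subset s _ (fun p : ℕ => p) hs).trans
            (Nat.prod_primeFactors_dvd _)
        · rintro ⟨hs, hsd⟩ p hp
          exact Nat.mem_primeFactors.2 ⟨Nat.prime_of_mem_primeFactors (hs hp),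
            (dvd_prod_of_mem (fun p : ℕ => p) hp).trans hsd, h2⟩
    _ = ∑ s ∈ N.primeFactors.powerset, gp s * (((∏ p ∈ s, p : ℕ) : ℝ))⁻¹ := by
        rw [sum_comm]
        refine sum_congr rfl fun s hs => ?_
        set u := ∏ p ∈ s, p with hu
        have huN : u ∣ N := (prod_dvd_prod_of_subset s _ (fun p : ℕ => p)
          (mem_powerset.1 hs)).trans (Nat.prod_primeFactors_dvd _)
        have hu0 : 0 < u := Nat.pos_of_dvd_of_pos huN hN.bot_lt
        have hset : N.divisors.filter (fun d => u ∣ N / d) = (N / u).divisors := by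
          ext d
          simp only [mem_filter, Nat.mem_divisors]
          constructor
          · rintro ⟨⟨hd, -⟩, hud⟩
            refine ⟨Nat.dvd_div_of_mul_dvd ?_, (Nat.div_pos (Nat.le_of_dvd hN.bot_lt huN) hu0).ne'⟩
            rw [mul_comm]
            exact Nat.mul_dvd_of_dvd_div hd hud
          · rintro ⟨hd, -⟩
            have := Nat.mul_dvd_of_dvd_div huN hd
            exact ⟨⟨dvd_of_mul_left_dvd this, hN⟩, Nat.dvd_div_of_mul_dvd (by rwa [mul_comm])⟩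
        rw [← sum_filter, hset, ← sum_mul, ← sum_div, ← Nat.cast_sum, Nat.sum_totient]
        have e : ((N / u : ℕ) : ℝ) = (N : ℝ) / u := Nat.cast_div huN (Nat.cast_ne_zero.2 hu0.ne')
        rw [e]
        field_simp
    _ = ∏ p ∈ N.primeFactors, (1 + ((p : ℝ) * ((p : ℝ) - 1))⁻¹) := by
        rw [prod_one_add]
        refine sum_congr rfl fun s _ => ?_
        rw [gp, Nat.cast_prod, ← Finset.prod_inv_distrib, ← prod_mul_distrib]
        exact prod_congr rfl fun p _ => by rw [mul_inv, mul_comm]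
    _ ≤ Real.exp (∑ p ∈ N.primeFactors, ((p : ℝ) * ((p : ℝ) - 1))⁻¹) := by
        rw [Real.exp_sum]
        refine prod_le_prod (fun p hp => ?_) (fun p _ => by
          linarith [Real.add_one_le_exp (((p : ℝ) * ((p : ℝ) - 1))⁻¹)])
        have : (2 : ℝ) ≤ p := by exact_mod_cast (Nat.prime_of_mem_primeFactors hp).two_le
        exact add_nonneg zero_le_one (inv_nonneg.2 (mul_nonneg (by linarith) (by linarith)))
    _ ≤ Real.exp 1 := Real.exp_le_exp.2
        (sum_inv_mul_pred_le _ fun p hp => Nat.prime_of_mem_primeFactors hp)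
    _ ≤ 3 := by linarith [Real.exp_one_lt_d9]

lemma sum_half_pow_div_two_le (R J : ℕ) :
    ∑ j ∈ Icc (2 * R) J, (1 / 2 : ℝ) ^ (j / 2) ≤ 4 * (1 / 2) ^ R := by
  have hgeo : ∑ l ∈ Icc R J, (1 / 2 : ℝ) ^ l ≤ 2 * (1 / 2) ^ R := by
    rcases le_or_gt R J with h | h
    · rw [← Finset.Ico_add_one_right_eq_Icc, geom_sum_Ico (by norm_num) (by omega)]
      rw [div_le_iff_of_neg (by norm_num)]
      nlinarith [pow_nonneg (by norm_num : (0 : ℝ) ≤ 1 / 2) (J + 1)]
    · rw [Finset.Icc_eq_empty_of_lt h, sum_empty]; positivity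
  calc ∑ j ∈ Icc (2 * R) J, (1 / 2 : ℝ) ^ (j / 2)
      = ∑ x ∈ (Icc (2 * R) J).image (fun j => (j / 2, j % 2)), (1 / 2 : ℝ) ^ x.1 := by
        rw [sum_image]
        intro a _ b _ h
        obtain ⟨h1, h2⟩ := Prod.ext_iff.1 h
        simp only at h1 h2
        omega
    _ ≤ ∑ x ∈ Icc R J ×ˢ range 2, (1 / 2 : ℝ) ^ x.1 := by
        refine sum_le_sum_of_subset_of_nonneg (fun x hx => ?_) fun _ _ _ => by positivity
        obtain ⟨j, hj, rfl⟩ := mem_image.1 hx
        obtain ⟨h1, h2⟩ := mem_Icc.1 hj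
        exact mem_product.2 ⟨mem_Icc.2 ⟨by omega, by omega⟩, mem_range.2 (by omega)⟩
    _ = 2 * ∑ l ∈ Icc R J, (1 / 2 : ℝ) ^ l := by
        rw [sum_product, mul_sum]
        refine sum_congr rfl fun l _ => ?_
        simp only [sum_const, card_range, nsmul_eq_mul]
        norm_num
    _ ≤ _ := by linarith

/-- The dyadic scales up to `T` contribute a double logarithm. -/
lemma sum_inv_succ_le {T : ℕ} (hT : 1 ≤ T) (R : ℕ) :
    ∑ j ∈ Icc (2 * R) (Nat.log 2 T), ((j : ℝ) + 1)⁻¹ ≤ 2 * llog T := by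
  set L := llog (T : ℝ) with hL
  set J := Nat.log 2 T with hJ
  calc ∑ j ∈ Icc (2 * R) J, ((j : ℝ) + 1)⁻¹
      = ∑ n ∈ (Icc (2 * R) J).image (fun i : ℕ => i + 1), ((n : ℕ) : ℝ)⁻¹ := by
        rw [sum_image fun a _ b _ h => Nat.add_right_cancel h]
        exact sum_congr rfl fun j _ => by push_cast; rfl
    _ ≤ ∑ n ∈ Icc 1 (J + 1), (n : ℝ)⁻¹ := by
        refine sum_le_sum_of_subset_of_nonneg (fun n hn => ?_) fun _ _ _ => by positivity
        obtain ⟨j, hj, rfl⟩ := mem_image.1 hn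
        exact mem_Icc.2 ⟨Nat.le_add_left _ _, Nat.add_le_add_right (mem_Icc.1 hj).2 1⟩
    _ ≤ 1 + Real.log ((J + 1 : ℕ) : ℝ) := by
        refine le_trans (le_of_eq ?_) (harmonic_le_one_add_log _)
        rw [harmonic_eq_sum_Icc]
        push_cast
        rfl
    _ ≤ 2 * L := by
        have hlT : 0 ≤ Real.log (T : ℝ) := Real.log_nonneg (Nat.one_le_cast.2 hT)
        have h1 : ((J + 1 : ℕ) : ℝ) ≤ 2 * (1 + Real.log T) := by
          have h2 : ((2 : ℕ) : ℝ) ^ J ≤ T := by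
            exact_mod_cast Nat.pow_log_le_self 2 (by omega : T ≠ 0)
          have h3 := Real.log_le_log (by positivity) h2
          rw [Real.log_pow, Nat.cast_two] at h3
          have : (1 / 2 : ℝ) < Real.log 2 := by linarith [Real.log_two_gt_d9]
          have hJ0 : (0 : ℝ) ≤ J := Nat.cast_nonneg J
          push_cast
          nlinarith
        have h4 := Real.log_le_log (Nat.cast_pos.2 (Nat.succ_pos J)) h1
        rw [Real.log_mul two_ne_zero (by linarith)] at h4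
        have h5 : Real.log 2 ≤ 1 := by linarith [Real.log_two_lt_d9]
        have h6 : 0 ≤ Real.log (1 + Real.log (T : ℝ)) :=
          Real.log_nonneg (le_add_of_nonneg_right hlT)
        rw [hL, llog]
        linarith

/-- One dyadic scale of the cofactors. -/
lemma dyadic_le {γ c : ℝ} {w : ℕ} (hdio : Dio γ c w) {N H k : ℕ} {t D : ℝ} (hN : N ≠ 0)
    (hH : 1 ≤ H) (hk : 0 < k) (hD : ((H : ℝ) - 1) * D ≤ 1 / 6) (j : ℕ) {Cs : Finset ℕ}
    (hCmem : ∀ x ∈ Cs, x ∣ N ∧ 0 < x ∧ ∃ n : ℤ, |(x : ℝ) * (k : ℝ) * γ - t - n| ≤ D) :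
    (N.totient : ℝ) / N * ∑ x ∈ Cs.filter (fun x => Nat.log 2 x = j), (x : ℝ)⁻¹
      ≤ 64 * (2 * (4 + 2 * w) : ℕ) / (H : ℝ) * ((j : ℝ) + 1)⁻¹
        + (4 + 2 / c) * ((H : ℝ) * k) ^ w * (1 / 2) ^ (j / 2) := by
  classical
  have hc : 0 < c := hdio.1
  set m : ℕ := 2 * (4 + 2 * w) with hm
  have hHR : (0 : ℝ) < H := Nat.cast_pos.2 hH
  have hH1 : (1 : ℝ) ≤ H := Nat.one_le_cast.2 hH
  have hk1 : (1 : ℝ) ≤ k := Nat.one_le_cast.2 hk
  have hNR : (0 : ℝ) < N := Nat.cast_pos.2 hN.bot_lt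
  set rN : ℝ := (N.totient : ℝ) / N with hrN
  have hrN0 : 0 ≤ rN := div_nonneg (Nat.cast_nonneg _) hNR.le
  set i := j / m with hi
  set z := 2 ^ i with hz
  have hz1 : 1 ≤ z := Nat.one_le_two_pow
  set Ps := (range (z + 1)).filter (fun p => p.Prime ∧ ¬ p ∣ N) with hPsd
  have hPs : ∀ p ∈ Ps, p.Prime := fun p hp => (mem_filter.1 hp).2.1
  have hsv := sieved_kern_le hdio hPs hz1 hH hk t (2 ^ (j + 1))
  set G := selG Ps z with hG
  have hG0 : 0 < G := zero_lt_one.trans_le (one_le_selG hPs hz1)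
  have hle : ∑ x ∈ Cs.filter (fun x => Nat.log 2 x = j), (x : ℝ)⁻¹
      ≤ ((2 : ℝ) ^ j)⁻¹ * ∑ x ∈ (Icc 1 (2 ^ (j + 1))).filter (Nat.Coprime (∏ p ∈ Ps, p)),
          kern H ((x : ℝ) * (k : ℝ) * γ - t) := by
    rw [mul_sum]
    refine le_trans (sum_le_sum fun x hx => ?_) (sum_le_sum_of_subset_of_nonneg
      (fun x hx => ?_) fun x _ _ => mul_nonneg (by positivity) (kern_nonneg _ _))
    · obtain ⟨hx1, hx2⟩ := mem_filter.1 hx
      obtain ⟨-, hx0, n, hn⟩ := hCmem x hx1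
      refine le_trans ?_ (le_mul_of_one_le_right (by positivity) (one_le_kern hH n hn hD))
      refine inv_anti₀ (by positivity) ?_
      have := Nat.pow_log_le_self 2 hx0.ne'
      rw [hx2] at this
      exact_mod_cast this
    · obtain ⟨hx1, hx2⟩ := mem_filter.1 hx
      obtain ⟨hxN, hx0, -⟩ := hCmem x hx1
      refine mem_filter.2 ⟨mem_Icc.2 ⟨hx0, ?_⟩, ?_⟩
      · have := Nat.lt_pow_succ_log_self one_lt_two x
        rw [hx2] at this
        exact this.le
      · refine Nat.Coprime.prod_left fun p hp => ?_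
        obtain ⟨-, hpp, hpN⟩ := mem_filter.1 hp
        exact (Nat.Prime.coprime_iff_not_dvd hpp).2 fun h => hpN (h.trans hxN)
  have hgain : rN / G ≤ 8 * m / ((j : ℝ) + 1) := by
    set SN := ∑ s ∈ N.primeFactors.powerset, gp s with hSN
    have hSNe : SN = (N : ℝ) / N.totient := (div_totient_eq hN).symm
    have hh := harmonic_le_selG_mul hN z
    rw [← hG, ← hSN] at hh
    have hlog : ((i : ℝ) + 1) / 4 ≤ ∑ n ∈ Icc 1 z, (n : ℝ)⁻¹ := by
      have h1 := log_add_one_le_harmonic z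
      rw [harmonic_eq_sum_Icc] at h1
      push_cast at h1
      refine le_trans ?_ h1
      have h2 : (2 : ℝ) ^ i ≤ (z : ℝ) + 1 := by rw [hz]; push_cast; linarith
      have h3 := Real.log_le_log (by positivity) h2
      rw [Real.log_pow] at h3
      have hl2 : (1 / 2 : ℝ) < Real.log 2 := by linarith [Real.log_two_gt_d9]
      rcases Nat.eq_zero_or_pos i with h0 | h0
      · rw [h0] at h3 ⊢
        have h4 : (1 : ℝ) ≤ z := Nat.one_le_cast.2 hz1
        have h5 := Real.log_le_log two_pos (by linarith : (2 : ℝ) ≤ (z : ℝ) + 1)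
        push_cast
        linarith
      · have h4 : (1 : ℝ) ≤ i := Nat.one_le_cast.2 h0
        nlinarith
    have hij : ((j : ℝ) + 1) ≤ m * ((i : ℝ) + 1) := by
      have := Nat.lt_mul_div_succ j (show 0 < m by omega)
      exact_mod_cast (show j + 1 ≤ m * (i + 1) from this)
    have htot : (0 : ℝ) < N.totient := Nat.cast_pos.2 (Nat.totient_pos.2 hN.bot_lt)
    have h4 : ((i : ℝ) + 1) / 4 ≤ 2 * (G * ((N : ℝ) / N.totient)) := by
      rw [← hSNe]; exact hlog.trans hh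
    have h5 : ((j : ℝ) + 1) / (8 * m) ≤ G / rN := by
      rw [hrN, div_div_eq_mul_div, div_le_iff₀ (by positivity)]
      rw [← mul_div_assoc] at h4
      nlinarith [mul_le_mul_of_nonneg_left h4 (Nat.cast_nonneg m : (0 : ℝ) ≤ m)]
    have hrpos : 0 < rN := div_pos htot hNR
    rw [← inv_div G rN, ← inv_div ((j : ℝ) + 1) (8 * (m : ℝ))]
    exact inv_anti₀ (by positivity) h5
  have hzpow : (z : ℝ) ^ 4 * (4 + 2 * ((H : ℝ) * k * (z : ℝ) ^ 2) ^ w / c)
      ≤ (4 + 2 / c) * ((H : ℝ) * k) ^ w * (2 : ℝ) ^ (j / 2) := by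
    have hzR : (1 : ℝ) ≤ z := Nat.one_le_cast.2 hz1
    have h1 : 1 ≤ ((H : ℝ) * k) ^ w := one_le_pow₀ (one_le_mul_of_one_le_of_one_le hH1 hk1)
    have h2 : (z : ℝ) ^ (4 + 2 * w) ≤ (2 : ℝ) ^ (j / 2) := by
      rw [hz, Nat.cast_pow, Nat.cast_two, ← pow_mul]
      refine pow_le_pow_right₀ one_le_two ?_
      rw [Nat.le_div_iff_mul_le two_pos, hi, mul_assoc, show (4 + 2 * w) * 2 = m by omega]
      exact Nat.div_mul_le_self _ _
    have h6 : 4 * (z : ℝ) ^ 4 ≤ 4 * (((H : ℝ) * k) ^ w * (z : ℝ) ^ (4 + 2 * w)) := by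
      refine mul_le_mul_of_nonneg_left ?_ (by norm_num)
      calc (z : ℝ) ^ 4 = 1 * (z : ℝ) ^ 4 := (one_mul _).symm
        _ ≤ _ := mul_le_mul h1 (pow_le_pow_right₀ hzR (by omega)) (by positivity) (by positivity)
    calc (z : ℝ) ^ 4 * (4 + 2 * ((H : ℝ) * k * (z : ℝ) ^ 2) ^ w / c)
        = 4 * (z : ℝ) ^ 4 + 2 / c * (((H : ℝ) * k) ^ w * (z : ℝ) ^ (4 + 2 * w)) := by
          rw [mul_pow _ ((z : ℝ) ^ 2) w, ← pow_mul, pow_add]; ring
      _ ≤ (4 + 2 / c) * (((H : ℝ) * k) ^ w * (z : ℝ) ^ (4 + 2 * w)) := by linarith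
      _ ≤ _ := by
          rw [mul_assoc]
          exact mul_le_mul_of_nonneg_left (mul_le_mul_of_nonneg_left h2 (by positivity))
            (by positivity)
  calc rN * ∑ x ∈ Cs.filter (fun x => Nat.log 2 x = j), (x : ℝ)⁻¹
      ≤ rN * (((2 : ℝ) ^ j)⁻¹ * (4 / (H : ℝ) * ((2 ^ (j + 1) : ℕ) : ℝ) / G
          + (z : ℝ) ^ 4 * (4 + 2 * ((H : ℝ) * k * (z : ℝ) ^ 2) ^ w / c))) :=
        mul_le_mul_of_nonneg_left (hle.trans (mul_le_mul_of_nonneg_left hsv (by positivity))) hrN0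
    _ = 8 / H * (rN / G) + rN * (((2 : ℝ) ^ j)⁻¹
          * ((z : ℝ) ^ 4 * (4 + 2 * ((H : ℝ) * k * (z : ℝ) ^ 2) ^ w / c))) := by
        push_cast
        rw [pow_succ]
        field_simp
        ring
    _ ≤ 8 / H * (8 * m / ((j : ℝ) + 1)) + 1 * (((2 : ℝ) ^ j)⁻¹
          * ((4 + 2 / c) * ((H : ℝ) * k) ^ w * (2 : ℝ) ^ (j / 2))) := by
        refine add_le_add (mul_le_mul_of_nonneg_left hgain (by positivity)) (mul_le_mul ?_
          (mul_le_mul_of_nonneg_left hzpow (by positivity)) (by positivity) zero_le_one)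
        exact div_le_one_of_le₀ (Nat.cast_le.2 (Nat.totient_le _)) hNR.le
    _ ≤ _ := by
        refine add_le_add (le_of_eq (by ring)) ?_
        rw [one_mul, ← mul_assoc, mul_comm ((2 : ℝ) ^ j)⁻¹, mul_assoc]
        refine mul_le_mul_of_nonneg_left ?_ (by positivity)
        rw [one_div, inv_pow, ← one_div, ← one_div ((2 : ℝ) ^ (j / 2)), one_div_mul_eq_div,
          div_le_div_iff₀ (by positivity) (by positivity), one_mul, ← pow_add]
        exact pow_le_pow_right₀ one_le_two (by omega)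

/-- The anticoncentration of one variable. -/
theorem exists_one_var_le {γ c : ℝ} {w : ℕ} (hdio : Dio γ c w) :
    ∃ K : ℝ, 0 ≤ K ∧ ∀ (N T H k R : ℕ) (t D : ℝ), N ≠ 0 → 1 ≤ T → 1 ≤ H → 0 < k →
      ((H : ℝ) - 1) * D ≤ 1 / 6 → (H : ℝ) * ((H : ℝ) * k) ^ w ≤ 2 ^ R →
      ∀ F ⊆ N.divisors,
        (∀ d ∈ F, 4 ^ R ≤ N / d ∧ N / d ≤ T ∧
          ∃ n : ℤ, |((N / d : ℕ) : ℝ) * (k : ℝ) * γ - t - n| ≤ D) →
        (∑ d ∈ F, (d.totient : ℝ) / N) ≤ K * Real.sqrt (llog T / H) := by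
  classical
  have hc : 0 < c := hdio.1
  set m : ℕ := 2 * (4 + 2 * w) with hm
  set K₁ : ℝ := 128 * m + 4 * (4 + 2 / c) with hK₁
  refine ⟨Real.sqrt (3 * K₁), Real.sqrt_nonneg _, ?_⟩
  intro N T H k R t D hN hT hH hk hD hR F hF hFh
  have hHR : (0 : ℝ) < H := Nat.cast_pos.2 hH
  have hH1 : (1 : ℝ) ≤ H := Nat.one_le_cast.2 hH
  have hk1 : (1 : ℝ) ≤ k := Nat.one_le_cast.2 hk
  have hNR : (0 : ℝ) < N := Nat.cast_pos.2 hN.bot_lt
  set L := llog (T : ℝ) with hL
  have hL1 : 1 ≤ L := one_le_llog (Nat.one_le_cast.2 hT)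
  set rN : ℝ := (N.totient : ℝ) / N with hrN
  have hrN0 : 0 ≤ rN := div_nonneg (Nat.cast_nonneg _) hNR.le
  have hc0 : ∀ d ∈ F, 0 < N / d := fun d hd => by
    obtain ⟨h, -⟩ := Nat.mem_divisors.1 (hF hd)
    exact Nat.div_pos (Nat.le_of_dvd hN.bot_lt h) (Nat.pos_of_mem_divisors (hF hd))
  -- Cauchy
  have hcs : (∑ d ∈ F, (d.totient : ℝ) / N) ^ 2
      ≤ (∑ d ∈ F, (d.totient : ℝ) / N * (((N / d : ℕ) : ℝ) / ((N / d).totient : ℕ)))
        * ∑ d ∈ F, (d.totient : ℝ) / N * (((N / d).totient : ℕ) / ((N / d : ℕ) : ℝ)) := by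
    refine sum_sq_le_sum_mul_sum_of_sq_le_mul _ (fun d _ => by positivity)
      (fun d _ => by positivity) fun d hd => ?_
    have h1 : (0 : ℝ) < ((N / d).totient : ℕ) :=
      Nat.cast_pos.2 (Nat.totient_pos.2 (hc0 d hd))
    have h2 : (0 : ℝ) < ((N / d : ℕ) : ℝ) := Nat.cast_pos.2 (hc0 d hd)
    refine le_of_eq ?_
    field_simp
  have hfst : ∑ d ∈ F, (d.totient : ℝ) / N * (((N / d : ℕ) : ℝ) / ((N / d).totient : ℕ)) ≤ 3 :=
    (sum_le_sum_of_subset_of_nonneg hF fun d _ _ => by positivity).trans (sum_totient_div_le hN)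
  set Cs := F.image (fun d => N / d) with hCs
  have hsnd : ∑ d ∈ F, (d.totient : ℝ) / N * (((N / d).totient : ℕ) / ((N / d : ℕ) : ℝ))
      ≤ rN * ∑ x ∈ Cs, (x : ℝ)⁻¹ := by
    rw [hCs, mul_sum, sum_image]
    · refine sum_le_sum fun d hd => ?_
      have h2 : (0 : ℝ) < ((N / d : ℕ) : ℝ) := Nat.cast_pos.2 (hc0 d hd)
      have h3 := Nat.totient_super_multiplicative d (N / d)
      rw [Nat.mul_div_cancel' (Nat.mem_divisors.1 (hF hd)).1] at h3
      have h3' : (d.totient : ℝ) * ((N / d).totient : ℕ) ≤ N.totient := by exact_mod_cast h3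
      rw [div_mul_div_comm, hrN, ← div_eq_mul_inv, div_div]
      exact div_le_div_of_nonneg_right h3' (by positivity)
    · intro a ha b hb h
      rw [← Nat.div_div_self (Nat.mem_divisors.1 (hF ha)).1 hN,
        ← Nat.div_div_self (Nat.mem_divisors.1 (hF hb)).1 hN]
      simp only at h
      rw [h]
  set J := Nat.log 2 T with hJ
  have hCmem : ∀ x ∈ Cs, x ∣ N ∧ 0 < x ∧ 4 ^ R ≤ x ∧ x ≤ T
      ∧ ∃ n : ℤ, |(x : ℝ) * (k : ℝ) * γ - t - n| ≤ D := by
    intro x hx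
    obtain ⟨d, hd, rfl⟩ := mem_image.1 hx
    exact ⟨Nat.div_dvd_of_dvd (Nat.mem_divisors.1 (hF hd)).1, hc0 d hd, hFh d hd⟩
  have hscale : ∀ x ∈ Cs, Nat.log 2 x ∈ Icc (2 * R) J := by
    intro x hx
    obtain ⟨-, -, h1, h2, -⟩ := hCmem x hx
    refine mem_Icc.2 ⟨?_, Nat.log_mono_right h2⟩
    calc 2 * R = Nat.log 2 (4 ^ R) := by
          rw [show (4 : ℕ) ^ R = 2 ^ (2 * R) by rw [pow_mul]; norm_num, Nat.log_pow (by norm_num)]
      _ ≤ _ := Nat.log_mono_right h1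
  have hdy := fun j : ℕ => dyadic_le hdio hN hH hk hD j (Cs := Cs) (t := t)
    fun x hx => ⟨(hCmem x hx).1, (hCmem x hx).2.1, (hCmem x hx).2.2.2.2⟩
  simp only [← hm, ← hrN] at hdy
  have htot2 : rN * ∑ x ∈ Cs, (x : ℝ)⁻¹ ≤ K₁ * (L / H) := by
    rw [← sum_fiberwise_of_maps_to hscale, mul_sum]
    refine le_trans (sum_le_sum fun j _ => hdy j) ?_
    rw [sum_add_distrib, ← mul_sum, ← mul_sum]
    have hA : ∑ j ∈ Icc (2 * R) J, ((j : ℝ) + 1)⁻¹ ≤ 2 * L := sum_inv_succ_le hT R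
    have hB := sum_half_pow_div_two_le R J
    have hB2 : ((H : ℝ) * k) ^ w * (1 / 2) ^ R ≤ L / H := by
      rw [le_div_iff₀ hHR]
      refine le_trans ?_ hL1
      rw [one_div, inv_pow, mul_comm _ (H : ℝ), ← mul_assoc, ← div_eq_mul_inv,
        div_le_one (by positivity)]
      exact hR
    calc 64 * (m : ℝ) / H * ∑ j ∈ Icc (2 * R) J, ((j : ℝ) + 1)⁻¹
          + (4 + 2 / c) * ((H : ℝ) * k) ^ w * ∑ j ∈ Icc (2 * R) J, (1 / 2 : ℝ) ^ (j / 2)
        ≤ 64 * (m : ℝ) / H * (2 * L) + (4 + 2 / c) * ((H : ℝ) * k) ^ w * (4 * (1 / 2) ^ R) :=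
          add_le_add (mul_le_mul_of_nonneg_left hA (by positivity))
            (mul_le_mul_of_nonneg_left hB (by positivity))
      _ = 128 * m * (L / H) + 4 * (4 + 2 / c) * (((H : ℝ) * k) ^ w * (1 / 2) ^ R) := by ring
      _ ≤ _ := by
          rw [hK₁, add_mul]
          exact add_le_add le_rfl (mul_le_mul_of_nonneg_left hB2 (by positivity))
  rw [← Real.sqrt_mul (by positivity)]
  refine Real.le_sqrt_of_sq_le (hcs.trans ?_)
  rw [mul_assoc]
  exact mul_le_mul hfst (hsnd.trans htot2) (sum_nonneg fun d _ => by positivity) (by norm_num)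

end

end Vale.Agent.P028.LogExtra
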