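import Vale.Agent.P028.LogExtra.PairGen

/-!
The pair bound with a logarithmic loss, for shifts of finite irrationality exponent.
-/

namespace Vale.Agent.P028.LogExtra

open Finset Vale.Agent.P028.ErdosVaaler

noncomputable section

/-- For shifts of finite irrationality exponent the weighted overlaps lose only a small power
of the logarithm. -/
theorem pairBound_log {γ c : ℝ} {w : ℕ} (hdio : Dio γ c w) :
    PairBound γ (fun T => 1 + Real.log T) := by
  obtain ⟨hc, hw, -⟩ := id hdio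
  have hw0 : (0 : ℝ) < (w : ℝ) := Nat.cast_pos.2 hw
  refine pairBound_of_scaleTerm hdio (κ := (8 * (w : ℝ))⁻¹) (by positivity) le_rfl
    (R := fun T => (1 + Real.log T) ^ 2) (fun T hT => one_le_pow₀ ?_) (fun T hT => ?_)
    (CR := 4) (by norm_num) (fun T hT => ?_) fun ε hε hε' => ?_
  · linarith [Real.log_nonneg (show (1 : ℝ) ≤ (T : ℝ) from Nat.one_le_cast.2 hT)]
  · linarith [Real.log_nonneg (show (1 : ℝ) ≤ T by linarith)]
  · have h1 : (1 : ℝ) ≤ (⌈T⌉₊ : ℝ) := le_trans (by linarith) (Nat.le_ceil T)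
    have h2 : (⌈T⌉₊ : ℝ) ≤ 2 * T := by
      linarith [Nat.ceil_lt_add_one (show (0 : ℝ) ≤ T by linarith)]
    have h3 : Real.log ⌈T⌉₊ ≤ Real.log 2 + Real.log T := by
      rw [← Real.log_mul (by norm_num) (by linarith)]
      exact Real.log_le_log (by linarith) h2
    have h4 : Real.log 2 ≤ 1 := by linarith [Real.log_two_lt_d9]
    have h5 := Real.log_nonneg (show (1 : ℝ) ≤ T by linarith)
    calc (1 + Real.log (⌈T⌉₊ : ℝ)) ^ 2 ≤ (2 * (1 + Real.log T)) ^ 2 :=
          pow_le_pow_left₀ (by linarith [Real.log_nonneg h1]) (by linarith) 2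
      _ = _ := by ring
  · refine ⟨1, 1, zero_le_one, one_pos, fun y T W hy _ hy1 hT hWu _ => ?_⟩
    have hH : 1 ≤ 1 + Real.log (T : ℝ) := by
      linarith [Real.log_nonneg (show (1 : ℝ) ≤ (T : ℝ) from Nat.one_le_cast.2 hT)]
    have hu : 1 ≤ y ^ (-(8 * (w : ℝ))⁻¹) := Real.one_le_rpow_of_pos_of_le_one_of_nonpos hy hy1
      (neg_nonpos.2 (by positivity))
    refine ⟨(1 + Real.log (T : ℝ)) ^ 10, one_le_pow₀ hH, ?_, fun N₀ _ =>
      termBound_of_saving N₀ hε hy (Nat.one_le_cast.1 (hu.trans hWu)) (by norm_num [scalePar])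
        (by simp only [scalePar]; linarith) (Or.inl ⟨le_rfl, hT⟩)⟩
    rw [one_mul, ← Real.rpow_natCast (1 + Real.log (T : ℝ)) 10, ← Real.rpow_mul (by linarith),
      show (fun T : ℕ => (1 + Real.log (T : ℝ)) ^ 2) T = (1 + Real.log (T : ℝ)) ^ (2 : ℝ) from
        (Real.rpow_two _).symm]
    calc (1 + Real.log (T : ℝ)) ^ (((10 : ℕ) : ℝ) * (1 / 8))
        = (1 + Real.log (T : ℝ)) ^ (((10 : ℕ) : ℝ) * (1 / 8)) * 1 := (mul_one _).symm
      _ ≤ _ := mul_le_mul (Real.rpow_le_rpow_of_exponent_le hH (by norm_num))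
          (Real.one_le_rpow_of_pos_of_le_one_of_nonpos hy hy1 (neg_nonpos.2 (by positivity)))
          zero_le_one (Real.rpow_nonneg (by linarith) _)

end

end Vale.Agent.P028.LogExtra
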