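import Vale.Agent.P028.LogExtra.WeightedLimit
import Vale.Agent.P028.ErdosVaaler.LevelPairs

/-!
From a weighted pair bound that loses an arbitrarily small power of a function of `1/ψ` to full
measure.
-/

namespace Vale.Agent.P028.LogExtra

open Finset MeasureTheory Vale.Agent.P028.ErdosVaaler

noncomputable section

open scoped Classical

/-- The weight `φ(q)/q`. -/
def rho (q : ℕ) : ℝ := (q.totient : ℝ) / q

lemma rho_nonneg (q : ℕ) : 0 ≤ rho q := div_nonneg (Nat.cast_nonneg _) (Nat.cast_nonneg _)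

lemma rho_le_one (q : ℕ) : rho q ≤ 1 :=
  div_le_one_of_le₀ (Nat.cast_le.2 (Nat.totient_le q)) (Nat.cast_nonneg _)

/-- The weighted exceptional overlaps of a family with `ψ ≥ 1/T` lose only a small power of
`Λ T`. -/
def PairBound (γ : ℝ) (Λ : ℝ → ℝ) : Prop :=
  ∀ σ : ℝ, 0 < σ → ∃ K : ℝ, 0 ≤ K ∧ ∀ (f : ℕ → ℝ) (F : Finset ℕ) (T : ℝ), 2 ≤ T →
    (∀ q ∈ F, 0 < q ∧ 0 < f q ∧ f q ≤ 1 / 2 ∧ 1 / f q ≤ T) →
    1 ≤ ∑ q ∈ F, rho q * f q →
      ∑ q ∈ F, ∑ r ∈ F.filter (· < q), rho q * rho r * T2 γ f q r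
        ≤ K * (Λ T) ^ σ * (∑ q ∈ F, rho q * f q) ^ (1 + σ)

lemma weighted_moment_le {γ : ℝ} {ψ : ℕ → ℝ} (h0 : ∀ q, 0 ≤ ψ q) {F : Finset ℕ}
    (hF : ∀ q ∈ F, 0 < q ∧ ψ q ≤ 1 / 2) {X : ℝ}
    (hX : ∑ q ∈ F, ∑ r ∈ F.filter (· < q), rho q * rho r * T2 γ ψ q r ≤ X) :
    ∑ q ∈ F, ∑ r ∈ F, rho q * rho r * unitMeasure.real (A γ (ψ q) q ∩ A γ (ψ r) r)
      ≤ 48 * (∑ q ∈ F, rho q * ψ q) ^ 2 + 12 * X + 6 * ∑ q ∈ F, rho q * ψ q := by
  set φ : ℕ → ℝ := fun q => if q ∈ F then ψ q else 0 with hφ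
  have hφe : ∀ q ∈ F, φ q = ψ q := fun q hq => if_pos hq
  have hsmall : Small (∑ q ∈ F, (q : ℝ) * ψ q) φ := by
    intro q
    by_cases hq : q ∈ F
    · rw [hφe q hq]
      refine ⟨h0 q, (le_div_iff₀ (Nat.cast_pos.2 (hF q hq).1)).2 ?_⟩
      rw [mul_comm]
      exact single_le_sum (f := fun q : ℕ => (q : ℝ) * ψ q)
        (fun r _ => mul_nonneg (Nat.cast_nonneg r) (h0 r)) hq
    · simp only [hφ, if_neg hq]
      exact ⟨le_rfl, div_nonneg (sum_nonneg fun r _ =>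
        mul_nonneg (Nat.cast_nonneg r) (h0 r)) (Nat.cast_nonneg q)⟩
  set U : ℕ → ℕ → ℝ := fun q r => if r < q then rho q * rho r * T2 γ φ q r else 0 with hU
  have hU0 : ∀ q r, 0 ≤ U q r := fun q r => by
    simp only [hU]
    split <;> [exact mul_nonneg (mul_nonneg (rho_nonneg q) (rho_nonneg r)) (T2_nonneg hsmall q r);
      exact le_rfl]
  have hmeas : ∀ q r, unitMeasure.real (A γ (ψ q) q ∩ A γ (ψ r) r)
      = volume.real ((A γ (ψ q) q ∩ A γ (ψ r) r) ∩ Set.Ico 0 1) := fun q r =>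
    unit_real_apply ((measurableSet_A _ _ q).inter (measurableSet_A _ _ r))
  have hlt : ∀ q ∈ F, ∀ r ∈ F, r < q →
      rho q * rho r * unitMeasure.real (A γ (ψ q) q ∩ A γ (ψ r) r)
        ≤ 48 * (rho q * ψ q * (rho r * ψ r)) + 6 * U q r := by
    intro q hq r hr hrq
    have h := overlap_le' (γ := γ) hsmall (hF r hr).1 hrq (by rw [hφe q hq]; exact (hF q hq).2)
      (by rw [hφe r hr]; exact (hF r hr).2)
    have e : U q r = rho q * rho r * T2 γ φ q r := if_pos hrq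
    have h' : volume.real ((A γ (ψ q) q ∩ A γ (ψ r) r) ∩ Set.Ico 0 1)
        ≤ 48 * (ψ q * ψ r) + 6 * T2 γ φ q r := by
      unfold T2
      rwa [hφe q hq, hφe r hr] at h ⊢
    have := mul_le_mul_of_nonneg_left h' (mul_nonneg (rho_nonneg q) (rho_nonneg r))
    rw [hmeas, e]
    linarith
  have hpair : ∀ q ∈ F, ∀ r ∈ F, rho q * rho r * unitMeasure.real (A γ (ψ q) q ∩ A γ (ψ r) r)
      ≤ 48 * (rho q * ψ q * (rho r * ψ r)) + 6 * (U q r + U r q)
        + (if q = r then 6 * (rho q * ψ q) else 0) := by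
    intro q hq r hr
    have hp : 0 ≤ rho q * ψ q * (rho r * ψ r) :=
      mul_nonneg (mul_nonneg (rho_nonneg q) (h0 q)) (mul_nonneg (rho_nonneg r) (h0 r))
    have hu1 := hU0 q r
    have hu2 := hU0 r q
    rcases lt_trichotomy r q with h | heq | h
    · rw [if_neg h.ne']
      linarith [hlt q hq r hr h]
    · subst heq
      rw [if_pos rfl, hmeas, Set.inter_self]
      have h := (abs_le.1 (abs_measure_A_inter_sub_le (γ := γ) (hF r hr).1 (h0 r) (hF r hr).2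
        zero_le_one)).2
      have h4 : 4 * ψ r / (r : ℝ) ≤ 4 * ψ r :=
        div_le_self (by linarith [h0 r]) (Nat.one_le_cast.2 (hF r hr).1)
      have h6 : volume.real (A γ (ψ r) r ∩ Set.Ico 0 1) ≤ 6 * ψ r := by linarith
      have hρ : rho r * rho r ≤ rho r := by
        nlinarith [rho_nonneg r, rho_le_one r]
      have h7 : rho r * rho r * volume.real (A γ (ψ r) r ∩ Set.Ico 0 1) ≤ rho r * (6 * ψ r) :=
        mul_le_mul hρ h6 measureReal_nonneg (rho_nonneg r)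
      linarith
    · rw [if_neg h.ne, Set.inter_comm, mul_comm (rho q) (rho r), mul_comm (rho q * ψ q)]
      linarith [hlt r hr q hq h]
  have hUsum : ∑ q ∈ F, ∑ r ∈ F, U q r ≤ X := by
    refine le_trans (le_of_eq (sum_congr rfl fun q hq => ?_)) hX
    rw [sum_filter]
    refine sum_congr rfl fun r hr => ?_
    simp only [hU]
    unfold T2 T
    rw [hφe q hq, hφe r hr]
  calc ∑ q ∈ F, ∑ r ∈ F, rho q * rho r * unitMeasure.real (A γ (ψ q) q ∩ A γ (ψ r) r)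
      ≤ ∑ q ∈ F, ∑ r ∈ F, (48 * (rho q * ψ q * (rho r * ψ r)) + 6 * (U q r + U r q)
          + (if q = r then 6 * (rho q * ψ q) else 0)) :=
        sum_le_sum fun q hq => sum_le_sum fun r hr => hpair q hq r hr
    _ = 48 * (∑ q ∈ F, rho q * ψ q) ^ 2
          + 6 * ((∑ q ∈ F, ∑ r ∈ F, U q r) + ∑ q ∈ F, ∑ r ∈ F, U r q)
          + 6 * ∑ q ∈ F, rho q * ψ q := by
        have e : ∀ q ∈ F, (∑ r ∈ F, if q = r then 6 * (rho q * ψ q) else 0) = 6 * (rho q * ψ q) :=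
          fun q hq => by rw [sum_ite_eq, if_pos hq]
        simp only [sum_add_distrib]
        rw [sum_congr rfl e]
        simp only [← mul_sum, ← sum_mul, sum_add_distrib]
        ring
    _ ≤ _ := by
        rw [sum_comm (f := fun q r => U r q)]
        linarith

/-- Blocks on which `Λ` is bounded by a small power of the weight. -/
lemma exists_loss_block {ψ : ℕ → ℝ} (h0 : ∀ q, 0 ≤ ψ q) {Λ : ℝ → ℝ} (hΛ : ∀ T, 2 ≤ T → 1 ≤ Λ T)
    {η ε : ℝ} (hη : 0 ≤ η) (hηε : η < ε)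
    (hdiv : ¬ Summable fun q : ℕ => rho q * ψ q / (Λ (2 + 1 / ψ q)) ^ ε) (N : ℕ) :
    ∃ (l : ℕ) (B : Finset ℕ), (∀ q ∈ B, N < q ∧ 0 < ψ q ∧ Λ (2 + 1 / ψ q) ≤ 2 ^ (l + 1)) ∧
      1 ≤ ∑ q ∈ B, rho q * ψ q ∧ ((2 : ℝ) ^ l) ^ η ≤ ∑ q ∈ B, rho q * ψ q := by
  by_contra hno
  push Not at hno
  set x := (2 : ℝ) ^ (η - ε) with hx
  have hx0 : 0 ≤ x := by positivity
  have hx1 : x < 1 := Real.rpow_lt_one_of_one_lt_of_neg one_lt_two (by linarith)
  have hε : 0 < ε := lt_of_le_of_lt hη hηε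
  have h2T : ∀ q, 2 ≤ 2 + 1 / ψ q := fun q => le_add_of_nonneg_right (by have := h0 q; positivity)
  have hclass : ∀ (l : ℕ) (B : Finset ℕ),
      (∀ q ∈ B, N < q ∧ 0 < ψ q ∧ Λ (2 + 1 / ψ q) ≤ 2 ^ (l + 1)) →
      ∑ q ∈ B, rho q * ψ q ≤ ((2 : ℝ) ^ l) ^ η := by
    intro l B hB
    by_contra hlt
    rw [not_le] at hlt
    have h1 : (1 : ℝ) ≤ ((2 : ℝ) ^ l) ^ η := Real.one_le_rpow (one_le_pow₀ one_le_two) hη
    linarith [hno l B hB (h1.trans hlt.le)]
  have hterm0 : ∀ q : ℕ, 0 ≤ rho q * ψ q / (Λ (2 + 1 / ψ q)) ^ ε := fun q => by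
    have h1 := rho_nonneg q
    have h2 := h0 q
    have h3 := hΛ _ (h2T q)
    positivity
  refine hdiv (summable_of_sum_le (c := (1 - x)⁻¹
    + ∑ q ∈ range (N + 1), rho q * ψ q / (Λ (2 + 1 / ψ q)) ^ ε) hterm0 fun v => ?_)
  rw [← sum_filter_add_sum_filter_not v (fun q => N < q ∧ 0 < ψ q)]
  refine add_le_add ?_ ?_
  swap
  · refine le_trans (le_of_eq ?_) (sum_le_sum_of_subset_of_nonneg
      (s := (v.filter fun q => ¬(N < q ∧ 0 < ψ q)).filter fun q => q ≤ N)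
      (fun q hq => mem_range.2 (Nat.lt_succ_of_le (mem_filter.1 hq).2)) fun q _ _ => hterm0 q)
    refine (sum_subset (filter_subset _ _) fun q hq hq' => ?_).symm
    have h1 : ¬ q ≤ N := fun h => hq' (mem_filter.2 ⟨hq, h⟩)
    have h2 : ψ q = 0 := le_antisymm
      (not_lt.1 fun h => (mem_filter.1 hq).2 ⟨not_le.1 h1, h⟩) (h0 q)
    rw [h2, mul_zero, zero_div]
  set w := v.filter (fun q => N < q ∧ 0 < ψ q) with hw
  set key : ℕ → ℕ := fun q => Nat.log 2 ⌊Λ (2 + 1 / ψ q)⌋₊ with hkey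
  rw [← sum_fiberwise_of_maps_to (g := key) (t := range (w.sup key + 1))
    (fun q hq => mem_range.2 (Nat.lt_succ_of_le (le_sup (f := key) hq)))]
  calc ∑ l ∈ range (w.sup key + 1), ∑ q ∈ w.filter (fun q => key q = l),
        rho q * ψ q / (Λ (2 + 1 / ψ q)) ^ ε
      ≤ ∑ l ∈ range (w.sup key + 1), x ^ l := by
        refine sum_le_sum fun l _ => ?_
        set G := w.filter (fun q => key q = l) with hG
        have hG' : ∀ q ∈ G, (N < q ∧ 0 < ψ q ∧ Λ (2 + 1 / ψ q) ≤ 2 ^ (l + 1))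
            ∧ (2 : ℝ) ^ l ≤ Λ (2 + 1 / ψ q) := by
          intro q hq
          obtain ⟨hqw, hql⟩ := mem_filter.1 hq
          have h1 := hΛ _ (h2T q)
          obtain ⟨a, b⟩ := dyadic_mem (Nat.floor_pos.2 h1) hql
          refine ⟨⟨(mem_filter.1 hqw).2.1, (mem_filter.1 hqw).2.2, ?_⟩,
            le_trans (by exact_mod_cast a) (Nat.floor_le (zero_le_one.trans h1))⟩
          have hb : (⌊Λ (2 + 1 / ψ q)⌋₊ : ℝ) + 1 ≤ 2 ^ (l + 1) := by exact_mod_cast b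
          linarith [Nat.lt_floor_add_one (Λ (2 + 1 / ψ q))]
        have h2l : (0 : ℝ) < ((2 : ℝ) ^ l) ^ ε := by positivity
        calc ∑ q ∈ G, rho q * ψ q / (Λ (2 + 1 / ψ q)) ^ ε
            ≤ ∑ q ∈ G, rho q * ψ q / ((2 : ℝ) ^ l) ^ ε := by
              refine sum_le_sum fun q hq => div_le_div_of_nonneg_left
                (mul_nonneg (rho_nonneg q) (h0 q)) h2l ?_
              exact Real.rpow_le_rpow (by positivity) (hG' q hq).2 hε.le
          _ ≤ ((2 : ℝ) ^ l) ^ η / ((2 : ℝ) ^ l) ^ ε := by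
              rw [← sum_div]
              exact div_le_div_of_nonneg_right (hclass l G fun q hq => (hG' q hq).1) h2l.le
          _ = x ^ l := by
              rw [← Real.rpow_sub (by positivity), hx, ← Real.rpow_natCast,
                ← Real.rpow_mul zero_le_two, ← Real.rpow_natCast ((2 : ℝ) ^ (η - ε)) l,
                ← Real.rpow_mul zero_le_two, mul_comm]
    _ ≤ (1 - x)⁻¹ := by
        rw [← tsum_geometric_of_lt_one hx0 hx1]
        exact (summable_geometric_of_lt_one hx0 hx1).sum_le_tsum _ fun i _ => by positivity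

/-- A pair bound with loss `Λ` gives full measure from divergence with any extra power of `Λ`. -/
theorem full_measure_of_pairBound {γ : ℝ} {Λ : ℝ → ℝ} (hΛ : ∀ T, 2 ≤ T → 1 ≤ Λ T)
    (hPB : PairBound γ Λ) {ε : ℝ} (hε : 0 < ε) {ψ : ℕ → ℝ} (h0 : ∀ q, 0 ≤ ψ q)
    (hdiv : ¬ Summable fun q : ℕ => (q.totient : ℝ) / q * ψ q / (Λ (2 + 1 / ψ q)) ^ ε) :
    ∀ᵐ x : ℝ, {q : ℕ | 0 < q ∧ ∃ a : ℤ, |(q : ℝ) * x - a - γ| < ψ q}.Infinite := by
  by_cases hbig : {q : ℕ | 1 / 2 < ψ q}.Infinite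
  · refine Filter.Eventually.of_forall fun x => ((hbig.sdiff (Set.finite_singleton 0))).mono ?_
    rintro q ⟨hq, hq0⟩
    refine ⟨Nat.pos_of_ne_zero hq0, round ((q : ℝ) * x - γ), ?_⟩
    have := abs_sub_round ((q : ℝ) * x - γ)
    rw [sub_right_comm]
    exact this.trans_lt hq
  rw [Set.not_infinite] at hbig
  obtain ⟨M, hM⟩ := hbig.bddAbove
  set η := min (ε / 2) 1 with hη
  have hη0 : 0 < η := lt_min (by positivity) one_pos
  have hηε : η < ε := (min_le_left _ _).trans_lt (half_lt_self hε)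
  set σ := η / (1 + η) with hσ
  have hσ0 : 0 < σ := by positivity
  obtain ⟨K, hK, hpair⟩ := hPB σ hσ0
  choose l B hB hS hSl using fun n : ℕ => exists_loss_block h0 hΛ hη0.le hηε hdiv (n + M)
  have hBq : ∀ n, ∀ q ∈ B n, 0 < q ∧ ψ q ≤ 1 / 2 ∧ n < q := fun n q hq => by
    have h1 := (hB n q hq).1
    refine ⟨by omega, not_lt.1 fun hlt => ?_, by omega⟩
    have h2 : q ≤ M := hM hlt
    omega
  refine ae_of_unit_null (unit_null_of_weighted_blocks (K := 48 + 24 * K + 6)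
    (by positivity) h0 rho_nonneg B hBq hS fun n => ?_)
  set S := ∑ q ∈ B n, rho q * ψ q with hSdef
  have hne : (B n).Nonempty := by
    by_contra h
    rw [not_nonempty_iff_eq_empty] at h
    have := hS n
    rw [h, sum_empty] at this
    linarith
  obtain ⟨m, hm, hmin⟩ := exists_min_image (B n) ψ hne
  have hm0 := (hB n m hm).2.1
  have hT : 2 ≤ 2 + 1 / ψ m := le_add_of_nonneg_right (by positivity)
  have hfam : ∀ q ∈ B n, 0 < q ∧ 0 < ψ q ∧ ψ q ≤ 1 / 2 ∧ 1 / ψ q ≤ 2 + 1 / ψ m :=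
    fun q hq => ⟨(hBq n q hq).1, (hB n q hq).2.1, (hBq n q hq).2.1,
      (one_div_le_one_div_of_le hm0 (hmin q hq)).trans (le_add_of_nonneg_left zero_le_two)⟩
  have h := hpair ψ (B n) _ hT hfam (hS n)
  have hmom := weighted_moment_le (γ := γ) h0
    (fun q hq => ⟨(hBq n q hq).1, (hBq n q hq).2.1⟩) h
  have hS1 : 1 ≤ S := hS n
  have hS0 : 0 < S := by linarith
  have hkey : (Λ (2 + 1 / ψ m)) ^ σ * S ^ (1 + σ) ≤ 2 * S ^ 2 := by
    have h1 : (Λ (2 + 1 / ψ m)) ^ σ ≤ ((2 : ℝ) ^ (l n + 1)) ^ σ :=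
      Real.rpow_le_rpow (zero_le_one.trans (hΛ _ hT)) (hB n m hm).2.2 hσ0.le
    have h2 : ((2 : ℝ) ^ (l n + 1)) ^ σ ≤ 2 * S ^ (1 - σ) := by
      rw [pow_succ', Real.mul_rpow zero_le_two (by positivity)]
      have hσ1 : σ ≤ 1 := by
        rw [hσ, div_le_one (by positivity)]; linarith
      refine mul_le_mul ?_ ?_ (by positivity) zero_le_two
      · calc (2 : ℝ) ^ σ ≤ (2 : ℝ) ^ (1 : ℝ) := Real.rpow_le_rpow_of_exponent_le one_le_two hσ1
          _ = 2 := Real.rpow_one 2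
      · calc ((2 : ℝ) ^ l n) ^ σ = (((2 : ℝ) ^ l n) ^ η) ^ (1 - σ) := by
              rw [← Real.rpow_mul (by positivity)]
              congr 1
              rw [hσ]; field_simp; ring
          _ ≤ S ^ (1 - σ) :=
              Real.rpow_le_rpow (by positivity) (hSl n) (by linarith)
    calc (Λ (2 + 1 / ψ m)) ^ σ * S ^ (1 + σ) ≤ (2 * S ^ (1 - σ)) * S ^ (1 + σ) :=
          mul_le_mul_of_nonneg_right (h1.trans h2) (by positivity)
      _ = 2 * S ^ ((1 - σ) + (1 + σ)) := by rw [mul_assoc, ← Real.rpow_add hS0]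
      _ = 2 * S ^ 2 := by
          rw [show (1 - σ) + (1 + σ) = (2 : ℕ) by norm_num, Real.rpow_natCast]
  have := mul_le_mul_of_nonneg_left hkey hK
  nlinarith [hmom, mul_nonneg hK (sq_nonneg S)]

end

end Vale.Agent.P028.LogExtra
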