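import Vale.Agent.P028.LogExtra.Frame
import Vale.Agent.P028.LogExtra.Shell

/-!
The pair bound from a terminal bound, for shifts of finite irrationality exponent.
-/

namespace Vale.Agent.P028.LogExtra

open Finset Vale.Agent.P028.ErdosVaaler

noncomputable section

open scoped Classical

/-- The parameters used at one scale. -/
def scalePar (γ y Lam : ℝ) (W T : ℕ) : Par := ⟨γ, y, Lam, 1 / 8, W, T⟩

lemma flat_of_dio {γ c y : ℝ} {w : ℕ} (hdio : Dio γ c w) (hy : 0 < y) {K₀ : ℕ}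
    (hK : (K₀ : ℝ) ≤ (c / (2 * y)) ^ (w : ℝ)⁻¹) (k : ℤ) (hk : k ≠ 0) (hkK : |k| < (K₀ : ℤ)) :
    ¬ Hit γ (2 * y) (k : ℝ) := by
  obtain ⟨hc, hw, hd⟩ := hdio
  rintro ⟨n, hn⟩
  set j := k.natAbs with hj
  have hj0 : 0 < j := Int.natAbs_pos.2 hk
  have hjK : (j : ℝ) < K₀ := by
    have h1 : (j : ℤ) < K₀ := by rw [hj, Int.natCast_natAbs]; exact hkK
    exact_mod_cast h1
  have hjR : (0 : ℝ) < j := Nat.cast_pos.2 hj0
  have hwR : (0 : ℝ) < w := Nat.cast_pos.2 hw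
  have h1 : (j : ℝ) ^ w < c / (2 * y) := by
    have := pow_lt_pow_left₀ (hjK.trans_le hK) hjR.le (by omega : w ≠ 0)
    rwa [← Real.rpow_natCast ((c / (2 * y)) ^ _), ← Real.rpow_mul (by positivity),
      inv_mul_cancel₀ hwR.ne', Real.rpow_one] at this
  have hj' : (j : ℝ) = |(k : ℝ)| := by
    rw [hj, ← Int.cast_natCast, Int.natCast_natAbs, Int.cast_abs]
  rcases abs_choice ((k : ℝ)) with h | h
  · have h2 := hd j hj0 n
    rw [hj', h] at h2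
    rw [hj', h] at h1
    have hk0 : (0 : ℝ) < (k : ℝ) := by rw [← h, ← hj']; exact hjR
    rw [div_le_iff₀ (pow_pos hk0 _)] at h2
    rw [lt_div_iff₀ (by positivity)] at h1
    have := mul_lt_mul_of_pos_right hn (pow_pos hk0 w)
    linarith
  · have h2 := hd j hj0 (-n)
    rw [hj', h] at h2
    rw [hj', h] at h1
    have hk0 : (0 : ℝ) < -(k : ℝ) := by rw [← h, ← hj']; exact hjR
    push_cast at h2
    rw [div_le_iff₀ (pow_pos hk0 _), show -(k : ℝ) * γ - -(n : ℝ) = -((k : ℝ) * γ - n) by ring,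
      abs_neg] at h2
    rw [lt_div_iff₀ (by positivity)] at h1
    have := mul_lt_mul_of_pos_right hn (pow_pos hk0 w)
    linarith

/-- The bound without saving, at every scale. -/
lemma exists_plain_bound {ε : ℝ} (hε : 0 < ε) (hε' : ε ≤ 1 / 20) :
    ∃ K : ℝ, 0 ≤ K ∧ ∀ (γ y : ℝ) (T : ℕ), 0 < y →
      ∀ (f : ℕ → ℝ) (F : Finset ℕ), (∀ q ∈ F, 0 < q ∧ 0 ≤ f q) →
        Lsum (scalePar γ y 1 1 T) 1 1 f f F F
          ≤ K * y ^ (1 - 2 * ε)
            * ((∑ q ∈ F, mu f q) * ∑ q ∈ F, mu f q) ^ (1 / 2 + ε) := by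
  set a : ℝ := ε / 4 with ha
  have ha0 : 0 < a := by rw [ha]; positivity
  obtain ⟨KF, hKF, hframe⟩ := exists_frame (a := a) (b := a) hε hε' ha0
  have hCp0 : 0 ≤ peelC ε a := peelC_nonneg hε (by linarith) ha0
  refine ⟨KF, hKF, fun γ y T hy f F hF => ?_⟩
  set S := F.biUnion Nat.primeFactors with hS
  have hSp : ∀ p ∈ S, p.Prime := fun p hp => by
    obtain ⟨q, -, hq⟩ := Finset.mem_biUnion.1 hp
    exact Nat.prime_of_mem_primeFactors hq
  have hside : SideOK S f F := fun q hq =>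
    ⟨(hF q hq).1, (hF q hq).2, Finset.subset_biUnion_of_mem Nat.primeFactors hq⟩
  have hW0 : Wsum (scalePar γ y 1 1 T) 1 (peelC ε a) a S 1 1 = 0 :=
    Finset.sum_eq_zero fun n hn => Finset.sum_eq_zero fun n' hn' => by
      have h1 : n = 1 := by
        have := Finset.mem_Icc.1 (Finset.mem_filter.1 hn).1
        omega
      have h2 : n' = 1 := by
        have := Finset.mem_Icc.1 (Finset.mem_filter.1 hn').1
        omega
      rw [if_neg]
      rw [h1, h2, mul_one]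
      rintro ⟨-, -, hng⟩
      exact hng good_one
  have H0 : FrameHyp (scalePar γ y 1 1 T) 1 1 a a ε := by
    refine ⟨hε, hε', ha0, ha0, by rw [ha]; linarith, hy, le_refl 1, by norm_num [scalePar],
      by simp only [scalePar]; linarith, zero_le_one, ?_, one_pos,
      by simp [scalePar, Real.one_rpow], fun x hx => ?_,
      fun p S' hp hpS D α β hα hβ => Wsum_absorb hCp0 hp hpS D hα hβ⟩
    · exact termBound_of_saving _ hε hy (le_refl 1) (by norm_num [scalePar])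
        (by simp only [scalePar]; linarith) (Or.inr ⟨rfl, rfl⟩)
    by_contra hx1
    push Not at hx1
    have : (1 : ℝ) ≤ (x : ℝ) ^ a := Real.one_le_rpow (Nat.one_le_cast.2 (by omega)) ha0.le
    linarith
  have h := hframe _ _ _ H0 S hSp 1 1 f f F F one_pos one_pos hside hside
  rw [Pot, hW0, mul_one, Nat.cast_one, Real.one_rpow, mul_one, add_zero,
    Real.one_rpow, mul_one] at h
  exact h

lemma floor_scale_le {c y : ℝ} {w : ℕ} (hc : 0 < c) (hw : 1 ≤ w) (hy : 0 < y)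
    (hB1 : 1 ≤ (c / (2 * y)) ^ (w : ℝ)⁻¹) :
    c ^ (w : ℝ)⁻¹ / 4 * y ^ (-(w : ℝ)⁻¹) ≤ (⌊(c / (2 * y)) ^ (w : ℝ)⁻¹⌋₊ : ℝ) := by
  set B := (c / (2 * y)) ^ (w : ℝ)⁻¹ with hB
  have h1 : B / 2 ≤ (⌊B⌋₊ : ℝ) := by
    have := Nat.lt_floor_add_one B
    have : (1 : ℝ) ≤ (⌊B⌋₊ : ℝ) := Nat.one_le_cast.2 (Nat.le_floor (by simpa using hB1))
    linarith
  refine le_trans ?_ h1
  rw [hB, Real.div_rpow hc.le (by positivity), Real.mul_rpow zero_le_two hy.le,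
    Real.rpow_neg hy.le]
  have h2 : (2 : ℝ) ^ (w : ℝ)⁻¹ ≤ 2 := by
    calc (2 : ℝ) ^ (w : ℝ)⁻¹ ≤ (2 : ℝ) ^ (1 : ℝ) :=
          Real.rpow_le_rpow_of_exponent_le one_le_two
            (inv_le_one_of_one_le₀ (Nat.one_le_cast.2 hw))
      _ = 2 := Real.rpow_one 2
  have hcp : 0 ≤ c ^ (w : ℝ)⁻¹ := Real.rpow_nonneg hc.le _
  have hyp : 0 < y ^ (w : ℝ)⁻¹ := Real.rpow_pos_of_pos hy _
  rw [div_div, le_div_iff₀ (by positivity)]
  have e : ∀ C Y2 D : ℝ, Y2 ≠ 0 → C / 4 * Y2⁻¹ * (D * Y2 * 2) = C * D / 2 := fun C Y2 D h => by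
    field_simp; ring
  rw [e _ _ _ hyp.ne']
  linarith [mul_le_mul_of_nonneg_left h2 hcp]

lemma start_num_le {A a ν W N : ℝ} (hA : 0 ≤ A) (ha : 0 < a) (hν : 0 ≤ ν) (hν2 : 6 * ν ≤ 2)
    (hW : 1 ≤ W) (hN1 : 1 ≤ N) (hN : N ≤ 2 * W ^ (ν * a⁻¹)) :
    A * N ^ (4 * a) * W ^ 3 * (1 + Real.log N) ^ 2
      ≤ A * (2 : ℝ) ^ (6 * a) * (1 + a⁻¹) ^ 2 * W ^ 5 := by
  have hN0 : (0 : ℝ) ≤ N := by linarith
  have hW0 : (0 : ℝ) ≤ W := by linarith
  have hlog : 1 + Real.log N ≤ (1 + a⁻¹) * N ^ a := by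
    have h1 := Real.log_le_rpow_div hN0 ha
    have h2 : (1 : ℝ) ≤ N ^ a := Real.one_le_rpow hN1 ha.le
    rw [div_eq_mul_inv] at h1
    linarith
  have h1 : (1 + Real.log N) ^ 2 ≤ (1 + a⁻¹) ^ 2 * (N ^ a) ^ 2 := by
    rw [← mul_pow]
    exact pow_le_pow_left₀ (by linarith [Real.log_nonneg hN1]) hlog 2
  have h2 : N ^ (4 * a) * (N ^ a) ^ 2 ≤ (2 : ℝ) ^ (6 * a) * W ^ 2 := by
    rw [← Real.rpow_natCast (N ^ a), ← Real.rpow_mul hN0,
      ← Real.rpow_add (by linarith), show 4 * a + a * ((2 : ℕ) : ℝ) = 6 * a by push_cast; ring]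
    refine (Real.rpow_le_rpow hN0 hN (by positivity)).trans ?_
    rw [Real.mul_rpow zero_le_two (by positivity), ← Real.rpow_mul hW0]
    refine mul_le_mul_of_nonneg_left ?_ (by positivity)
    rw [← Real.rpow_two]
    refine Real.rpow_le_rpow_of_exponent_le hW ?_
    have : ν * a⁻¹ * (6 * a) = 6 * ν := by field_simp
    linarith
  calc A * N ^ (4 * a) * W ^ 3 * (1 + Real.log N) ^ 2
      ≤ A * N ^ (4 * a) * W ^ 3 * ((1 + a⁻¹) ^ 2 * (N ^ a) ^ 2) := by gcongr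
    _ = A * (1 + a⁻¹) ^ 2 * W ^ 3 * (N ^ (4 * a) * (N ^ a) ^ 2) := by ring
    _ ≤ A * (1 + a⁻¹) ^ 2 * W ^ 3 * ((2 : ℝ) ^ (6 * a) * W ^ 2) := by gcongr
    _ = _ := by ring

/-- The value of the potential at the start. -/
lemma start_potential_le {A c y Lam a ν t κ W N K₀ Ws : ℝ} {w : ℕ} (hA : 0 ≤ A) (hc : 0 < c)
    (hw : 1 ≤ w) (hy : 0 < y) (hy1 : y ≤ 1) (hLam : 1 ≤ Lam) (ha : 0 < a) (ht : 0 < t)
    (ht1 : t ≤ 1) (hν : ν = (1 / 8) / t) (hν2 : 6 * ν ≤ 2) (hW1 : 1 ≤ W)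
    (hκ : 0 < κ) (hκw : κ ≤ (8 * (w : ℝ))⁻¹) (hWu : y ^ (-κ) ≤ W) (hWle : W ≤ 2 * y ^ (-κ))
    (hN1 : 1 ≤ N) (hN : N ≤ 2 * W ^ (ν * a⁻¹))
    (hK : c ^ (w : ℝ)⁻¹ / 4 * y ^ (-(w : ℝ)⁻¹) ≤ K₀) (hWs0 : 0 ≤ Ws)
    (hWs : Ws ≤ A * N ^ (4 * a) * W ^ 3 * (1 + Real.log N) ^ 2 / K₀) :
    ((Lam / W) ^ ν + Ws) ^ t ≤ (1 + 128 * A * (2 : ℝ) ^ (6 * a) * (1 + a⁻¹) ^ 2 / c ^ (w : ℝ)⁻¹)
      * (Lam ^ (1 / 8 : ℝ) * y ^ (κ / 8)) := by
  set wR : ℝ := (w : ℝ) with hwR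
  have hw0 : 0 < wR := Nat.cast_pos.2 hw
  have hWR : 0 < W := by linarith
  have hν0 : 0 < ν := by rw [hν]; positivity
  set Aw : ℝ := 128 * A * (2 : ℝ) ^ (6 * a) * (1 + a⁻¹) ^ 2 / c ^ wR⁻¹ with hAw
  have hcw : 0 < c ^ wR⁻¹ := Real.rpow_pos_of_pos hc _
  have hyw : 0 < y ^ (-wR⁻¹) := Real.rpow_pos_of_pos hy _
  have hAw0 : 0 ≤ Aw := by positivity
  have hW5 : W ^ 5 ≤ 32 * y ^ (-(5 / 8) * wR⁻¹) := by
    calc W ^ 5 ≤ (2 * y ^ (-κ)) ^ 5 := pow_le_pow_left₀ hWR.le hWle 5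
      _ = 32 * (y ^ (-κ)) ^ 5 := by ring
      _ ≤ _ := by
          rw [← Real.rpow_natCast, ← Real.rpow_mul hy.le]
          refine mul_le_mul_of_nonneg_left (Real.rpow_le_rpow_of_exponent_ge hy hy1 ?_) (by norm_num)
          rw [mul_inv] at hκw
          push_cast
          linarith
  have hWsum : Ws ≤ Aw * y ^ (3 / 8 * wR⁻¹) := by
    refine hWs.trans ?_
    calc A * N ^ (4 * a) * W ^ 3 * (1 + Real.log N) ^ 2 / K₀
        ≤ A * (2 : ℝ) ^ (6 * a) * (1 + a⁻¹) ^ 2 * (32 * y ^ (-(5 / 8) * wR⁻¹))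
            / (c ^ wR⁻¹ / 4 * y ^ (-wR⁻¹)) := by
          refine div_le_div₀ (by positivity)
            ((start_num_le hA ha hν0.le hν2 hW1 hN1 hN).trans ?_) (by positivity) hK
          gcongr
      _ = Aw * y ^ (3 / 8 * wR⁻¹) := by
          rw [show (3 / 8 * wR⁻¹) = -(5 / 8) * wR⁻¹ - -wR⁻¹ by ring, Real.rpow_sub hy, hAw]
          field_simp
          ring
  set Z : ℝ := Lam ^ ν * y ^ (ν * κ) with hZ
  have hZ0 : 0 ≤ Z := by positivity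
  have h1 : (Lam / W) ^ ν ≤ Z := by
    rw [hZ, Real.div_rpow (by linarith) hWR.le, div_eq_mul_inv]
    refine mul_le_mul_of_nonneg_left ?_ (Real.rpow_nonneg (by linarith) _)
    rw [← Real.inv_rpow hWR.le, mul_comm ν, Real.rpow_mul hy.le]
    refine Real.rpow_le_rpow (inv_nonneg.2 hWR.le) ?_ hν0.le
    refine (inv_anti₀ (Real.rpow_pos_of_pos hy _) hWu).trans (le_of_eq ?_)
    rw [Real.rpow_neg hy.le, inv_inv]
  have h2 : y ^ (3 / 8 * wR⁻¹) ≤ Z := by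
    calc y ^ (3 / 8 * wR⁻¹) ≤ y ^ (ν * κ) := by
          refine Real.rpow_le_rpow_of_exponent_ge hy hy1 ?_
          calc ν * κ ≤ ν * (8 * wR)⁻¹ := mul_le_mul_of_nonneg_left hκw hν0.le
            _ ≤ 3 / 8 * wR⁻¹ := by
                rw [mul_inv, ← mul_assoc]
                exact mul_le_mul_of_nonneg_right (by linarith) (inv_nonneg.2 hw0.le)
      _ = 1 * y ^ (ν * κ) := (one_mul _).symm
      _ ≤ _ := mul_le_mul_of_nonneg_right (Real.one_le_rpow hLam hν0.le)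
          (Real.rpow_nonneg hy.le _)
  have hY0 : 0 ≤ (Lam / W) ^ ν := Real.rpow_nonneg (div_nonneg (by linarith) hWR.le) _
  have hPot : (Lam / W) ^ ν + Ws ≤ (1 + Aw) * Z := by
    have := mul_le_mul_of_nonneg_left h2 hAw0
    linarith
  refine (Real.rpow_le_rpow (by linarith) hPot ht.le).trans ?_
  rw [Real.mul_rpow (by linarith) hZ0, hZ, Real.mul_rpow (by positivity) (by positivity),
    ← Real.rpow_mul (by linarith), ← Real.rpow_mul hy.le,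
    show ν * t = 1 / 8 by rw [hν, div_mul_cancel₀ _ ht.ne'],
    show ν * κ * t = κ / 8 by
      rw [mul_comm ν, mul_assoc, hν, div_mul_cancel₀ _ ht.ne']; ring]
  refine mul_le_mul_of_nonneg_right ?_ (by positivity)
  calc (1 + Aw) ^ t ≤ (1 + Aw) ^ (1 : ℝ) :=
        Real.rpow_le_rpow_of_exponent_le (by linarith) ht1
    _ = 1 + Aw := Real.rpow_one _

/-- Interpolation between the plain bound and the saving bound. -/
lemma interpolate_le {X Kp KF C₁ R η y AB P ε : ℝ} (hKp : 0 ≤ Kp) (hKF : 0 ≤ KF) (hC : 0 ≤ C₁)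
    (hR : 0 < R) (hy : 0 < y) (hη : 0 < η) (hAB : 0 ≤ AB) (hε : 0 ≤ ε) (hζ : 4 * ε / η ≤ 1)
    (hplain : X ≤ Kp * y ^ (1 - 2 * ε) * AB) (hsave : X ≤ KF * y ^ (1 - 2 * ε) * P * AB)
    (hP : P ≤ C₁ * (R * y ^ η)) :
    X ≤ (Kp + KF * C₁) * R ^ (4 * ε / η) * y ^ (1 + 2 * ε) * AB := by
  set G : ℝ := R * y ^ η with hG
  have hG0 : 0 < G := by positivity
  set ζ : ℝ := 4 * ε / η with hζdef
  have hy2 : 0 ≤ y ^ (1 - 2 * ε) := Real.rpow_nonneg hy.le _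
  have hmin : X ≤ (Kp + KF * C₁) * G ^ ζ * y ^ (1 - 2 * ε) * AB := by
    rcases le_or_gt G 1 with hG1 | hG1
    · have h2 : G ≤ G ^ ζ := by
        calc G = G ^ (1 : ℝ) := (Real.rpow_one G).symm
          _ ≤ G ^ ζ := Real.rpow_le_rpow_of_exponent_ge hG0 hG1 hζ
      refine hsave.trans ?_
      calc KF * y ^ (1 - 2 * ε) * P * AB ≤ KF * y ^ (1 - 2 * ε) * (C₁ * G ^ ζ) * AB := by
            gcongr
            exact hP.trans (mul_le_mul_of_nonneg_left h2 hC)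
        _ = KF * C₁ * G ^ ζ * y ^ (1 - 2 * ε) * AB := by ring
        _ ≤ _ := by
            gcongr
            exact le_add_of_nonneg_left hKp
    · refine hplain.trans ?_
      calc Kp * y ^ (1 - 2 * ε) * AB = Kp * 1 * y ^ (1 - 2 * ε) * AB := by ring
        _ ≤ _ := by
            gcongr
            · exact le_add_of_nonneg_right (by positivity)
            · exact Real.one_le_rpow hG1.le (by positivity)
  refine hmin.trans (le_of_eq ?_)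
  have hGζ : G ^ ζ * y ^ (1 - 2 * ε) = R ^ ζ * y ^ (1 + 2 * ε) := by
    rw [hG, Real.mul_rpow hR.le (by positivity), ← Real.rpow_mul hy.le, mul_assoc,
      ← Real.rpow_add hy, show η * ζ = 4 * ε by rw [hζdef]; field_simp]
    congr 2
    ring
  calc (Kp + KF * C₁) * G ^ ζ * y ^ (1 - 2 * ε) * AB
      = (Kp + KF * C₁) * (G ^ ζ * y ^ (1 - 2 * ε)) * AB := by ring
    _ = _ := by rw [hGζ]; ring

/-- At the scales up to a threshold the terminal pairs gain `W`, with a loss `R T`. -/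
def ScaleTerm (γ κ ε : ℝ) (R : ℕ → ℝ) : Prop :=
  ∃ C y₀ : ℝ, 0 ≤ C ∧ 0 < y₀ ∧ ∀ (y : ℝ) (T W : ℕ), 0 < y → y ≤ y₀ → y ≤ 1 → 1 ≤ T →
    y ^ (-κ) ≤ (W : ℝ) → (W : ℝ) ≤ 2 * y ^ (-κ) →
    ∃ Lam : ℝ, 1 ≤ Lam ∧ Lam ^ (1 / 8 : ℝ) ≤ C * R T * y ^ (-(κ / 16)) ∧
      ∀ N₀ : ℕ, (N₀ : ℝ) ≤ 2 * (W : ℝ) ^ (2 / ε) → TermBound (scalePar γ y Lam W T) N₀ ε

/-- The plain bound and the saving bound at one scale, combined. -/
lemma exists_scale_bound {γ c : ℝ} {w : ℕ} (hdio : Dio γ c w) {ε κ : ℝ} (hε : 0 < ε)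
    (hε' : ε ≤ 1 / 20) (hκ : 0 < κ) (hκw : κ ≤ (8 * (w : ℝ))⁻¹) (hεκ : 4 * ε / (κ / 16) ≤ 1)
    {R : ℕ → ℝ} (hR : ∀ T : ℕ, 1 ≤ T → 1 ≤ R T) (hterm : ScaleTerm γ κ ε R) :
    ∃ K : ℝ, 0 ≤ K ∧ ∀ (y : ℝ) (T : ℕ), 0 < y → y ≤ 1 → 1 ≤ T →
      ∀ (f : ℕ → ℝ) (F : Finset ℕ), (∀ q ∈ F, 0 < q ∧ 0 ≤ f q) →
        Lsum (scalePar γ y 1 1 T) 1 1 f f F F
          ≤ K * R T ^ (4 * ε / (κ / 16)) * y ^ (1 + 2 * ε)
            * ((∑ q ∈ F, mu f q) * ∑ q ∈ F, mu f q) ^ (1 / 2 + ε) := by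
  obtain ⟨hc, hw, -⟩ := id hdio
  obtain ⟨Cl, y₀, hCl, hy₀, hterm⟩ := hterm
  set a : ℝ := ε / 4 with ha
  have ha0 : 0 < a := by rw [ha]; positivity
  have hCp0 : 0 ≤ peelC ε a := peelC_nonneg hε (by linarith) ha0
  obtain ⟨KF, hKF, hframe⟩ := exists_frame (a := a) (b := a) hε hε' ha0
  obtain ⟨Kp, hKp, hplain⟩ := exists_plain_bound hε hε'
  obtain ⟨A, hA, hWone⟩ := exists_Wsum_one_le (peelC ε a) ha0
  set Aw : ℝ := 128 * A * (2 : ℝ) ^ (6 * a) * (1 + a⁻¹) ^ 2 / c ^ (w : ℝ)⁻¹ with hAw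
  have hAw0 : 0 ≤ Aw := by positivity
  set c2 : ℝ := min y₀ (min 1 (c / 2)) with hc2
  have hc20 : 0 < c2 := lt_min hy₀ (lt_min one_pos (by linarith))
  have hc21 : (1 : ℝ) ≤ c2⁻¹ :=
    (one_le_inv₀ hc20).2 ((min_le_right _ _).trans (min_le_left _ _))
  refine ⟨(Kp + KF * ((1 + Aw) * Cl)) * c2⁻¹, by positivity, fun y T hy hy1 hT f F hF => ?_⟩
  have hR1 : 1 ≤ R T := hR T hT
  have hη : 0 < κ / 16 := by linarith
  have hζ0 : 0 ≤ 4 * ε / (κ / 16) := by positivity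
  have hAB0 : 0 ≤ ((∑ q ∈ F, mu f q) * ∑ q ∈ F, mu f q) ^ (1 / 2 + ε) :=
    Real.rpow_nonneg (mul_self_nonneg _) _
  have hy2 : 0 ≤ y ^ (1 + 2 * ε) := Real.rpow_nonneg hy.le _
  rcases le_or_gt c2 y with hbig | hsmall
  · -- large scales
    have h1 : y ^ (1 - 2 * ε) ≤ c2⁻¹ * y ^ (1 + 2 * ε) := by
      have h2 : c2 ≤ y ^ (4 * ε) := by
        calc c2 ≤ y := hbig
          _ = y ^ (1 : ℝ) := (Real.rpow_one y).symm
          _ ≤ y ^ (4 * ε) := Real.rpow_le_rpow_of_exponent_ge hy hy1 (by linarith)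
      rw [le_inv_mul_iff₀ hc20, show (1 + 2 * ε) = (1 - 2 * ε) + 4 * ε by ring, Real.rpow_add hy,
        mul_comm c2]
      exact mul_le_mul_of_nonneg_left h2 (Real.rpow_nonneg hy.le _)
    refine (hplain γ y T hy f F hF).trans ?_
    generalize ((∑ q ∈ F, mu f q) * ∑ q ∈ F, mu f q) ^ (1 / 2 + ε) = AB at hAB0 ⊢
    calc Kp * y ^ (1 - 2 * ε) * AB ≤ Kp * (c2⁻¹ * y ^ (1 + 2 * ε)) * AB :=
          mul_le_mul_of_nonneg_right (mul_le_mul_of_nonneg_left h1 hKp) hAB0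
      _ = Kp * c2⁻¹ * 1 * y ^ (1 + 2 * ε) * AB := by ring
      _ ≤ _ := by
          gcongr
          · exact le_add_of_nonneg_right (by positivity)
          · exact Real.one_le_rpow hR1 hζ0
  -- small scales
  have hsm : y ≤ y₀ ∧ 2 * y ≤ c := ⟨hsmall.le.trans (min_le_left _ _), by
    linarith [hsmall.le.trans ((min_le_right _ _).trans (min_le_right 1 (c / 2)))]⟩
  have hw0 : (0 : ℝ) < (w : ℝ) := Nat.cast_pos.2 hw
  have hB1 : 1 ≤ (c / (2 * y)) ^ (w : ℝ)⁻¹ := by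
    refine Real.one_le_rpow ?_ (by positivity)
    rw [one_le_div (by positivity)]
    exact hsm.2
  have hu1 : 1 ≤ y ^ (-κ) := Real.one_le_rpow_of_pos_of_le_one_of_nonpos hy hy1
    (neg_nonpos.2 hκ.le)
  obtain ⟨W, hWdef⟩ : ∃ W : ℕ, W = ⌈y ^ (-κ)⌉₊ := ⟨_, rfl⟩
  have hWu : y ^ (-κ) ≤ (W : ℝ) := hWdef ▸ Nat.le_ceil _
  have hWR : (1 : ℝ) ≤ (W : ℝ) := hu1.trans hWu
  have hW1 : 1 ≤ W := Nat.one_le_cast.1 hWR
  have hWle : (W : ℝ) ≤ 2 * y ^ (-κ) := by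
    rw [hWdef]; linarith [Nat.ceil_lt_add_one (zero_le_one.trans hu1)]
  obtain ⟨Lam, hLam1, hLamR, hTB⟩ := hterm y T W hy hsm.1 hy1 hT hWu hWle
  obtain ⟨ν, hν⟩ : ∃ ν : ℝ, ν = (1 / 8) / (1 / 2 - ε) := ⟨_, rfl⟩
  have hν0 : 0 < ν := by rw [hν]; exact div_pos (by norm_num) (by linarith)
  have hν2 : 6 * ν ≤ 2 := by
    rw [hν, mul_div_assoc', div_le_iff₀ (by linarith)]; linarith
  obtain ⟨Y, hY⟩ : ∃ Y : ℝ, Y = (Lam / W) ^ ν := ⟨_, rfl⟩
  have hY0 : 0 < Y := hY ▸ Real.rpow_pos_of_pos (div_pos (by linarith) (by linarith)) _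
  obtain ⟨N₀, hN₀⟩ : ∃ N : ℕ, N = ⌈Y ^ (-a⁻¹)⌉₊ := ⟨_, rfl⟩
  have hN : (N₀ : ℝ) ≤ 2 * (W : ℝ) ^ (ν * a⁻¹) := by
    have h1 : Y ^ (-a⁻¹) ≤ (W : ℝ) ^ (ν * a⁻¹) := by
      rw [hY, ← Real.rpow_mul (div_nonneg (by linarith) (by linarith)), mul_neg,
        Real.rpow_neg (div_nonneg (by linarith) (by linarith)),
        ← Real.inv_rpow (div_nonneg (by linarith) (by linarith)), inv_div]
      exact Real.rpow_le_rpow (div_nonneg (by linarith) (by linarith))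
        (div_le_self (by linarith) hLam1) (mul_nonneg hν0.le (inv_nonneg.2 ha0.le))
    have h2 : (1 : ℝ) ≤ (W : ℝ) ^ (ν * a⁻¹) :=
      Real.one_le_rpow hWR (mul_nonneg hν0.le (inv_nonneg.2 ha0.le))
    rw [hN₀]
    linarith [Nat.ceil_lt_add_one (Real.rpow_nonneg hY0.le (-a⁻¹))]
  have hN2 : (N₀ : ℝ) ≤ 2 * (W : ℝ) ^ (2 / ε) := by
    refine hN.trans (mul_le_mul_of_nonneg_left (Real.rpow_le_rpow_of_exponent_le hWR ?_) zero_le_two)
    rw [ha, inv_div, ← mul_div_assoc]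
    exact div_le_div_of_nonneg_right (by linarith) hε.le
  have H1 : FrameHyp (scalePar γ y Lam W T) N₀ Y a a ε := by
    refine ⟨hε, hε', ha0, ha0, by rw [ha]; linarith, hy, hW1, by norm_num [scalePar],
      by simp only [scalePar]; linarith, zero_le_one.trans hLam1, hTB N₀ hN2, hY0, ?_,
      fun x hx => ?_, fun p S' hp hpS D α β hα hβ => Wsum_absorb hCp0 hp hpS D hα hβ⟩
    · simp only [scalePar, hY]
      rw [← Real.rpow_mul (div_nonneg (by linarith) (by linarith)), hν,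
        div_mul_cancel₀ _ (by linarith)]
    · have h1 : (x : ℝ) ^ a < Y⁻¹ := by rw [← one_div, lt_div_iff₀ hY0]; linarith
      have h2 : (x : ℝ) ≤ Y ^ (-a⁻¹) := by
        have := Real.rpow_le_rpow (Real.rpow_nonneg (Nat.cast_nonneg x) _) h1.le
          (inv_nonneg.2 ha0.le)
        rwa [← Real.rpow_mul (Nat.cast_nonneg x), mul_inv_cancel₀ ha0.ne', Real.rpow_one,
          Real.inv_rpow hY0.le, ← Real.rpow_neg hY0.le] at this
      rw [hN₀]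
      exact_mod_cast h2.trans (Nat.le_ceil _)
  obtain ⟨S, hS⟩ : ∃ S : Finset ℕ, S = F.biUnion Nat.primeFactors := ⟨_, rfl⟩
  have hSp : ∀ p ∈ S, p.Prime := fun p hp => by
    obtain ⟨q, -, hq⟩ := Finset.mem_biUnion.1 (hS ▸ hp)
    exact Nat.prime_of_mem_primeFactors hq
  have hside : SideOK S f F := fun q hq =>
    ⟨(hF q hq).1, (hF q hq).2, hS ▸ Finset.subset_biUnion_of_mem Nat.primeFactors hq⟩
  have h := hframe _ _ _ H1 S hSp 1 1 f f F F one_pos one_pos hside hside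
  rw [Pot, mul_one, Nat.cast_one, Real.one_rpow, mul_one] at h
  have hWs := hWone (scalePar γ y Lam W T) N₀ ⌊(c / (2 * y)) ^ (w : ℝ)⁻¹⌋₊ S hW1
    (Nat.le_floor (by simpa using hB1))
    (fun k hk hkK => flat_of_dio hdio hy (Nat.floor_le (zero_le_one.trans hB1)) k hk hkK)
  have hN1 : (1 : ℝ) ≤ N₀ := by
    rw [hN₀]
    exact Nat.one_le_cast.2 (Nat.ceil_pos.2 (Real.rpow_pos_of_pos hY0 _))
  have hpot := start_potential_le (Lam := Lam) (t := 1 / 2 - ε) hA hc hw hy hy1 hLam1 ha0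
    (by linarith) (by linarith) hν hν2 hWR hκ hκw hWu hWle hN1 hN (floor_scale_le hc hw hy hB1)
    (Wsum_nonneg' hCp0 S 1 1) hWs
  rw [← hY, ← hAw] at hpot
  have hP : ((1 + Aw) * (Lam ^ (1 / 8 : ℝ) * y ^ (κ / 8)))
      ≤ (1 + Aw) * Cl * (R T * y ^ (κ / 16)) := by
    rw [mul_assoc (1 + Aw) Cl]
    refine mul_le_mul_of_nonneg_left ?_ (by linarith)
    calc Lam ^ (1 / 8 : ℝ) * y ^ (κ / 8) ≤ Cl * R T * y ^ (-(κ / 16)) * y ^ (κ / 8) :=
          mul_le_mul_of_nonneg_right hLamR (Real.rpow_nonneg hy.le _)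
      _ = Cl * (R T * y ^ (κ / 16)) := by
          rw [mul_assoc, ← Real.rpow_add hy, show -(κ / 16) + κ / 8 = κ / 16 by ring]
          ring
  refine (interpolate_le hKp hKF (by positivity) (by linarith) hy hη hAB0 hε.le hεκ
    (hplain γ y T hy f F hF) h (hpot.trans hP)).trans ?_
  gcongr
  exact le_mul_of_one_le_right (by positivity) hc21

/-- A terminal bound at every small scale gives the pair bound. -/
theorem pairBound_of_scaleTerm {γ c : ℝ} {w : ℕ} (hdio : Dio γ c w) {κ : ℝ} (hκ : 0 < κ)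
    (hκw : κ ≤ (8 * (w : ℝ))⁻¹) {R : ℕ → ℝ} (hR : ∀ T : ℕ, 1 ≤ T → 1 ≤ R T) {Λ : ℝ → ℝ}
    (hΛ : ∀ T, 2 ≤ T → 1 ≤ Λ T) {CR : ℝ} (hCR : 1 ≤ CR)
    (hRΛ : ∀ T, 2 ≤ T → R ⌈T⌉₊ ≤ CR * Λ T ^ 2)
    (hterm : ∀ ε : ℝ, 0 < ε → ε ≤ 1 / 20 → ScaleTerm γ κ ε R) : PairBound γ Λ := by
  intro σ hσ
  set ε : ℝ := min (1 / 20) (min (κ / 64) (σ / (128 / κ + 2))) with hεdef
  have hε : 0 < ε := lt_min (by norm_num) (lt_min (by positivity) (by positivity))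
  have hεκ : 4 * ε / (κ / 16) ≤ 1 := by
    have h : ε ≤ κ / 64 := (min_le_right _ _).trans (min_le_left _ _)
    rw [div_le_one (by positivity)]
    linarith
  have hεσ : 128 * ε / κ + 2 * ε ≤ σ := by
    have h : ε ≤ σ / (128 / κ + 2) := (min_le_right _ _).trans (min_le_right _ _)
    rw [le_div_iff₀ (by positivity)] at h
    calc 128 * ε / κ + 2 * ε = ε * (128 / κ + 2) := by ring
      _ ≤ σ := h
  have hζ0 : 0 ≤ 4 * ε / (κ / 16) := by positivity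
  have hζσ : 2 * (4 * ε / (κ / 16)) + 2 * ε ≤ σ := by
    rw [show 2 * (4 * ε / (κ / 16)) = 128 * ε / κ by field_simp; ring]
    exact hεσ
  obtain ⟨K, hK, hscale⟩ := exists_scale_bound hdio hε (min_le_left _ _) hκ hκw hεκ hR
    (hterm ε hε (min_le_left _ _))
  set r : ℝ := (1 / 2 : ℝ) ^ (2 * ε) with hr
  have hr0 : 0 ≤ r := by positivity
  have hr1 : r < 1 := Real.rpow_lt_one (by norm_num) (by norm_num) (by linarith)
  refine ⟨4 * K * CR ^ σ * (1 - r)⁻¹, by positivity, fun f F T hT hF hS => ?_⟩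
  set Tn := ⌈T⌉₊ with hTn
  have hTn1 : 1 ≤ Tn := Nat.one_le_iff_ne_zero.2 (Nat.ceil_pos.2 (by linarith)).ne'
  set S := ∑ q ∈ F, rho q * f q with hSdef
  have hmu : ∀ q, mu f q = rho q * f q := fun q => rfl
  set L := Λ T with hLdef
  have hL1 : 1 ≤ L := hΛ T hT
  -- the active pairs
  set E := (F ×ˢ F).filter (fun e : ℕ × ℕ => e.2 < e.1 ∧ T2 γ f e.1 e.2 ≠ 0) with hE
  set D : ℕ × ℕ → ℝ := fun e =>
    ((e.2 : ℝ) * f e.1 + e.1 * f e.2) / (e.1.gcd e.2 : ℝ) with hD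
  have hfirst : ∑ q ∈ F, ∑ r ∈ F.filter (· < q), rho q * rho r * T2 γ f q r
      = ∑ e ∈ E, rho e.1 * rho e.2 * T2 γ f e.1 e.2 := by
    simp only [hE, sum_filter]
    rw [sum_product]
    refine sum_congr rfl fun q _ => sum_congr rfl fun r _ => ?_
    by_cases hrq : r < q <;> by_cases h0 : T2 γ f q r = 0 <;> simp [hrq, h0]
  have hex : ∀ e ∈ E, ∃ i : ℕ, (1 / 2 : ℝ) ^ (i + 1) < D e ∧ D e ≤ (1 / 2) ^ i ∧
      T2 γ f e.1 e.2 ≤ 4 / (1 / 2 : ℝ) ^ i * (f e.1 * f e.2) ∧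
      Adm (scalePar γ ((1 / 2 : ℝ) ^ i) 1 1 Tn) 1 1 f f e := by
    intro e he
    obtain ⟨heF, hlt, hne⟩ := Finset.mem_filter.1 he
    obtain ⟨hq, hr'⟩ := Finset.mem_product.1 heF
    obtain ⟨hq0, hfq, -, hqT⟩ := hF _ hq
    obtain ⟨hr0', hfr, -, hrT⟩ := hF _ hr'
    have hg : 0 < e.1.gcd e.2 := Nat.gcd_pos_of_pos_left _ hq0
    have hgR : (0 : ℝ) < (e.1.gcd e.2 : ℕ) := Nat.cast_pos.2 hg
    have hqR : (0 : ℝ) < e.1 := Nat.cast_pos.2 hq0
    have hrR : (0 : ℝ) < e.2 := Nat.cast_pos.2 hr0'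
    have hDh : D e < 1 / 2 := by
      by_contra h
      exact hne (if_neg h)
    have hD0 : 0 < D e := div_pos (by positivity) hgR
    have hT2 : T2 γ f e.1 e.2 = ErdosVaaler.T γ f e.1 e.2 := if_pos hDh
    have hT0 : ErdosVaaler.T γ f e.1 e.2 ≠ 0 := hT2 ▸ hne
    have hhit : Hit γ (min (1 / 2) (D e)) (((e.1 : ℝ) - e.2) / (e.1.gcd e.2 : ℝ)) := by
      by_contra h
      exact hT0 (if_neg h)
    obtain ⟨i, hi1, hi2⟩ := exists_nat_pow_near_of_lt_one hD0 (by linarith : D e ≤ 1)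
      (by norm_num : (0 : ℝ) < 1 / 2) (by norm_num)
    refine ⟨i, hi1, hi2, ?_, ?_, ?_, ?_, ?_, ?_⟩
    · rw [hT2, ErdosVaaler.T, if_pos hhit]
      have hy0 : (0 : ℝ) < (1 / 2) ^ i := by positivity
      have hmin : min (f e.1 / (e.1 : ℝ)) (f e.2 / (e.2 : ℝ))
          ≤ 2 * (f e.1 * f e.2) / (D e * (e.1.gcd e.2 : ℝ)) := by
        have hDg : D e * (e.1.gcd e.2 : ℝ) = (e.2 : ℝ) * f e.1 + e.1 * f e.2 :=
          div_mul_cancel₀ _ hgR.ne'
        rw [hDg, le_div_iff₀ (by positivity)]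
        set x := min (f e.1 / (e.1 : ℝ)) (f e.2 / (e.2 : ℝ)) with hx
        have h1 : x * e.1 ≤ f e.1 := (le_div_iff₀ hqR).1 (min_le_left _ _)
        have h2 : x * e.2 ≤ f e.2 := (le_div_iff₀ hrR).1 (min_le_right _ _)
        have := mul_le_mul_of_nonneg_right h1 hfr.le
        have := mul_le_mul_of_nonneg_right h2 hfq.le
        linarith
      refine (mul_le_mul_of_nonneg_left hmin hgR.le).trans ?_
      rw [show (e.1.gcd e.2 : ℝ) * (2 * (f e.1 * f e.2) / (D e * (e.1.gcd e.2 : ℝ)))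
        = 2 / D e * (f e.1 * f e.2) by field_simp]
      refine mul_le_mul_of_nonneg_right ?_ (by positivity)
      rw [div_le_div_iff₀ hD0 hy0]
      rw [pow_succ] at hi1
      linarith
    · show (e.2 : ℝ) * f e.1 + e.1 * f e.2 ≤ (1 / 2 : ℝ) ^ i * (e.1.gcd e.2 : ℝ)
      exact (div_le_iff₀ hgR).1 hi2
    · rw [one_mul, one_mul]
      intro h
      have h1 := congrArg (· * e.1.gcd e.2) h
      simp only [Nat.div_mul_cancel (Nat.gcd_dvd_left _ _),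
        Nat.div_mul_cancel (Nat.gcd_dvd_right _ _)] at h1
      omega
    · show e.2 / e.1.gcd e.2 ≤ Tn
      have h1 : ((e.2 / e.1.gcd e.2 : ℕ) : ℝ) * f e.1 ≤ D e := by
        rw [hD, le_div_iff₀ hgR, mul_right_comm,
          ← Nat.cast_mul, Nat.div_mul_cancel (Nat.gcd_dvd_right _ _)]
        exact le_add_of_nonneg_right (by positivity)
      have h2 : ((e.2 / e.1.gcd e.2 : ℕ) : ℝ) ≤ 1 / f e.1 := by
        rw [le_div_iff₀ hfq]; linarith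
      exact_mod_cast h2.trans (hqT.trans (Nat.le_ceil T))
    · show e.1 / e.1.gcd e.2 ≤ Tn
      have h1 : ((e.1 / e.1.gcd e.2 : ℕ) : ℝ) * f e.2 ≤ D e := by
        rw [hD, le_div_iff₀ hgR, mul_right_comm,
          ← Nat.cast_mul, Nat.div_mul_cancel (Nat.gcd_dvd_left _ _)]
        exact le_add_of_nonneg_left (by positivity)
      have h2 : ((e.1 / e.1.gcd e.2 : ℕ) : ℝ) ≤ 1 / f e.2 := by
        rw [le_div_iff₀ hfr]; linarith
      exact_mod_cast h2.trans (hrT.trans (Nat.le_ceil T))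
    · have h1 := (hhit.mono ((min_le_right _ _).trans hi2)).neg
      show Hit γ ((1 / 2 : ℝ) ^ i) _
      convert h1 using 1
      obtain ⟨r', hr'e⟩ := Nat.gcd_dvd_right e.1 e.2
      obtain ⟨q', hq'e⟩ := Nat.gcd_dvd_left e.1 e.2
      have e1 : e.1 / e.1.gcd e.2 = q' := Nat.div_eq_of_eq_mul_right hg hq'e
      have e2 : e.2 / e.1.gcd e.2 = r' := Nat.div_eq_of_eq_mul_right hg hr'e
      have c1 : (e.1 : ℝ) = (e.1.gcd e.2 : ℝ) * (q' : ℝ) := by exact_mod_cast hq'e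
      have c2 : (e.2 : ℝ) = (e.1.gcd e.2 : ℝ) * (r' : ℝ) := by exact_mod_cast hr'e
      simp only [one_mul, e1, e2]
      push_cast
      rw [c1, c2, ← mul_sub, mul_div_cancel_left₀ _ hgR.ne']
      ring
  choose! idx hi1 hi2 hiT hiA using hex
  have hSsq : 0 ≤ S := zero_le_one.trans hS
  have hpow : ((∑ q ∈ F, mu f q) * ∑ q ∈ F, mu f q) ^ (1 / 2 + ε) = S ^ (1 + 2 * ε) := by
    simp only [hmu, ← hSdef]
    rw [← sq, ← Real.rpow_natCast, ← Real.rpow_mul hSsq]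
    congr 1
    push_cast; ring
  have hclass : ∀ i ∈ E.image idx, ∑ e ∈ E.filter (fun e => idx e = i),
      rho e.1 * rho e.2 * T2 γ f e.1 e.2 ≤ 4 * (K * CR ^ σ * L ^ σ * S ^ (1 + σ)) * r ^ i := by
    intro i _
    set y : ℝ := (1 / 2) ^ i with hy
    have hy0 : 0 < y := by positivity
    have hy1 : y ≤ 1 := pow_le_one₀ (by norm_num) (by norm_num)
    have hb := hscale y Tn hy0 hy1 hTn1 f F fun q hq => ⟨(hF q hq).1, (hF q hq).2.1.le⟩
    rw [hpow] at hb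
    have h1 : ∑ e ∈ E.filter (fun e => idx e = i), rho e.1 * rho e.2 * T2 γ f e.1 e.2
        ≤ 4 / y * Lsum (scalePar γ y 1 1 Tn) 1 1 f f F F := by
      rw [Lsum, mul_sum]
      refine le_trans (sum_le_sum fun e he => ?_) (sum_le_sum_of_subset_of_nonneg
        (fun e he => ?_) fun e he _ => ?_)
      · obtain ⟨heE, hei⟩ := Finset.mem_filter.1 he
        have := hiT e heE
        rw [hei] at this
        refine le_trans (mul_le_mul_of_nonneg_left this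
          (mul_nonneg (rho_nonneg _) (rho_nonneg _))) (le_of_eq ?_)
        rw [hmu, hmu]; ring
      · obtain ⟨heE, hei⟩ := Finset.mem_filter.1 he
        have := hiA e heE
        rw [hei] at this
        exact Finset.mem_filter.2 ⟨(Finset.mem_filter.1 heE).1, this⟩
      · obtain ⟨hq, hr'⟩ := Finset.mem_product.1 (Finset.mem_filter.1 he).1
        exact mul_nonneg (div_nonneg (by norm_num) hy0.le)
          (mul_nonneg (mu_nonneg (hF _ hq).2.1.le) (mu_nonneg (hF _ hr').2.1.le))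
    refine h1.trans ((mul_le_mul_of_nonneg_left hb (div_nonneg (by norm_num) hy0.le)).trans ?_)
    have hX : R Tn ^ (4 * ε / (κ / 16)) ≤ CR ^ σ * L ^ σ := by
      calc R Tn ^ (4 * ε / (κ / 16)) ≤ (CR * L ^ 2) ^ (4 * ε / (κ / 16)) :=
            Real.rpow_le_rpow (zero_le_one.trans (hR Tn hTn1)) (hRΛ T hT) hζ0
        _ = CR ^ (4 * ε / (κ / 16)) * L ^ (((2 : ℕ) : ℝ) * (4 * ε / (κ / 16))) := by
            rw [Real.mul_rpow (by linarith) (sq_nonneg L), ← Real.rpow_natCast L 2,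
              ← Real.rpow_mul (by linarith)]
        _ ≤ CR ^ σ * L ^ σ := by
            refine mul_le_mul (Real.rpow_le_rpow_of_exponent_le hCR (by linarith))
              (Real.rpow_le_rpow_of_exponent_le hL1 (by push_cast; linarith))
              (Real.rpow_nonneg (by linarith) _) (Real.rpow_nonneg (by linarith) _)
    have hS2 : S ^ (1 + 2 * ε) ≤ S ^ (1 + σ) :=
      Real.rpow_le_rpow_of_exponent_le hS (by linarith)
    have hyr : y ^ (1 + 2 * ε) = y * r ^ i := by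
      rw [Real.rpow_add hy0, Real.rpow_one, hy, hr, Real.rpow_pow_comm (by norm_num)]
    rw [hyr]
    calc 4 / y * (K * R Tn ^ (4 * ε / (κ / 16)) * (y * r ^ i) * S ^ (1 + 2 * ε))
        = 4 * (K * R Tn ^ (4 * ε / (κ / 16)) * S ^ (1 + 2 * ε)) * r ^ i := by
          field_simp
      _ ≤ 4 * (K * (CR ^ σ * L ^ σ) * S ^ (1 + σ)) * r ^ i := by gcongr
      _ = _ := by ring
  rw [hfirst, ← sum_fiberwise_of_maps_to (g := idx) (fun e he => Finset.mem_image_of_mem idx he)]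
  refine (sum_le_sum hclass).trans ?_
  rw [← mul_sum]
  refine (mul_le_mul_of_nonneg_left ((summable_geometric_of_lt_one hr0 hr1).sum_le_tsum _
    fun i _ => by positivity) (by positivity)).trans (le_of_eq ?_)
  rw [tsum_geometric_of_lt_one hr0 hr1]
  ring

end

end Vale.Agent.P028.LogExtra
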