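import Vale.Agent.P028.LogExtra.PairGen
import Vale.Agent.P028.LogExtra.OneVar

/-!
The pair bound with a doubly logarithmic loss, from the sharp terminal bound.
-/

namespace Vale.Agent.P028.LogExtra

open Finset Vale.Agent.P028.ErdosVaaler

noncomputable section

/-- Small multipliers are polynomial in the inverse scale. -/
lemma small_mult_le {y W N ε : ℝ} (hy : 0 < y) (hy2 : y ≤ 1 / 2) (hε : 0 < ε) (hW : 1 ≤ W)
    (hWy : W ^ 16 * y ≤ 1) (hN : N ≤ 2 * W ^ (2 / ε)) :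
    N * y ^ (⌈2 / ε⌉₊ + 1) ≤ 1 := by
  have h1 : W * y ≤ 1 := le_trans (mul_le_mul_of_nonneg_right
    (le_self_pow₀ hW (by norm_num)) hy.le) hWy
  have h2 : W ^ (2 / ε) ≤ W ^ ⌈2 / ε⌉₊ := by
    rw [← Real.rpow_natCast W ⌈2 / ε⌉₊]
    exact Real.rpow_le_rpow_of_exponent_le hW (Nat.le_ceil _)
  calc N * y ^ (⌈2 / ε⌉₊ + 1) ≤ 2 * W ^ ⌈2 / ε⌉₊ * y ^ (⌈2 / ε⌉₊ + 1) := by
        refine mul_le_mul_of_nonneg_right (hN.trans ?_) (by positivity)
        linarith
    _ = 2 * y * (W * y) ^ ⌈2 / ε⌉₊ := by rw [mul_pow, pow_succ]; ring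
    _ ≤ 2 * y * 1 := mul_le_mul_of_nonneg_left
        (pow_le_one₀ (by positivity) h1) (by positivity)
    _ ≤ 1 := by linarith

/-- A square of a logarithm against a small negative power. -/
lemma log_sq_le {y δ : ℝ} (hy : 0 < y) (hy1 : y ≤ 1) (hδ : 0 < δ) :
    (1 + Real.log (1 / y)) ^ 2 ≤ (1 + δ⁻¹) ^ 2 * y ^ (-(δ + δ)) := by
  have h1 : 1 ≤ 1 / y := by rw [one_le_div hy]; exact hy1
  have h2 := Real.log_le_rpow_div (zero_le_one.trans h1) hδ
  have h3 : 1 ≤ (1 / y) ^ δ := Real.one_le_rpow h1 hδ.le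
  have h4 : 1 + Real.log (1 / y) ≤ (1 + δ⁻¹) * (1 / y) ^ δ := by
    generalize (1 / y) ^ δ = X at h2 h3 ⊢
    generalize Real.log (1 / y) = L at h2 ⊢
    have h5 : X / δ = δ⁻¹ * X := by rw [div_eq_mul_inv, mul_comm]
    linarith
  refine (pow_le_pow_left₀ (by linarith [Real.log_nonneg h1]) h4 2).trans (le_of_eq ?_)
  rw [mul_pow, one_div, Real.inv_rpow hy.le, ← Real.rpow_neg hy.le, sq (y ^ (-δ)),
    ← Real.rpow_add hy, neg_add]

/-- The sharp terminal bound, in the form used by the induction. -/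
def SharpTerminal (γ : ℝ) : Prop :=
  ∀ (M : ℕ) (ε : ℝ), 0 < ε → ∃ K : ℝ, 0 ≤ K ∧
    ∀ (π : Par) (Pr : Finset ℕ) (k : ℕ → ℕ) (f h : ℕ → ℝ) (P Q : ℕ) (E : Finset (ℕ × ℕ))
      (V U : Finset ℕ),
      π.γ = γ → 0 < π.y → π.y ≤ 1 → 1 ≤ π.W → (π.W : ℝ) ^ 16 * π.y ≤ 1 → 1 ≤ π.T → 0 ≤ π.θ →
      2 * π.θ ≤ 1 / 2 - ε → llog π.T * (1 + Real.log (1 / π.y)) ^ 10 ≤ π.Lam →
      0 < P → 0 < Q → (P : ℝ) * π.y ^ M ≤ 1 → (Q : ℝ) * π.y ^ M ≤ 1 →
      (∀ p ∈ Pr, p.Prime) → (∀ e ∈ E, TPair π Pr k f h e) → (∀ e ∈ E, Adm π P Q f h e) →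
      (∀ e ∈ E, e.1 ∈ V) → (∀ e ∈ E, e.2 ∈ U) → (∀ v ∈ V, 0 ≤ f v) → (∀ w ∈ U, 0 ≤ h w) →
        ∑ e ∈ E, mu f e.1 * mu h e.2
          ≤ K * (Phi π P Q * π.y ^ (1 - 2 * ε)
              * ((∑ v ∈ V, mu f v) * ∑ w ∈ U, mu h w) ^ (1 / 2 + ε))

/-- For shifts of finite irrationality exponent the weighted overlaps lose only a small power
of the double logarithm. -/
theorem pairBound_llog_of_terminal {γ c : ℝ} {w : ℕ} (hdio : Dio γ c w)
    (hsharp : SharpTerminal γ) : PairBound γ llog := by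
  obtain ⟨hc, hw, -⟩ := id hdio
  have hw0 : (0 : ℝ) < (w : ℝ) := Nat.cast_pos.2 hw
  have hw1 : (1 : ℝ) ≤ (w : ℝ) := Nat.one_le_cast.2 hw
  have hκw : (32 * (w : ℝ))⁻¹ ≤ (8 * (w : ℝ))⁻¹ := inv_anti₀ (by positivity) (by linarith)
  refine pairBound_of_scaleTerm hdio (κ := (32 * (w : ℝ))⁻¹) (by positivity) hκw
    (R := fun T => llog T) (fun T hT => one_le_llog (Nat.one_le_cast.2 hT))
    (fun T hT => one_le_llog (by linarith)) (CR := 2) (by norm_num) (fun T hT => ?_)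
    fun ε hε hε' => ?_
  · have h1 : (1 : ℝ) ≤ (⌈T⌉₊ : ℝ) := le_trans (by linarith) (Nat.le_ceil T)
    have h2 : (⌈T⌉₊ : ℝ) ≤ 2 * T := by
      linarith [Nat.ceil_lt_add_one (show (0 : ℝ) ≤ T by linarith)]
    have h3 : Real.log ⌈T⌉₊ ≤ Real.log 2 + Real.log T := by
      rw [← Real.log_mul (by norm_num) (by linarith)]
      exact Real.log_le_log (by linarith) h2
    have h4 : Real.log 2 ≤ 1 := by linarith [Real.log_two_lt_d9]
    have h5 := Real.log_nonneg (show (1 : ℝ) ≤ T by linarith)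
    have h6 : Real.log (1 + Real.log (⌈T⌉₊ : ℝ)) ≤ Real.log 2 + Real.log (1 + Real.log T) := by
      rw [← Real.log_mul (by norm_num) (by linarith)]
      exact Real.log_le_log (by linarith [Real.log_nonneg h1]) (by linarith)
    have h7 : 1 ≤ llog T := one_le_llog (by linarith)
    calc llog (⌈T⌉₊ : ℝ) ≤ 1 + (1 + Real.log (1 + Real.log T)) := by
          unfold llog; linarith
      _ = 1 + llog T := rfl
      _ ≤ 2 * llog T := by linarith
      _ ≤ 2 * llog T ^ 2 := by linarith [le_self_pow₀ h7 (two_ne_zero)]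
  · obtain ⟨K, hK, hsharp⟩ := hsharp (⌈2 / ε⌉₊ + 1) ε hε
    set κ : ℝ := (32 * (w : ℝ))⁻¹ with hκ
    have hκ0 : 0 < κ := by positivity
    have hκ32 : κ ≤ 1 / 32 := by
      rw [hκ, one_div]
      exact inv_anti₀ (by norm_num) (by linarith)
    set K' : ℝ := max 1 (K / 4) with hK'
    have hK'1 : 1 ≤ K' := le_max_left _ _
    refine ⟨K' * (1 + (κ / 32)⁻¹) ^ 2, (1 / 2 : ℝ) ^ 32, by positivity, by positivity,
      fun y T W hy hy0 hy1 hT hWu hWle => ?_⟩
    have hy2 : y ≤ 1 / 2 := hy0.trans (pow_le_of_le_one (by norm_num) (by norm_num) (by norm_num))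
    have hu : 1 ≤ y ^ (-κ) := Real.one_le_rpow_of_pos_of_le_one_of_nonpos hy hy1 (by linarith)
    have hWR : (1 : ℝ) ≤ (W : ℝ) := hu.trans hWu
    have hW16 : (W : ℝ) ^ 16 * y ≤ 1 := by
      have h1 : (y ^ (-κ)) ^ 16 * y ≤ y ^ (1 / 2 : ℝ) := by
        calc (y ^ (-κ)) ^ 16 * y = (y ^ (-κ)) ^ 16 * y ^ (1 : ℝ) := by rw [Real.rpow_one]
          _ = y ^ (-κ * ((16 : ℕ) : ℝ) + 1) := by
              rw [← Real.rpow_natCast (y ^ (-κ)) 16, ← Real.rpow_mul hy.le, ← Real.rpow_add hy]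
          _ ≤ _ := Real.rpow_le_rpow_of_exponent_ge hy hy1 (by push_cast; linarith)
      have h2 : y ^ (1 / 2 : ℝ) ≤ (1 / 2 : ℝ) ^ 16 := by
        refine (Real.rpow_le_rpow hy.le hy0 (by norm_num)).trans (le_of_eq ?_)
        rw [← Real.rpow_natCast (1 / 2 : ℝ) 32, ← Real.rpow_mul (by norm_num),
          ← Real.rpow_natCast (1 / 2 : ℝ) 16]
        norm_num
      calc (W : ℝ) ^ 16 * y ≤ (2 * y ^ (-κ)) ^ 16 * y :=
            mul_le_mul_of_nonneg_right (pow_le_pow_left₀ (by linarith) hWle 16) hy.le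
        _ = 2 ^ 16 * ((y ^ (-κ)) ^ 16 * y) := by ring
        _ ≤ 2 ^ 16 * (1 / 2 : ℝ) ^ 16 :=
            mul_le_mul_of_nonneg_left (h1.trans h2) (by positivity)
        _ = 1 := by norm_num
    have hy10 : 1 ≤ 1 + Real.log (1 / y) :=
      le_add_of_nonneg_right (Real.log_nonneg (by rw [one_le_div hy]; exact hy1))
    have hl1 : 1 ≤ llog (T : ℝ) := one_le_llog (Nat.one_le_cast.2 hT)
    set base : ℝ := llog (T : ℝ) * (1 + Real.log (1 / y)) ^ 10 with hbase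
    have hb1 : 1 ≤ base := one_le_mul_of_one_le_of_one_le hl1 (one_le_pow₀ hy10)
    refine ⟨K' ^ 8 * base, one_le_mul_of_one_le_of_one_le (one_le_pow₀ hK'1) hb1, ?_, ?_⟩
    · have e1 : (K' ^ 8 * base) ^ (1 / 8 : ℝ) = K' * base ^ (1 / 8 : ℝ) := by
        rw [Real.mul_rpow (by positivity) (by linarith), ← Real.rpow_natCast K' 8,
          ← Real.rpow_mul (by linarith)]
        norm_num
      have e2 : base ^ (1 / 8 : ℝ) ≤ llog (T : ℝ) * (1 + Real.log (1 / y)) ^ 2 := by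
        rw [hbase, Real.mul_rpow (by linarith) (by positivity),
          ← Real.rpow_natCast (1 + Real.log (1 / y)) 10, ← Real.rpow_mul (by linarith),
          ← Real.rpow_two]
        refine mul_le_mul ?_ (Real.rpow_le_rpow_of_exponent_le hy10 (by norm_num))
          (by positivity) (by linarith)
        calc llog (T : ℝ) ^ (1 / 8 : ℝ) ≤ llog (T : ℝ) ^ (1 : ℝ) :=
              Real.rpow_le_rpow_of_exponent_le hl1 (by norm_num)
          _ = _ := Real.rpow_one _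
      have e3 := log_sq_le hy hy1 (show 0 < κ / 32 by linarith)
      rw [show κ / 32 + κ / 32 = κ / 16 by ring] at e3
      calc (K' ^ 8 * base) ^ (1 / 8 : ℝ) ≤ K' * (llog (T : ℝ) * (1 + Real.log (1 / y)) ^ 2) := by
            rw [e1]; exact mul_le_mul_of_nonneg_left e2 (by linarith)
        _ ≤ K' * (llog (T : ℝ) * ((1 + (κ / 32)⁻¹) ^ 2 * y ^ (-(κ / 16)))) := by gcongr
        _ = _ := by ring
    · intro N₀ hN₀ Pr k f h P Q E V U hPr hP hQ hPN hQN hE hA hV hU hf hh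
      have hM := small_mult_le hy hy2 hε hWR hW16 hN₀
      have hyM : (0 : ℝ) ≤ y ^ (⌈2 / ε⌉₊ + 1) := by positivity
      have hs := hsharp (scalePar γ y base W T) Pr k f h P Q E V U rfl hy hy1
        (Nat.one_le_cast.1 hWR) hW16 hT (by norm_num [scalePar])
        (by simp only [scalePar]; linarith) le_rfl hP hQ
        ((mul_le_mul_of_nonneg_right (Nat.cast_le.2 hPN) hyM).trans hM)
        ((mul_le_mul_of_nonneg_right (Nat.cast_le.2 hQN) hyM).trans hM) hPr hE hA hV hU hf hh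
      have hphi : Phi (scalePar γ y (K' ^ 8 * base) W T) P Q
          = K' * Phi (scalePar γ y base W T) P Q := by
        show ((K' ^ 8 * base) / (Z (scalePar γ y base W T) P Q : ℝ)) ^ (1 / 8 : ℝ) = _
        rw [mul_div_assoc, Real.mul_rpow (by positivity) (div_nonneg (by linarith)
          (Nat.cast_nonneg _)), ← Real.rpow_natCast K' 8, ← Real.rpow_mul (by linarith)]
        norm_num
        exact Or.inl rfl
      refine hs.trans ?_
      rw [hphi]
      show K * (Phi (scalePar γ y base W T) P Q * y ^ (1 - 2 * ε) * _)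
        ≤ 4 * (K' * Phi (scalePar γ y base W T) P Q * y ^ (1 - 2 * ε) * _)
      have h0 : 0 ≤ Phi (scalePar γ y base W T) P Q * y ^ (1 - 2 * ε)
          * ((∑ v ∈ V, mu f v) * ∑ w ∈ U, mu h w) ^ (1 / 2 + ε) :=
        mul_nonneg (mul_nonneg (Real.rpow_nonneg (div_nonneg (zero_le_one.trans hb1)
          (Nat.cast_nonneg _)) _) (Real.rpow_nonneg hy.le _)) (Real.rpow_nonneg (mul_nonneg
            (sum_nonneg fun v hv => mu_nonneg (hf v hv))
            (sum_nonneg fun v hv => mu_nonneg (hh v hv))) _)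
      have hK4 : K ≤ 4 * K' := by linarith [le_max_right 1 (K / 4)]
      have := mul_le_mul_of_nonneg_right hK4 h0
      linarith

end

end Vale.Agent.P028.LogExtra
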