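import Vale.Agent.P028.LogExtra.Basic

/-!
The potential of the prime induction: a power of the multipliers plus a weighted count of the
smooth multiples of the multipliers which spoil the spacing of the hits.
-/

namespace Vale.Agent.P028.LogExtra

open Finset

noncomputable section

open scoped Classical

/-- The multipliers `(α n, β n')` are small and spoil the spacing `π.W`. -/
def Major (π : Par) (N₀ α β : ℕ) : Prop :=
  α ≤ N₀ ∧ β ≤ N₀ ∧ ¬ Good π α β π.W

/-- The weight of one smooth multiple. -/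
def smWt (C b : ℝ) (n : ℕ) : ℝ := C ^ n.primeFactors.card * (n : ℝ) ^ (b - 1)

/-- The integers up to `N₀` built from the primes of `S`. -/
def smooth (N₀ : ℕ) (S : Finset ℕ) : Finset ℕ :=
  (Icc 1 N₀).filter (fun n => n.primeFactors ⊆ S)

/-- The weighted count of major multiples. -/
def Wsum (π : Par) (N₀ : ℕ) (C b : ℝ) (S : Finset ℕ) (α β : ℕ) : ℝ :=
  ∑ n ∈ smooth N₀ S, ∑ n' ∈ smooth N₀ S,
    if Major π N₀ (α * n) (β * n') then smWt C b n * smWt C b n' else 0

/-- The potential. -/
def Pot (π : Par) (N₀ : ℕ) (Y a C b : ℝ) (S : Finset ℕ) (α β : ℕ) : ℝ :=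
  Y * ((α * β : ℕ) : ℝ) ^ a + Wsum π N₀ C b S α β

/-- The sum over `d ≤ D` of the children obtained by raising one multiplier at the prime `p`. -/
def childSum (π : Par) (N₀ : ℕ) (C b : ℝ) (S : Finset ℕ) (p D α β : ℕ) : ℝ :=
  ∑ d ∈ Icc 1 D, ((p : ℝ) ^ d) ^ (b - 1) *
    (Wsum π N₀ C b S (α * p ^ d) β + Wsum π N₀ C b S α (β * p ^ d))

end

end Vale.Agent.P028.LogExtra
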