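import Vale.Agent.P028.LogExtra.Terminal

/-!
Pruning a weighted bipartite graph to large degrees, and the degree of a vertex in a terminal
graph seen through the totient measure.
-/

namespace Vale.Agent.P028.LogExtra

open Finset Vale.Agent.P028.ErdosVaaler

noncomputable section

open scoped Classical

/-- A graph of mass `L` has a subgraph with half the mass and all degrees at least `L/4A`,
`L/4B`. -/
lemma exists_pruned {x y : ℕ → ℝ} {E : Finset (ℕ × ℕ)} {V U : Finset ℕ}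
    (hV : ∀ e ∈ E, e.1 ∈ V) (hU : ∀ e ∈ E, e.2 ∈ U) (hx : ∀ v ∈ V, 0 ≤ x v)
    (hy : ∀ w ∈ U, 0 ≤ y w) (hA : 0 < ∑ v ∈ V, x v) (hB : 0 < ∑ w ∈ U, y w)
    (hL : 0 < ∑ e ∈ E, x e.1 * y e.2) :
    ∃ S ⊆ E, S.Nonempty ∧ (∑ e ∈ E, x e.1 * y e.2) / 2 ≤ ∑ e ∈ S, x e.1 * y e.2 ∧
      (∀ e₀ ∈ S, (∑ e ∈ E, x e.1 * y e.2) / (4 * ∑ v ∈ V, x v)
        ≤ ∑ e ∈ S.filter (fun e => e.1 = e₀.1), y e.2) ∧
      (∀ e₀ ∈ S, (∑ e ∈ E, x e.1 * y e.2) / (4 * ∑ w ∈ U, y w)
        ≤ ∑ e ∈ S.filter (fun e => e.2 = e₀.2), x e.1) := by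
  set L := ∑ e ∈ E, x e.1 * y e.2 with hLdef
  set A := ∑ v ∈ V, x v with hAdef
  set B := ∑ w ∈ U, y w with hBdef
  set a := L / (4 * A) with ha
  set b := L / (4 * B) with hb
  have ha0 : 0 < a := div_pos hL (by positivity)
  have hb0 : 0 < b := div_pos hL (by positivity)
  set E₀ := E.filter (fun e => 0 < x e.1 * y e.2) with hE₀
  set Ph : Finset (ℕ × ℕ) → ℝ := fun S => ∑ e ∈ S, x e.1 * y e.2
    - a * ∑ v ∈ S.image Prod.fst, x v - b * ∑ w ∈ S.image Prod.snd, y w with hPh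
  obtain ⟨S, hS, hmax⟩ := exists_max_image E₀.powerset Ph
    ⟨E₀, mem_powerset.2 (Finset.Subset.refl _)⟩
  rw [mem_powerset] at hS
  have hSE : S ⊆ E := hS.trans (filter_subset _ _)
  have hxS : ∀ e ∈ S, 0 < x e.1 ∧ 0 < y e.2 := fun e he => by
    have h := (mem_filter.1 (hS he)).2
    exact ⟨pos_of_mul_pos_left h (hy _ (hU e (hSE he))),
      pos_of_mul_pos_right h (hx _ (hV e (hSE he)))⟩
  have hfull : L / 2 ≤ Ph E₀ := by
    have h0 : ∑ e ∈ E₀, x e.1 * y e.2 = L := by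
      rw [hLdef, hE₀]
      refine sum_subset (filter_subset _ _) fun e he hne => ?_
      refine le_antisymm (not_lt.1 fun h => hne (mem_filter.2 ⟨he, h⟩)) ?_
      exact mul_nonneg (hx _ (hV e he)) (hy _ (hU e he))
    have h1 : ∑ v ∈ E₀.image Prod.fst, x v ≤ A :=
      sum_le_sum_of_subset_of_nonneg (fun v hv => by
        obtain ⟨e, he, rfl⟩ := mem_image.1 hv
        exact hV e (mem_filter.1 he).1) fun v hv _ => hx v hv
    have h2 : ∑ w ∈ E₀.image Prod.snd, y w ≤ B :=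
      sum_le_sum_of_subset_of_nonneg (fun w hw => by
        obtain ⟨e, he, rfl⟩ := mem_image.1 hw
        exact hU e (mem_filter.1 he).1) fun w hw _ => hy w hw
    have eA : a * A = L / 4 := by rw [ha]; field_simp
    have eB : b * B = L / 4 := by rw [hb]; field_simp
    have h3 := mul_le_mul_of_nonneg_left h1 ha0.le
    have h4 := mul_le_mul_of_nonneg_left h2 hb0.le
    simp only [hPh]
    linarith
  have hPS : L / 2 ≤ Ph S := hfull.trans (hmax E₀ (mem_powerset.2 (Finset.Subset.refl _)))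
  have himA : 0 ≤ ∑ v ∈ S.image Prod.fst, x v := sum_nonneg fun v hv => by
    obtain ⟨e, he, rfl⟩ := mem_image.1 hv
    exact (hxS e he).1.le
  have himB : 0 ≤ ∑ w ∈ S.image Prod.snd, y w := sum_nonneg fun w hw => by
    obtain ⟨e, he, rfl⟩ := mem_image.1 hw
    exact (hxS e he).2.le
  have hSL : L / 2 ≤ ∑ e ∈ S, x e.1 * y e.2 := by
    simp only [hPh] at hPS
    nlinarith [mul_nonneg ha0.le himA, mul_nonneg hb0.le himB]
  refine ⟨S, hSE, ?_, hSL, ?_, ?_⟩
  · rcases S.eq_empty_or_nonempty with h | h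
    · rw [h, sum_empty] at hSL; linarith
    · exact h
  · intro e₀ he₀
    set v := e₀.1 with hv
    set S' := S.filter (fun e => ¬ e.1 = v) with hS'
    have h := hmax S' (mem_powerset.2 ((filter_subset _ _).trans hS))
    have h1 : ∑ u ∈ S'.image Prod.fst, x u ≤ ∑ u ∈ (S.image Prod.fst).erase v, x u := by
      refine sum_le_sum_of_subset_of_nonneg (fun u hu => ?_) fun u hu _ => ?_
      · obtain ⟨e, he, rfl⟩ := mem_image.1 hu
        exact mem_erase.2 ⟨(mem_filter.1 he).2, mem_image_of_mem _ (mem_filter.1 he).1⟩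
      · obtain ⟨e, he, rfl⟩ := mem_image.1 (mem_erase.1 hu).2
        exact (hxS e he).1.le
    rw [sum_erase_eq_sub (mem_image_of_mem _ he₀)] at h1
    have h2 : ∑ u ∈ S'.image Prod.snd, y u ≤ ∑ u ∈ S.image Prod.snd, y u :=
      sum_le_sum_of_subset_of_nonneg (image_subset_image (filter_subset _ _)) fun u hu _ => by
        obtain ⟨e, he, rfl⟩ := mem_image.1 hu
        exact (hxS e he).2.le
    have h3 : ∑ e ∈ S, x e.1 * y e.2 = x v * ∑ e ∈ S.filter (fun e => e.1 = v), y e.2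
        + ∑ e ∈ S', x e.1 * y e.2 := by
      rw [hS', ← sum_filter_add_sum_filter_not S (fun e => e.1 = v), mul_sum]
      refine congrArg₂ _ (sum_congr rfl fun e he => ?_) rfl
      rw [(mem_filter.1 he).2]
    have h4 := mul_le_mul_of_nonneg_left h1 ha0.le
    have h5 := mul_le_mul_of_nonneg_left h2 hb0.le
    simp only [hPh] at h
    refine le_of_mul_le_mul_left ?_ (hxS e₀ he₀).1
    rw [mul_sub] at h4
    linarith
  · intro e₀ he₀
    set w := e₀.2 with hw
    set S' := S.filter (fun e => ¬ e.2 = w) with hS'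
    have h := hmax S' (mem_powerset.2 ((filter_subset _ _).trans hS))
    have h1 : ∑ u ∈ S'.image Prod.snd, y u ≤ ∑ u ∈ (S.image Prod.snd).erase w, y u := by
      refine sum_le_sum_of_subset_of_nonneg (fun u hu => ?_) fun u hu _ => ?_
      · obtain ⟨e, he, rfl⟩ := mem_image.1 hu
        exact mem_erase.2 ⟨(mem_filter.1 he).2, mem_image_of_mem _ (mem_filter.1 he).1⟩
      · obtain ⟨e, he, rfl⟩ := mem_image.1 (mem_erase.1 hu).2
        exact (hxS e he).2.le
    rw [sum_erase_eq_sub (mem_image_of_mem _ he₀)] at h1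
    have h2 : ∑ u ∈ S'.image Prod.fst, x u ≤ ∑ u ∈ S.image Prod.fst, x u :=
      sum_le_sum_of_subset_of_nonneg (image_subset_image (filter_subset _ _)) fun u hu _ => by
        obtain ⟨e, he, rfl⟩ := mem_image.1 hu
        exact (hxS e he).1.le
    have h3 : ∑ e ∈ S, x e.1 * y e.2 = y w * ∑ e ∈ S.filter (fun e => e.2 = w), x e.1
        + ∑ e ∈ S', x e.1 * y e.2 := by
      rw [hS', ← sum_filter_add_sum_filter_not S (fun e => e.2 = w), mul_sum]
      refine congrArg₂ _ (sum_congr rfl fun e he => ?_) rfl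
      rw [(mem_filter.1 he).2, mul_comm]
    have h4 := mul_le_mul_of_nonneg_left h1 hb0.le
    have h5 := mul_le_mul_of_nonneg_left h2 ha0.le
    simp only [hPh] at h
    refine le_of_mul_le_mul_left ?_ (hxS e₀ he₀).2
    rw [mul_sub] at h4
    linarith

/-- The part of a vertex outside the modulus. -/
def own (N v : ℕ) : ℕ := v / v.gcd N

variable {π : Par} {Pr : Finset ℕ} {k : ℕ → ℕ} {f h : ℕ → ℝ}

lemma own_pos {N v : ℕ} (hv : 0 < v) : 0 < own N v :=
  Nat.div_pos (Nat.le_of_dvd hv (Nat.gcd_dvd_left _ _)) (Nat.gcd_pos_of_pos_left _ hv)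

/-- The weight of a neighbour through the totient measure. -/
lemma TPair.mu_le (hPr : ∀ p ∈ Pr, p.Prime) {e : ℕ × ℕ}
    (he : TPair π Pr k f h e) :
    mu h e.2 ≤ π.y / (own (Nk Pr k) e.1 : ℝ)
      * (((e.2.gcd (Nk Pr k)).totient : ℝ) / (Nk Pr k : ℝ)) := by
  set N := Nk Pr k with hN
  have hN0 : 0 < N := Nk_pos hPr
  have hw0 : 0 < e.2 := he.2.1
  have hd0 : 0 < e.2.gcd N := Nat.gcd_pos_of_pos_left _ hw0
  have hb := he.bound
  rw [he.cofactor' hPr, ← hN] at hb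
  have hr := rho_le (Nat.gcd_dvd_left e.2 N) hw0
  refine le_trans (mul_le_mul hr hb he.2.2.2.2.2.1 (by positivity)) (le_of_eq ?_)
  have e1 : ((N / e.2.gcd N : ℕ) : ℝ) * (e.2.gcd N : ℕ) = (N : ℝ) := by
    exact_mod_cast Nat.div_mul_cancel (Nat.gcd_dvd_right e.2 N)
  have hdR : (0 : ℝ) < (e.2.gcd N : ℕ) := Nat.cast_pos.2 hd0
  have hcR : (0 : ℝ) < ((N / e.2.gcd N : ℕ) : ℝ) := Nat.cast_pos.2
    (Nat.div_pos (Nat.le_of_dvd hN0 (Nat.gcd_dvd_right _ _)) hd0)
  have haR : (0 : ℝ) < (own N e.1 : ℕ) := Nat.cast_pos.2 (own_pos he.1)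
  rw [← e1]
  simp only [own] at haR ⊢
  push_cast
  field_simp

/-- The degree of a vertex, split by the own parts of its neighbours. -/
lemma deg_le (hy : 0 ≤ π.y) (hPr : ∀ p ∈ Pr, p.Prime) {F : Finset (ℕ × ℕ)} {v : ℕ}
    (hF : ∀ e ∈ F, TPair π Pr k f h e ∧ e.1 = v) {Bs : Finset ℕ}
    (hBs : ∀ e ∈ F, own (Nk Pr k) e.2 ∈ Bs) {G : ℕ → ℝ}
    (hG : ∀ b ∈ Bs, ∑ d ∈ (F.filter (fun e => own (Nk Pr k) e.2 = b)).image
        (fun e : ℕ × ℕ => e.2.gcd (Nk Pr k)), (d.totient : ℝ) / (Nk Pr k : ℝ) ≤ G b) :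
    ∑ e ∈ F, mu h e.2 ≤ π.y / (own (Nk Pr k) v : ℝ) * ∑ b ∈ Bs, G b := by
  set N := Nk Pr k with hN
  calc ∑ e ∈ F, mu h e.2
      ≤ ∑ e ∈ F, π.y / (own N v : ℝ) * (((e.2.gcd N).totient : ℝ) / (N : ℝ)) := by
        refine sum_le_sum fun e he => ?_
        obtain ⟨hT, hev⟩ := hF e he
        rw [← hev]
        exact hT.mu_le hPr
    _ = π.y / (own N v : ℝ) * ∑ b ∈ Bs, ∑ e ∈ F.filter (fun e => own N e.2 = b),
          ((e.2.gcd N).totient : ℝ) / (N : ℝ) := by
        rw [sum_fiberwise_of_maps_to hBs, ← mul_sum]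
    _ ≤ _ := by
        refine mul_le_mul_of_nonneg_left (sum_le_sum fun b hb => ?_)
          (div_nonneg hy (Nat.cast_nonneg _))
        refine le_trans (le_of_eq ?_) (hG b hb)
        rw [sum_image]
        intro e he e' he' hee
        obtain ⟨h1, h2⟩ := mem_filter.1 he
        obtain ⟨h1', h2'⟩ := mem_filter.1 he'
        refine Prod.ext ((hF e h1).2.trans (hF e' h1').2.symm) ?_
        simp only [own] at h2 h2'
        simp only at hee
        rw [← Nat.div_mul_cancel (Nat.gcd_dvd_left e.2 N), h2, hee, ← h2',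
          Nat.div_mul_cancel (Nat.gcd_dvd_left e'.2 N)]

lemma sum_totient_subset_le {N : ℕ} {F : Finset ℕ} (hF : F ⊆ N.divisors) :
    ∑ d ∈ F, (d.totient : ℝ) / N ≤ 1 := by
  refine le_trans (sum_le_sum_of_subset_of_nonneg hF fun _ _ _ => by positivity) ?_
  rw [← sum_div, ← Nat.cast_sum, Nat.sum_totient]
  exact div_self_le_one _

lemma Adm.swap {P Q : ℕ} {e : ℕ × ℕ} (he : Adm π P Q f h e) : Adm π Q P h f e.swap := by
  obtain ⟨h1, h2, h3, h4, hit⟩ := he
  simp only [Adm, Prod.fst_swap, Prod.snd_swap, Nat.gcd_comm e.2 e.1]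
  refine ⟨by linarith, Ne.symm h2, h4, h3, ?_⟩
  have := hit.neg
  rw [← Int.cast_neg, neg_sub] at this
  exact this

/-- Distinct positive integers have a large sum. -/
lemma card_mul_le_two_sum : ∀ s : Finset ℕ, (∀ b ∈ s, 1 ≤ b) →
    s.card * (s.card + 1) ≤ 2 * ∑ b ∈ s, b := by
  intro s
  induction s using Finset.induction_on_max with
  | empty => simp
  | insert a s hlt ih =>
    intro hpos
    have ha : a ∉ s := fun h => lt_irrefl a (hlt a h)
    have h1 := ih fun b hb => hpos b (mem_insert_of_mem hb)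
    have h2 : s.card ≤ a - 1 := by
      have hsub : s ⊆ Icc 1 (a - 1) := fun b hb =>
        mem_Icc.2 ⟨hpos b (mem_insert_of_mem hb), by have := hlt b hb; omega⟩
      simpa [Nat.card_Icc] using card_le_card hsub
    have := hpos a (mem_insert_self _ _)
    rw [card_insert_of_notMem ha, sum_insert ha]
    have h3 : s.card + 1 ≤ a := by omega
    nlinarith

end

end Vale.Agent.P028.LogExtra
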