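import Vale.Agent.P028.LogExtra.Kernel

/-!
The Selberg sieve applied to the majorant of the hits of multiples of one frequency.
-/

namespace Vale.Agent.P028.LogExtra

open Finset Vale.Agent.P028.ErdosVaaler ArithmeticFunction
open scoped ArithmeticFunction.Moebius ArithmeticFunction.zeta

noncomputable section

/-- The weight `∏ 1/(p-1)` of a set of primes. -/
def gp (S : Finset ℕ) : ℝ := ∏ p ∈ S, ((p : ℝ) - 1)⁻¹

/-- The sieve sum of a set of primes up to `z`. -/
def selG (Ps : Finset ℕ) (z : ℕ) : ℝ :=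
  ∑ l ∈ (∏ p ∈ Ps, p).divisors.filter (· ≤ z), gp l.primeFactors

lemma gp_pos {S : Finset ℕ} (hS : ∀ p ∈ S, p.Prime) : 0 < gp S :=
  prod_pos fun p hp => inv_pos.2 (by
    have : (2 : ℝ) ≤ p := by exact_mod_cast (hS p hp).two_le
    linarith)

lemma squarefree_prod_primes {Ps : Finset ℕ} (hPs : ∀ p ∈ Ps, p.Prime) :
    Squarefree (∏ p ∈ Ps, p) := by
  induction Ps using Finset.induction_on with
  | empty => simp
  | insert p S hp ih =>
    rw [prod_insert hp]
    have hS : ∀ q ∈ S, q.Prime := fun q hq => hPs q (mem_insert_of_mem hq)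
    have hpp : p.Prime := hPs p (mem_insert_self _ _)
    refine (Nat.squarefree_mul ?_).2 ⟨hpp.squarefree, ih hS⟩
    refine Nat.Coprime.prod_right fun q hq => (Nat.coprime_primes hpp (hS q hq)).2 ?_
    rintro rfl
    exact hp hq

/-- The density `1/d` as an arithmetic function. -/
def invFn : ArithmeticFunction ℝ := ⟨fun n => (n : ℝ)⁻¹, by simp⟩

lemma invFn_apply (n : ℕ) : invFn n = (n : ℝ)⁻¹ := rfl

lemma invFn_mult : invFn.IsMultiplicative :=
  ⟨by simp [invFn_apply], fun {m n} _ => by rw [invFn_apply, invFn_apply, invFn_apply,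
    Nat.cast_mul, mul_inv]⟩

lemma sum_divisors_moebius (n : ℕ) :
    ∑ d ∈ n.divisors, (μ d : ℝ) = if n = 1 then 1 else 0 := by
  have h : (μ * ζ : ArithmeticFunction ℤ) n = (1 : ArithmeticFunction ℤ) n := by
    rw [moebius_mul_coe_zeta]
  rw [coe_mul_zeta_apply, ArithmeticFunction.one_apply] at h
  rw [← Int.cast_sum, h]
  split <;> simp

/-- Möbius inversion between two divisors of a squarefree number. -/
lemma sum_moebius_between {P l m : ℕ} (hP : Squarefree P) (hm : m ∣ P) :
    ∑ d ∈ P.divisors, (if l ∣ d ∧ d ∣ m then (μ d : ℝ) else 0)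
      = if l = m then (μ l : ℝ) else 0 := by
  have hP0 : P ≠ 0 := hP.ne_zero
  have hm0 : m ≠ 0 := ne_zero_of_dvd_ne_zero hP0 hm
  by_cases hlm : l ∣ m
  · have hl0 : l ≠ 0 := ne_zero_of_dvd_ne_zero hm0 hlm
    rw [← sum_filter]
    have hset : P.divisors.filter (fun d => l ∣ d ∧ d ∣ m) = (m / l).divisors.image (l * ·) := by
      ext d
      simp only [mem_filter, Nat.mem_divisors, mem_image]
      constructor
      · rintro ⟨-, ⟨j, rfl⟩, hdm⟩
        exact ⟨j, ⟨Nat.dvd_div_of_mul_dvd hdm, (Nat.div_pos (Nat.le_of_dvd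
          (Nat.pos_of_ne_zero hm0) hlm) (Nat.pos_of_ne_zero hl0)).ne'⟩, rfl⟩
      · rintro ⟨j, ⟨hj, -⟩, rfl⟩
        have h1 : l * j ∣ m := Nat.mul_dvd_of_dvd_div hlm hj
        exact ⟨⟨h1.trans hm, hP0⟩, dvd_mul_right _ _, h1⟩
    rw [hset, sum_image fun x _ y _ h => Nat.eq_of_mul_eq_mul_left (Nat.pos_of_ne_zero hl0) h]
    have hsq : Squarefree m := Squarefree.squarefree_of_dvd hm hP
    have key : ∀ j ∈ (m / l).divisors, (μ (l * j) : ℝ) = (μ l : ℝ) * (μ j : ℝ) := by
      intro j hj
      have hco : l.Coprime j := by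
        refine Nat.coprime_of_squarefree_mul (Squarefree.squarefree_of_dvd ?_ hsq)
        exact Nat.mul_dvd_of_dvd_div hlm (Nat.mem_divisors.1 hj).1
      rw [isMultiplicative_moebius.map_mul_of_coprime hco, Int.cast_mul]
    rw [sum_congr rfl key, ← mul_sum, sum_divisors_moebius]
    by_cases he : l = m
    · rw [if_pos he, if_pos (by rw [he, Nat.div_self (Nat.pos_of_ne_zero hm0)]), mul_one]
    · rw [if_neg he, if_neg (fun h => he ?_), mul_zero]
      have := Nat.div_mul_cancel hlm
      rw [h, one_mul] at this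
      exact this
  · rw [if_neg (fun e : l = m => hlm (e ▸ dvd_rfl))]
    exact sum_eq_zero fun d _ => if_neg fun h => hlm (h.1.trans h.2)

variable {Ps : Finset ℕ} {z : ℕ}

lemma one_le_selG (hPs : ∀ p ∈ Ps, p.Prime) (hz : 1 ≤ z) : 1 ≤ selG Ps z := by
  refine le_trans (le_of_eq ?_) (single_le_sum (f := fun l : ℕ => gp l.primeFactors)
    (fun l _ => (gp_pos fun p hp => Nat.prime_of_mem_primeFactors hp).le)
    (show 1 ∈ _ from mem_filter.2 ⟨Nat.one_mem_divisors.2
      (squarefree_prod_primes hPs).ne_zero, hz⟩))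
  simp [gp]

/-- The sifted sum of the majorant along the multiples of `k γ`. -/
theorem sieved_kern_le {γ c : ℝ} {w : ℕ} (hdio : Dio γ c w) (hPs : ∀ p ∈ Ps, p.Prime)
    (hz : 1 ≤ z) {H k : ℕ} (hH : 1 ≤ H) (hk : 0 < k) (t : ℝ) (M : ℕ) :
    ∑ m ∈ (Icc 1 M).filter (Nat.Coprime (∏ p ∈ Ps, p)), kern H ((m : ℝ) * (k : ℝ) * γ - t)
      ≤ 4 / (H : ℝ) * M / selG Ps z
        + (z : ℝ) ^ 4 * (4 + 2 * ((H : ℝ) * k * (z : ℝ) ^ 2) ^ w / c) := by
  classical
  set P := ∏ p ∈ Ps, p with hP
  have hPsq : Squarefree P := squarefree_prod_primes hPs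
  set s : BoundingSieve :=
    { support := Icc 1 M
      prodPrimes := P
      prodPrimes_squarefree := hPsq
      weights := fun m => kern H ((m : ℝ) * (k : ℝ) * γ - t)
      weights_nonneg := fun m => kern_nonneg _ _
      totalMass := 4 / (H : ℝ) * M
      nu := invFn
      nu_mult := invFn_mult
      nu_pos_of_prime := fun p hp _ => inv_pos.2 (Nat.cast_pos.2 hp.pos)
      nu_lt_one_of_prime := fun p hp _ => inv_lt_one_of_one_lt₀ (Nat.one_lt_cast.2 hp.one_lt) }
    with hs
  have hterm : ∀ l ∈ P.divisors, s.selbergTerms l = gp l.primeFactors := by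
    intro l hl
    have hlP := (Nat.mem_divisors.1 hl).1
    have hlsq : Squarefree l := Squarefree.squarefree_of_dvd hlP hPsq
    rw [BoundingSieve.selbergTerms_apply]
    simp only [hs, invFn_apply]
    conv_lhs => arg 1; rw [← Nat.prod_primeFactors_of_squarefree hlsq]
    rw [Nat.cast_prod, ← Finset.prod_inv_distrib, ← prod_mul_distrib, gp]
    refine prod_congr rfl fun p hp => ?_
    have h2 : (2 : ℝ) ≤ p := by exact_mod_cast (Nat.prime_of_mem_primeFactors hp).two_le
    have h0 : (p : ℝ) ≠ 0 := by linarith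
    rw [← mul_inv, mul_sub, mul_one, mul_inv_cancel₀ h0]
  set G := selG Ps z with hG
  have hG1 : 1 ≤ G := one_le_selG hPs hz
  have hG0 : 0 < G := zero_lt_one.trans_le hG1
  set g : ℕ → ℝ := fun m => if m ≤ z then gp m.primeFactors else 0 with hg
  have hg0 : ∀ m, 0 ≤ g m := fun m => by
    simp only [hg]
    split <;> [exact (gp_pos fun p hp => Nat.prime_of_mem_primeFactors hp).le; exact le_rfl]
  have hGsum : ∑ m ∈ P.divisors, g m = G := by rw [hG, selG, sum_filter]
  set u : ℕ → ℝ := fun d => ∑ m ∈ P.divisors, if d ∣ m then g m else 0 with hu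
  set lam : ℕ → ℝ := fun d => (μ d : ℝ) * (d : ℝ) * u d / G with hlam
  have hu_le : ∀ d, |u d| ≤ G := by
    intro d
    rw [abs_of_nonneg (sum_nonneg fun m _ => by split <;> [exact hg0 m; exact le_rfl]), ← hGsum]
    exact sum_le_sum fun m _ => by split <;> [exact le_rfl; exact hg0 m]
  have hu_zero : ∀ d, z < d → u d = 0 := by
    intro d hd
    refine sum_eq_zero fun m hm => ?_
    split
    · rename_i hdm
      have := Nat.le_of_dvd (Nat.pos_of_mem_divisors hm) hdm
      simp only [hg]
      rw [if_neg (by omega)]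
    · rfl
  have hlam1 : lam 1 = 1 := by
    simp only [hlam, hu]
    rw [sum_congr rfl fun m _ => if_pos (one_dvd m), hGsum]
    simp [hG0.ne']
  have hlam_le : ∀ d, |lam d| ≤ if d ≤ z then (z : ℝ) else 0 := by
    intro d
    by_cases hd : d ≤ z
    · rw [if_pos hd]
      simp only [hlam]
      rw [abs_div, abs_mul, abs_mul, abs_of_pos hG0, Nat.abs_cast, div_le_iff₀ hG0]
      have h1 : |(μ d : ℝ)| ≤ 1 := by rw [← Int.cast_abs]; exact_mod_cast abs_moebius_le_one
      calc |(μ d : ℝ)| * (d : ℝ) * |u d| ≤ 1 * (z : ℝ) * G :=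
            mul_le_mul (mul_le_mul h1 (Nat.cast_le.2 hd) (Nat.cast_nonneg _) zero_le_one)
              (hu_le d) (abs_nonneg _) (by positivity)
        _ = _ := by ring
    · rw [if_neg hd]
      simp [hlam, hu_zero d (by omega)]
  -- the main term
  have hmain : s.mainSum (BoundingSieve.lambdaSquared lam) = 1 / G := by
    rw [BoundingSieve.mainSum_lambdaSquared_eq_sum_mul_sum_sq]
    simp only [hs]
    have inner : ∀ l ∈ P.divisors,
        ∑ d ∈ P.divisors, (if l ∣ d then invFn d * lam d else 0) = (μ l : ℝ) * g l / G := by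
      intro l hl
      calc ∑ d ∈ P.divisors, (if l ∣ d then invFn d * lam d else 0)
          = ∑ d ∈ P.divisors, ∑ m ∈ P.divisors,
              (if l ∣ d ∧ d ∣ m then (μ d : ℝ) else 0) * (g m / G) := by
            refine sum_congr rfl fun d hd => ?_
            have hd0 : (d : ℝ) ≠ 0 := Nat.cast_ne_zero.2 (Nat.pos_of_mem_divisors hd).ne'
            by_cases hld : l ∣ d
            · simp only [hld, if_true, true_and, invFn_apply, hlam, hu]
              rw [mul_sum, sum_div, mul_sum]
              refine sum_congr rfl fun m _ => ?_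
              split <;> [field_simp; simp]
            · simp [hld]
        _ = ∑ m ∈ P.divisors, (if l = m then (μ l : ℝ) else 0) * (g m / G) := by
            rw [sum_comm]
            refine sum_congr rfl fun m hm => ?_
            rw [← sum_mul, sum_moebius_between hPsq (Nat.mem_divisors.1 hm).1]
        _ = _ := by
            simp only [ite_mul, zero_mul]
            rw [sum_ite_eq, if_pos hl]
            ring
    calc ∑ l ∈ P.divisors, (s.selbergTerms l)⁻¹ *
          (∑ d ∈ P.divisors, if l ∣ d then invFn d * lam d else 0) ^ 2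
        = ∑ l ∈ P.divisors, g l / G ^ 2 := by
          refine sum_congr rfl fun l hl => ?_
          rw [inner l hl, hterm l hl]
          have hm : ((μ l : ℝ)) ^ 2 = 1 := by
            exact_mod_cast moebius_sq_eq_one_of_squarefree
              (Squarefree.squarefree_of_dvd (Nat.mem_divisors.1 hl).1 hPsq)
          have hgp : gp l.primeFactors ≠ 0 :=
            (gp_pos fun p hp => Nat.prime_of_mem_primeFactors hp).ne'
          simp only [hg]
          split
          · rw [div_pow, mul_pow, hm]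
            field_simp
          · simp
      _ = 1 / G := by
          rw [← sum_div, hGsum]
          field_simp
  -- the remainders
  set Re : ℝ := 4 + 2 * ((H : ℝ) * k * (z : ℝ) ^ 2) ^ w / c with hRe
  have hc : 0 < c := hdio.1
  have hrem : ∀ d ∈ P.divisors, d ≤ z ^ 2 → |s.rem d| ≤ Re := by
    intro d hd hdz
    have hd0 : 0 < d := Nat.pos_of_mem_divisors hd
    have hsum : s.multSum d
        = ∑ j ∈ Icc 1 (M / d), kern H ((j : ℝ) * ((d * k : ℕ) : ℝ) * γ - t) := by
      simp only [BoundingSieve.multSum, hs]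
      rw [← sum_filter]
      refine (sum_bij (fun j _ => d * j) (fun j hj => ?_) (fun j _ j' _ h => ?_) (fun m hm => ?_)
        fun j _ => ?_).symm
      · obtain ⟨h1, h2⟩ := mem_Icc.1 hj
        refine mem_filter.2 ⟨mem_Icc.2 ⟨Nat.mul_pos hd0 h1, ?_⟩, dvd_mul_right _ _⟩
        exact le_trans (Nat.mul_le_mul_left _ h2) (Nat.mul_div_le _ _)
      · exact Nat.eq_of_mul_eq_mul_left hd0 h
      · obtain ⟨hm1, j, rfl⟩ := mem_filter.1 hm
        obtain ⟨h1, h2⟩ := mem_Icc.1 hm1
        refine ⟨j, mem_Icc.2 ⟨Nat.pos_of_mul_pos_left h1, ?_⟩, rfl⟩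
        rw [Nat.le_div_iff_mul_le hd0, mul_comm]
        exact h2
      · congr 1
        push_cast
        ring
    have h1 := kern_sum_le hdio hH (Nat.mul_pos hd0 hk) t (M / d)
    have hkey : |4 / (H : ℝ) * ((M / d : ℕ) : ℝ) - (d : ℝ)⁻¹ * (4 / (H : ℝ) * M)| ≤ 4 := by
      have hdR : (0 : ℝ) < d := Nat.cast_pos.2 hd0
      have hdiv := Nat.div_add_mod M d
      have hcast : (d : ℝ) * ((M / d : ℕ) : ℝ) + ((M % d : ℕ) : ℝ) = M := by
        exact_mod_cast hdiv
      have hmod : ((M % d : ℕ) : ℝ) ≤ d := Nat.cast_le.2 (Nat.mod_lt M hd0).le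
      rw [show 4 / (H : ℝ) * ((M / d : ℕ) : ℝ) - (d : ℝ)⁻¹ * (4 / (H : ℝ) * M)
        = -(4 / (H : ℝ) * (((M % d : ℕ) : ℝ) / d)) by
          rw [← hcast]; field_simp; ring, abs_neg, abs_of_nonneg (by positivity)]
      calc 4 / (H : ℝ) * (((M % d : ℕ) : ℝ) / d) ≤ 4 / 1 * 1 :=
            mul_le_mul (div_le_div_of_nonneg_left (by norm_num) one_pos (Nat.one_le_cast.2 hH))
              ((div_le_one hdR).2 hmod) (by positivity) (by norm_num)
        _ = 4 := by norm_num
    have hmono : 2 * ((H : ℝ) * ((d * k : ℕ) : ℝ)) ^ w / c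
        ≤ 2 * ((H : ℝ) * k * (z : ℝ) ^ 2) ^ w / c := by
      refine div_le_div_of_nonneg_right (mul_le_mul_of_nonneg_left
        (pow_le_pow_left₀ (by positivity) ?_ w) zero_le_two) hc.le
      push_cast
      have : (d : ℝ) ≤ (z : ℝ) ^ 2 := by exact_mod_cast hdz
      calc (H : ℝ) * ((d : ℝ) * k) = (H : ℝ) * k * d := by ring
        _ ≤ _ := mul_le_mul_of_nonneg_left this (by positivity)
    rw [BoundingSieve.rem, hsum]
    simp only [hs, invFn_apply]
    refine le_trans (abs_sub_le _ (4 / (H : ℝ) * ((M / d : ℕ) : ℝ)) _) ?_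
    rw [hRe]
    linarith [h1.trans hmono]
  have herr : s.errSum (BoundingSieve.lambdaSquared lam) ≤ (z : ℝ) ^ 4 * Re := by
    have hRe0 : 0 ≤ Re := by positivity
    calc s.errSum (BoundingSieve.lambdaSquared lam)
        ≤ ∑ d ∈ P.divisors, ∑ d1 ∈ P.divisors, ∑ d2 ∈ P.divisors,
            (if d = Nat.lcm d1 d2 then |lam d1| * |lam d2| * |s.rem d| else 0) := by
          simp only [BoundingSieve.errSum, BoundingSieve.lambdaSquared]
          refine sum_le_sum fun d hd => ?_
          have hdP := (Nat.mem_divisors.1 hd).1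
          have hsub : d.divisors ⊆ P.divisors :=
            Nat.divisors_subset_of_dvd hPsq.ne_zero hdP
          refine le_trans (mul_le_mul_of_nonneg_right (abs_sum_le_sum_abs _ _) (abs_nonneg _)) ?_
          rw [sum_mul]
          refine le_trans (sum_le_sum fun d1 _ => ?_) (sum_le_sum_of_subset_of_nonneg hsub
            fun d1 _ _ => sum_nonneg fun d2 _ => by split <;> positivity)
          refine le_trans (mul_le_mul_of_nonneg_right (abs_sum_le_sum_abs _ _) (abs_nonneg _)) ?_
          rw [sum_mul]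
          refine le_trans (sum_le_sum fun d2 _ => le_of_eq ?_) (sum_le_sum_of_subset_of_nonneg hsub
            fun d2 _ _ => by split <;> positivity)
          split <;> simp [abs_mul]
      _ = ∑ d1 ∈ P.divisors, ∑ d2 ∈ P.divisors,
            |lam d1| * |lam d2| * |s.rem (Nat.lcm d1 d2)| := by
          rw [sum_comm]
          refine sum_congr rfl fun d1 hd1 => ?_
          rw [sum_comm]
          refine sum_congr rfl fun d2 hd2 => ?_
          rw [sum_ite_eq', if_pos (Nat.mem_divisors.2 ⟨Nat.lcm_dvd (Nat.mem_divisors.1 hd1).1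
            (Nat.mem_divisors.1 hd2).1, hPsq.ne_zero⟩)]
      _ ≤ ∑ d1 ∈ P.divisors, ∑ d2 ∈ P.divisors,
            (if d1 ≤ z then (z : ℝ) else 0) * (if d2 ≤ z then (z : ℝ) else 0) * Re := by
          refine sum_le_sum fun d1 hd1 => sum_le_sum fun d2 hd2 => ?_
          by_cases h : d1 ≤ z ∧ d2 ≤ z
          · refine mul_le_mul (mul_le_mul (hlam_le d1) (hlam_le d2) (abs_nonneg _)
              (le_trans (abs_nonneg _) (hlam_le d1))) ?_ (abs_nonneg _) ?_
            · refine hrem _ (Nat.mem_divisors.2 ⟨Nat.lcm_dvd (Nat.mem_divisors.1 hd1).1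
                (Nat.mem_divisors.1 hd2).1, hPsq.ne_zero⟩) ?_
              rw [sq]
              refine le_trans (Nat.le_of_dvd (Nat.mul_pos (Nat.pos_of_mem_divisors hd1)
                (Nat.pos_of_mem_divisors hd2)) (Nat.lcm_dvd_mul d1 d2)) ?_
              exact Nat.mul_le_mul h.1 h.2
            · rw [if_pos h.1, if_pos h.2]; positivity
          · have h1 := hlam_le d1
            have h2 := hlam_le d2
            rcases not_and_or.1 h with h' | h'
            · rw [if_neg h'] at h1 ⊢
              simp [le_antisymm h1 (abs_nonneg _)]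
            · rw [if_neg h'] at h2 ⊢
              simp [le_antisymm h2 (abs_nonneg _)]
      _ = (∑ d ∈ P.divisors, if d ≤ z then (z : ℝ) else 0) ^ 2 * Re := by
          rw [sq, sum_mul_sum, sum_mul]
          exact sum_congr rfl fun d1 _ => by rw [sum_mul]
      _ ≤ ((z : ℝ) ^ 2) ^ 2 * Re := by
          refine mul_le_mul_of_nonneg_right (pow_le_pow_left₀
            (sum_nonneg fun d _ => by split <;> positivity) ?_ 2) hRe0
          rw [← sum_filter, sum_const, nsmul_eq_mul, sq]
          refine mul_le_mul_of_nonneg_right ?_ (Nat.cast_nonneg _)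
          have hsub : P.divisors.filter (· ≤ z) ⊆ Icc 1 z := fun d hd =>
            mem_Icc.2 ⟨Nat.pos_of_mem_divisors (mem_filter.1 hd).1, (mem_filter.1 hd).2⟩
          have := card_le_card hsub
          rw [Nat.card_Icc] at this
          exact_mod_cast (show (P.divisors.filter (· ≤ z)).card ≤ z by omega)
      _ = _ := by rw [← pow_mul]
  have hsift : s.siftedSum
      = ∑ m ∈ (Icc 1 M).filter (Nat.Coprime P), kern H ((m : ℝ) * (k : ℝ) * γ - t) := by
    rw [BoundingSieve.siftedSum, sum_filter]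
  rw [← hsift]
  refine le_trans (BoundingSieve.siftedSum_le_mainSum_errSum_of_upperMoebius _
    (BoundingSieve.upperMoebius_lambdaSquared lam hlam1)) ?_
  rw [hmain]
  refine add_le_add (le_of_eq ?_) herr
  simp only [hs]
  ring

/-- The sieve sum of the primes up to `z` not dividing `N`, times `N / φ N`, is at least half of
the harmonic sum. -/
theorem harmonic_le_selG_mul {N : ℕ} (hN : N ≠ 0) (z : ℕ) :
    ∑ m ∈ Icc 1 z, (m : ℝ)⁻¹
      ≤ 2 * (selG ((range (z + 1)).filter fun p => p.Prime ∧ ¬ p ∣ N) z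
        * ∑ s ∈ N.primeFactors.powerset, gp s) := by
  classical
  set Ps := (range (z + 1)).filter fun p => p.Prime ∧ ¬ p ∣ N with hPsdef
  have hPs : ∀ p ∈ Ps, p.Prime := fun p hp => (mem_filter.1 hp).2.1
  set Q := (Icc 1 z).filter Squarefree with hQ
  have h1 : ∑ m ∈ Icc 1 z, (m : ℝ)⁻¹ ≤ 2 * ∑ a ∈ Q, (a : ℝ)⁻¹ := by
    choose a b hab using fun n : ℕ => Nat.sq_mul_squarefree n
    have hinv : ∀ m : ℕ, (m : ℝ)⁻¹ = (a m : ℝ)⁻¹ * (((b m : ℝ)) ^ 2)⁻¹ := by
      intro m
      conv_lhs => rw [← (hab m).1]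
      push_cast
      rw [mul_inv, mul_comm]
    calc ∑ m ∈ Icc 1 z, (m : ℝ)⁻¹
        = ∑ x ∈ (Icc 1 z).image (fun m => (a m, b m)), (x.1 : ℝ)⁻¹ * ((x.2 : ℝ) ^ 2)⁻¹ := by
          rw [sum_image]
          · exact sum_congr rfl fun m _ => hinv m
          · intro x _ y _ h
            obtain ⟨e1, e2⟩ := Prod.ext_iff.1 h
            rw [← (hab x).1, ← (hab y).1]
            simp only at e1 e2
            rw [e1, e2]
      _ ≤ ∑ x ∈ Q ×ˢ Icc 1 z, (x.1 : ℝ)⁻¹ * ((x.2 : ℝ) ^ 2)⁻¹ := by
          refine sum_le_sum_of_subset_of_nonneg (fun x hx => ?_) fun _ _ _ => by positivity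
          obtain ⟨m, hm, rfl⟩ := mem_image.1 hx
          obtain ⟨hm1, hm2⟩ := mem_Icc.1 hm
          have hm' := (hab m).1
          have ha : 0 < a m := (hab m).2.ne_zero.bot_lt
          have hb : 0 < b m := Nat.pos_of_ne_zero fun h => by
            rw [h] at hm'; simp at hm'; omega
          refine mem_product.2 ⟨mem_filter.2 ⟨mem_Icc.2 ⟨ha, ?_⟩, (hab m).2⟩,
            mem_Icc.2 ⟨hb, ?_⟩⟩
          · calc a m ≤ b m ^ 2 * a m := Nat.le_mul_of_pos_left _ (pow_pos hb 2)
              _ ≤ z := hm'.trans_le hm2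
          · calc b m ≤ b m ^ 2 := Nat.le_self_pow two_ne_zero _
              _ ≤ b m ^ 2 * a m := Nat.le_mul_of_pos_right _ ha
              _ ≤ z := hm'.trans_le hm2
      _ = (∑ a ∈ Q, (a : ℝ)⁻¹) * ∑ b ∈ Icc 1 z, ((b : ℝ) ^ 2)⁻¹ := by
          rw [sum_product, sum_mul_sum]
      _ ≤ (∑ a ∈ Q, (a : ℝ)⁻¹) * 2 := by
          refine mul_le_mul_of_nonneg_left ?_ (sum_nonneg fun _ _ => by positivity)
          have h := sum_Ioo_inv_sq_le (α := ℝ) 0 (z + 1)
          rw [show Ioo 0 (z + 1) = Icc 1 z by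
            ext; simp only [mem_Ioo, mem_Icc]; omega] at h
          simpa using h
      _ = _ := mul_comm _ _
  refine h1.trans (mul_le_mul_of_nonneg_left ?_ zero_le_two)
  have hpos : ∀ p : ℕ, p.Prime → (0 : ℝ) < (p : ℝ) - 1 := fun p hp => by
    have : (2 : ℝ) ≤ p := by exact_mod_cast hp.two_le
    linarith
  rw [selG, sum_mul_sum, ← sum_product']
  calc ∑ a ∈ Q, (a : ℝ)⁻¹
      ≤ ∑ a ∈ Q, gp (a.primeFactors \ N.primeFactors) * gp (a.primeFactors ∩ N.primeFactors) := by
        refine sum_le_sum fun a ha => ?_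
        conv_lhs => rw [← Nat.prod_primeFactors_of_squarefree (mem_filter.1 ha).2]
        rw [Nat.cast_prod, ← Finset.prod_inv_distrib, gp, gp,
          ← prod_union (disjoint_sdiff_inter _ _), sdiff_union_inter]
        refine prod_le_prod (fun p hp => ?_) (fun p hp => ?_)
        · positivity
        · exact inv_anti₀ (hpos p (Nat.prime_of_mem_primeFactors hp)) (by linarith)
    _ = ∑ x ∈ Q.image (fun a => (∏ p ∈ a.primeFactors \ N.primeFactors, p,
          a.primeFactors ∩ N.primeFactors)), gp (Nat.primeFactors x.1) * gp x.2 := by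
        have hpf : ∀ a ∈ Q, (∏ p ∈ a.primeFactors \ N.primeFactors, p).primeFactors
            = a.primeFactors \ N.primeFactors := fun a _ =>
          Nat.primeFactors_prod fun p hp => Nat.prime_of_mem_primeFactors (mem_sdiff.1 hp).1
        rw [sum_image]
        · exact sum_congr rfl fun a ha => by rw [hpf a ha]
        · intro a ha a' ha' h
          obtain ⟨e1, e2⟩ := Prod.ext_iff.1 h
          simp only at e1 e2
          have e3 : a.primeFactors \ N.primeFactors = a'.primeFactors \ N.primeFactors := by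
            rw [← hpf a ha, e1, hpf a' ha']
          rw [← Nat.prod_primeFactors_of_squarefree (mem_filter.1 ha).2,
            ← Nat.prod_primeFactors_of_squarefree (mem_filter.1 ha').2,
            ← sdiff_union_inter a.primeFactors N.primeFactors, e3, e2, sdiff_union_inter]
    _ ≤ _ := by
        refine sum_le_sum_of_subset_of_nonneg (fun x hx => ?_) fun x hx _ => ?_
        · obtain ⟨a, ha, rfl⟩ := mem_image.1 hx
          obtain ⟨ha1, hasq⟩ := mem_filter.1 ha
          have haz : a ≤ z := (mem_Icc.1 ha1).2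
          have hdvd : (∏ p ∈ a.primeFactors \ N.primeFactors, p) ∣ a :=
            (prod_dvd_prod_of_subset _ _ _ sdiff_subset).trans
              (Nat.prod_primeFactors_dvd a)
          refine mem_product.2 ⟨mem_filter.2 ⟨Nat.mem_divisors.2 ⟨?_,
            (squarefree_prod_primes hPs).ne_zero⟩,
            (Nat.le_of_dvd hasq.ne_zero.bot_lt hdvd).trans haz⟩,
            mem_powerset.2 inter_subset_right⟩
          refine prod_dvd_prod_of_subset (a.primeFactors \ N.primeFactors) Ps (fun p : ℕ => p) fun p hp => ?_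
          obtain ⟨hp1, hp2⟩ := mem_sdiff.1 hp
          refine mem_filter.2 ⟨mem_range.2 (Nat.lt_succ_of_le ((Nat.le_of_mem_primeFactors hp1).trans
            haz)), Nat.prime_of_mem_primeFactors hp1, fun h => hp2 ?_⟩
          exact Nat.mem_primeFactors.2 ⟨Nat.prime_of_mem_primeFactors hp1, h, hN⟩
        · exact mul_nonneg (gp_pos fun p hp => Nat.prime_of_mem_primeFactors hp).le
            (gp_pos fun p hp => Nat.prime_of_mem_primeFactors
              (mem_powerset.1 (mem_product.1 hx).2 hp)).le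

end

end Vale.Agent.P028.LogExtra
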