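import Vale.Agent.P028.LogExtra.TerminalSharp
import Vale.Agent.P028.LogExtra.PairLogLog

/-!
The sharp terminal bound, by interpolation of its three cases with the trivial bounds.
-/

namespace Vale.Agent.P028.LogExtra

open Finset Vale.Agent.P028.ErdosVaaler

noncomputable section

open scoped Classical

/-- Interpolation of a bound by the geometric mean. -/
lemma interp_mid {L AB y X ε σ : ℝ} (hy : 0 < y) (hL : 0 ≤ L) (hAB : L ≤ AB) (hε : 0 < ε)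
    (hσ : 0 ≤ σ) (hσ1 : σ ≤ 1 / 2 - ε) (hX : 0 ≤ X) (h1 : L ≤ 2 * y * Real.sqrt AB)
    (h2 : L ≤ y * Real.sqrt AB * X) :
    L ≤ 2 * (y ^ (1 - 2 * ε) * AB ^ (1 / 2 + ε) * X ^ σ) := by
  have hAB0 : 0 ≤ AB := hL.trans hAB
  rcases hL.eq_or_lt with h0 | hLpos
  · rw [← h0]; positivity
  have hABpos : 0 < AB := hLpos.trans_le hAB
  set s := Real.sqrt AB with hs
  have hs0 : 0 ≤ s := Real.sqrt_nonneg _
  have e0 : L = L ^ (2 * ε) * L ^ (1 - 2 * ε - σ) * L ^ σ := by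
    rw [← Real.rpow_add hLpos, ← Real.rpow_add hLpos,
      show 2 * ε + (1 - 2 * ε - σ) + σ = (1 : ℝ) by ring, Real.rpow_one]
  rw [e0]
  refine le_trans (mul_le_mul (mul_le_mul (Real.rpow_le_rpow hL hAB (by linarith))
    (Real.rpow_le_rpow hL h1 (by linarith)) (Real.rpow_nonneg hL _) (by positivity))
    (Real.rpow_le_rpow hL h2 hσ) (Real.rpow_nonneg hL _) (by positivity)) ?_
  rw [mul_assoc 2 y s, Real.mul_rpow zero_le_two (by positivity : (0 : ℝ) ≤ y * s),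
    Real.mul_rpow (by positivity : (0 : ℝ) ≤ y * s) hX]
  have h4 : (2 : ℝ) ^ (1 - 2 * ε - σ) ≤ 2 := by
    calc (2 : ℝ) ^ (1 - 2 * ε - σ) ≤ (2 : ℝ) ^ (1 : ℝ) :=
          Real.rpow_le_rpow_of_exponent_le one_le_two (by linarith)
      _ = 2 := Real.rpow_one 2
  rcases (mul_nonneg hy.le hs0).eq_or_lt with h0 | hys
  · exfalso
    rw [hs] at h0
    have := mul_pos hy (Real.sqrt_pos.2 hABpos)
    linarith
  have e1 : y ^ (1 - 2 * ε) * AB ^ (1 / 2 + ε)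
      = AB ^ (2 * ε) * ((y * s) ^ (1 - 2 * ε - σ) * (y * s) ^ σ) := by
    rw [← Real.rpow_add hys, show 1 - 2 * ε - σ + σ = 1 - 2 * ε by ring,
      Real.mul_rpow hy.le hs0, hs, Real.sqrt_eq_rpow, ← Real.rpow_mul hAB0]
    rw [show (1 / 2 + ε : ℝ) = 2 * ε + 1 / 2 * (1 - 2 * ε) by ring, Real.rpow_add hABpos]
    ring
  rw [e1]
  have hnn : 0 ≤ AB ^ (2 * ε) * ((y * s) ^ (1 - 2 * ε - σ) * (y * s) ^ σ) * X ^ σ := by positivity
  have := mul_le_mul_of_nonneg_left h4 hnn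
  linarith

/-- Interpolation of a bound by the square of the scale. -/
lemma interp_low {L AB y X ε σ : ℝ} (hy : 0 < y) (hL : 0 ≤ L) (hAB : L ≤ AB) (hε : 0 < ε)
    (hσ : 0 ≤ σ) (hσ1 : σ ≤ 1 / 2 - ε) (hX : 0 ≤ X) (h1 : L ≤ 2 * y * Real.sqrt AB)
    (h2 : L ≤ y ^ 2 * X) :
    L ≤ 2 * (y ^ (1 - 2 * ε) * AB ^ (1 / 2 + ε) * X ^ σ) := by
  have hAB0 : 0 ≤ AB := hL.trans hAB
  rcases hL.eq_or_lt with h0 | hLpos
  · rw [← h0]; positivity
  have hABpos : 0 < AB := hLpos.trans_le hAB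
  have e0 : L = L ^ (2 * ε + σ) * L ^ (1 - 2 * ε - 2 * σ) * L ^ σ := by
    rw [← Real.rpow_add hLpos, ← Real.rpow_add hLpos,
      show 2 * ε + σ + (1 - 2 * ε - 2 * σ) + σ = (1 : ℝ) by ring, Real.rpow_one]
  rw [e0]
  refine le_trans (mul_le_mul (mul_le_mul (Real.rpow_le_rpow hL hAB (by linarith))
    (Real.rpow_le_rpow hL h1 (by linarith)) (Real.rpow_nonneg hL _) (by positivity))
    (Real.rpow_le_rpow hL h2 hσ) (Real.rpow_nonneg hL _) (by positivity)) ?_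
  rw [Real.sqrt_eq_rpow, Real.mul_rpow (by positivity : (0 : ℝ) ≤ 2 * y)
      (Real.rpow_nonneg hAB0 _),
    Real.mul_rpow zero_le_two hy.le, Real.mul_rpow (sq_nonneg y) hX,
    ← Real.rpow_mul hAB0, ← Real.rpow_natCast y 2, ← Real.rpow_mul hy.le]
  have h4 : (2 : ℝ) ^ (1 - 2 * ε - 2 * σ) ≤ 2 := by
    calc (2 : ℝ) ^ (1 - 2 * ε - 2 * σ) ≤ (2 : ℝ) ^ (1 : ℝ) :=
          Real.rpow_le_rpow_of_exponent_le one_le_two (by linarith)
      _ = 2 := Real.rpow_one 2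
  have e1 : y ^ (1 - 2 * ε) = y ^ (1 - 2 * ε - 2 * σ) * y ^ (((2 : ℕ) : ℝ) * σ) := by
    rw [← Real.rpow_add hy]; congr 1; push_cast; ring
  have e2 : AB ^ (1 / 2 + ε)
      = AB ^ (2 * ε + σ) * AB ^ (1 / 2 * (1 - 2 * ε - 2 * σ)) := by
    rw [← Real.rpow_add hABpos]; congr 1; ring
  rw [e1, e2]
  have hnn : 0 ≤ AB ^ (2 * ε + σ) * AB ^ (1 / 2 * (1 - 2 * ε - 2 * σ))
      * (y ^ (1 - 2 * ε - 2 * σ) * y ^ (((2 : ℕ) : ℝ) * σ)) * X ^ σ := by positivity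
  have := mul_le_mul_of_nonneg_left h4 hnn
  linarith

lemma pow_saving_le {X C S θ : ℝ} (hX : 0 ≤ X) (hC : 0 ≤ C) (hS : 0 ≤ S) (hθ : 0 ≤ θ)
    (hθ1 : θ ≤ 1) (h : X ^ 2 ≤ C * S) : X ^ (2 * θ) ≤ (C + 1) * S ^ θ := by
  rw [Real.rpow_mul hX, Real.rpow_two]
  refine (Real.rpow_le_rpow (sq_nonneg X) h hθ).trans ?_
  rw [Real.mul_rpow hC hS]
  refine mul_le_mul_of_nonneg_right ?_ (Real.rpow_nonneg hS _)
  calc C ^ θ ≤ (C + 1) ^ θ := Real.rpow_le_rpow hC (by linarith) hθ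
    _ ≤ (C + 1) ^ (1 : ℝ) := Real.rpow_le_rpow_of_exponent_le (by linarith) hθ1
    _ = C + 1 := Real.rpow_one _

/-- The choice of the size parameters at the scale `y`. -/
lemma exists_scale {y : ℝ} (hy : 0 < y) (hy1 : y ≤ 1) (M w W : ℕ) (hW : (W : ℝ) ^ 16 * y ≤ 1) :
    ∃ U V R : ℕ, Scale y M U V R w ∧ 1 ≤ V ∧ (V : ℝ) ≤ 2 / y ∧ (W : ℝ) ≤ 2 * Real.sqrt U ∧
      2 ^ R ≤ 2 * V ^ (1 + (M + 2) * w) := by
  set x : ℝ := (1 / (24 * y)) ^ (1 / 8 : ℝ) with hx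
  have hx0 : 0 ≤ x := Real.rpow_nonneg (by positivity) _
  have hx8 : x ^ 8 = 1 / (24 * y) := by
    rw [hx, ← Real.rpow_natCast, ← Real.rpow_mul (by positivity)]
    norm_num
  set U := max 1 ⌊x⌋₊ with hU
  set V := ⌈1 / y⌉₊ with hV
  have hyV : 1 ≤ y * V := by
    have := mul_le_mul_of_nonneg_left (Nat.le_ceil (1 / y)) hy.le
    rwa [mul_one_div_cancel hy.ne'] at this
  have hV1 : 1 ≤ V := Nat.one_le_iff_ne_zero.2 fun h => by rw [h] at hyV; norm_num at hyV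
  have hV2 : (V : ℝ) ≤ 2 / y := by
    have h1 := (Nat.ceil_lt_add_one (show 0 ≤ 1 / y by positivity)).le
    have h2 : 1 ≤ 1 / y := by rw [one_le_div hy]; exact hy1
    calc (V : ℝ) ≤ 1 / y + 1 := h1
      _ ≤ 1 / y + 1 / y := by linarith
      _ = _ := by ring
  have hU1 : 1 ≤ U := le_max_left _ _
  have hor : U = 1 ∨ (U : ℝ) ^ 8 * (24 * y) ≤ 1 := by
    rcases le_or_gt ⌊x⌋₊ 1 with h | h
    · left; rw [hU]; omega
    · right
      have e : U = ⌊x⌋₊ := by rw [hU]; omega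
      have := pow_le_pow_left₀ (Nat.cast_nonneg _) (Nat.floor_le hx0) 8
      rw [hx8, le_div_iff₀ (by positivity)] at this
      rw [e]
      exact this
  have hUV : U ^ 8 ≤ V := by
    rcases hor with h | h
    · rw [h, one_pow]; exact hV1
    · have h1 : (U : ℝ) ^ 8 * y ≤ (V : ℝ) * y :=
        le_trans (show (U : ℝ) ^ 8 * y ≤ 1 by nlinarith [pow_nonneg (Nat.cast_nonneg U : (0 : ℝ) ≤ U) 8]) (by linarith)
      exact_mod_cast le_of_mul_le_mul_right h1 hy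
  set arg := U ^ 8 * (U ^ 8 * V ^ (M + 1)) ^ w with harg
  have harg2 : arg ≤ V ^ (1 + (M + 2) * w) := by
    have h1 : U ^ 8 * V ^ (M + 1) ≤ V ^ (M + 2) := by
      calc U ^ 8 * V ^ (M + 1) ≤ V * V ^ (M + 1) := Nat.mul_le_mul_right _ hUV
        _ = _ := by ring
    refine le_of_le_of_eq (Nat.mul_le_mul hUV (Nat.pow_le_pow_left h1 w)) ?_
    rw [← pow_mul, add_comm 1 ((M + 2) * w), pow_succ']
  refine ⟨U, V, Nat.clog 2 arg, ⟨hU1, hUV, hyV, ?_, ?_, Nat.le_pow_clog one_lt_two _⟩, hV1, hV2,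
    ?_, ?_⟩
  · rcases hor with h | h
    · rw [h]; simpa using hy1
    · have h2 : (U : ℝ) ^ 2 ≤ (U : ℝ) ^ 8 :=
        pow_le_pow_right₀ (Nat.one_le_cast.2 hU1) (by norm_num)
      nlinarith [pow_nonneg (Nat.cast_nonneg U : (0 : ℝ) ≤ U) 8]
  · rcases hor with h | h
    · rw [h]; norm_num
    · push_cast; linarith
  · have h1 : x ≤ 2 * U := by
      have h2 : (⌊x⌋₊ : ℝ) ≤ U := Nat.cast_le.2 (le_max_right _ _)
      have h3 : (1 : ℝ) ≤ U := Nat.one_le_cast.2 hU1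
      linarith [Nat.lt_floor_add_one x]
    have h2 := pow_le_pow_left₀ hx0 h1 8
    rw [hx8, div_le_iff₀ (by positivity)] at h2
    have h3 : ((W : ℝ) ^ 2) ^ 8 ≤ (4 * (U : ℝ)) ^ 8 := by
      rw [← pow_mul]
      refine le_of_mul_le_mul_right ?_ hy
      rw [mul_pow] at h2 ⊢
      norm_num at h2 ⊢
      nlinarith [mul_nonneg (pow_nonneg (Nat.cast_nonneg U : (0 : ℝ) ≤ U) 8) hy.le]
    have h4 := le_of_pow_le_pow_left₀ (by norm_num) (by positivity) h3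
    calc (W : ℝ) = Real.sqrt ((W : ℝ) ^ 2) := (Real.sqrt_sq (Nat.cast_nonneg _)).symm
      _ ≤ Real.sqrt (4 * U) := Real.sqrt_le_sqrt h4
      _ = 2 * Real.sqrt U := by
          rw [Real.sqrt_mul (by norm_num),
            show Real.sqrt (4 : ℝ) = 2 by rw [Real.sqrt_eq_iff_mul_self_eq] <;> norm_num]
  · rcases le_or_gt arg 1 with h | h
    · rw [Nat.clog_of_right_le_one h, pow_zero]
      have := Nat.one_le_pow (1 + (M + 2) * w) V hV1
      omega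
    · have h1 := Nat.pow_pred_clog_lt_self one_lt_two h
      have h2 : 2 ^ Nat.clog 2 arg = 2 * 2 ^ (Nat.clog 2 arg).pred := by
        rw [← pow_succ', ← Nat.succ_eq_add_one, Nat.succ_pred (Nat.clog_pos one_lt_two h).ne']
      rw [h2]
      exact Nat.mul_le_mul_left _ (h1.le.trans harg2)

/-- The range of the short pairs is a power of the inverse scale. -/
lemma short_range_log_le {y : ℝ} {M U V R w : ℕ} (hy : 0 < y) (hy1 : y ≤ 1)
    (hU : 1 ≤ U) (hUV : U ^ 8 ≤ V) (hV1 : 1 ≤ V) (hV2 : (V : ℝ) ≤ 2 / y)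
    (hR : 2 ^ R ≤ 2 * V ^ (1 + (M + 2) * w)) :
    1 + Real.log ((4 ^ R * (U * (U ^ 8 * (V ^ M * 4 ^ R)) ^ w) : ℕ) : ℝ)
      ≤ (1 + 2 * ((2 * (1 + (M + 2) * w) * (w + 1) + (1 + (M + 1) * w) : ℕ) : ℝ))
          * (1 + Real.log (1 / y)) := by
  set e := 2 * (1 + (M + 2) * w) * (w + 1) + (1 + (M + 1) * w) with he
  have h1 : 4 ^ R * (U * (U ^ 8 * (V ^ M * 4 ^ R)) ^ w) ≤ (2 * V) ^ e := by
    have h4 : 4 ^ R ≤ (2 * V) ^ (2 * (1 + (M + 2) * w)) := by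
      calc 4 ^ R = (2 ^ R) ^ 2 := by rw [← pow_mul, mul_comm, pow_mul]; norm_num
        _ ≤ ((2 * V) ^ (1 + (M + 2) * w)) ^ 2 := by
            refine Nat.pow_le_pow_left (hR.trans ?_) 2
            rw [mul_pow]
            exact Nat.mul_le_mul_right _ (Nat.le_self_pow (by omega) 2)
        _ = _ := by rw [← pow_mul, mul_comm 2 (1 + (M + 2) * w)]
    have hU1 : U ≤ 2 * V := ((Nat.le_self_pow (by norm_num) U).trans hUV).trans (by omega)
    calc 4 ^ R * (U * (U ^ 8 * (V ^ M * 4 ^ R)) ^ w)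
        = (4 ^ R) ^ (w + 1) * (U * (U ^ 8 * V ^ M) ^ w) := by
          rw [mul_pow, mul_pow, mul_pow, pow_succ]; ring
      _ ≤ ((2 * V) ^ (2 * (1 + (M + 2) * w))) ^ (w + 1) * (2 * V * ((2 * V) ^ (M + 1)) ^ w) := by
          refine Nat.mul_le_mul (Nat.pow_le_pow_left h4 _) (Nat.mul_le_mul hU1
            (Nat.pow_le_pow_left ?_ _))
          calc U ^ 8 * V ^ M ≤ (2 * V) * (2 * V) ^ M :=
                Nat.mul_le_mul (hUV.trans (by omega)) (Nat.pow_le_pow_left (by omega) _)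
            _ = (2 * V) ^ (M + 1) := (pow_succ' _ _).symm
      _ = _ := by rw [← pow_mul, ← pow_mul, ← pow_succ', ← pow_add, he]; ring_nf
  have hpos : 0 < 4 ^ R * (U * (U ^ 8 * (V ^ M * 4 ^ R)) ^ w) :=
    Nat.mul_pos (pow_pos (by norm_num) _) (Nat.mul_pos hU (pow_pos
      (Nat.mul_pos (pow_pos hU _) (Nat.mul_pos (pow_pos hV1 _) (pow_pos (by norm_num) _))) _))
  have h2 : Real.log ((4 ^ R * (U * (U ^ 8 * (V ^ M * 4 ^ R)) ^ w) : ℕ) : ℝ)
      ≤ (e : ℝ) * Real.log (2 * (V : ℝ)) := by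
    rw [← Real.log_pow]
    exact Real.log_le_log (Nat.cast_pos.2 hpos) (by exact_mod_cast h1)
  have h3 : Real.log (2 * (V : ℝ)) ≤ 2 + Real.log (1 / y) := by
    calc Real.log (2 * (V : ℝ)) ≤ Real.log (4 * (1 / y)) :=
          Real.log_le_log (by positivity) (by
            calc 2 * (V : ℝ) ≤ 2 * (2 / y) := by linarith
              _ = _ := by ring)
      _ = Real.log 4 + Real.log (1 / y) := Real.log_mul (by norm_num) (by positivity)
      _ ≤ _ := by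
          have : Real.log (4 : ℝ) = 2 * Real.log 2 := by
            rw [show (4 : ℝ) = 2 ^ (2 : ℕ) by norm_num, Real.log_pow]; norm_num
          linarith [Real.log_two_lt_d9]
  have hl : 0 ≤ Real.log (1 / y) := Real.log_nonneg (by rw [one_le_div hy]; exact hy1)
  have h4 := mul_le_mul_of_nonneg_left h3 (Nat.cast_nonneg e : (0 : ℝ) ≤ e)
  nlinarith [mul_nonneg (Nat.cast_nonneg e : (0 : ℝ) ≤ e) hl]

/-- A middle piece against the saving. -/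
lemma piece_mid {π : Par} {L AB K₀ G ε : ℝ} {P Q : ℕ} (hy : 0 < π.y) (hθ : 0 ≤ π.θ)
    (hθt : 2 * π.θ ≤ 1 / 2 - ε) (hε : 0 < ε) (hLam : 0 ≤ π.Lam) (hK : 0 ≤ K₀) (hL : 0 ≤ L)
    (hAB : L ≤ AB) (h1 : L ≤ 2 * π.y * Real.sqrt AB)
    (h2 : L ≤ K₀ * (π.y * Real.sqrt AB * Real.sqrt G)) (hG0 : 0 ≤ G)
    (hG : G ≤ 2 * (π.Lam / Z π P Q)) :
    L ≤ 2 * (2 * K₀ ^ 2 + 1) * (Phi π P Q * π.y ^ (1 - 2 * ε) * AB ^ (1 / 2 + ε)) := by
  have hAB0 : 0 ≤ AB := hL.trans hAB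
  have hX2 : (K₀ * Real.sqrt G) ^ 2 ≤ 2 * K₀ ^ 2 * (π.Lam / Z π P Q) := by
    rw [mul_pow, Real.sq_sqrt hG0]
    linarith [mul_le_mul_of_nonneg_left hG (sq_nonneg K₀)]
  have hP' := pow_saving_le (mul_nonneg hK (Real.sqrt_nonneg _)) (by positivity)
    (div_nonneg hLam (Nat.cast_nonneg _)) hθ (by linarith) hX2
  refine (interp_mid hy hL hAB hε (σ := 2 * π.θ) (by linarith) hθt
    (mul_nonneg hK (Real.sqrt_nonneg G)) h1 (h2.trans (le_of_eq (by ring)))).trans ?_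
  have h0 : 0 ≤ π.y ^ (1 - 2 * ε) * AB ^ (1 / 2 + ε) := by positivity
  have h3 := mul_le_mul_of_nonneg_left hP' h0
  unfold Phi
  linarith

/-- A crude piece against the saving. -/
lemma piece_low {π : Par} {L AB K₀ X ε : ℝ} {P Q : ℕ} (hy : 0 < π.y) (hθ : 0 ≤ π.θ)
    (hθt : 2 * π.θ ≤ 1 / 2 - ε) (hε : 0 < ε) (hLam : 0 ≤ π.Lam) (hK : 0 ≤ K₀) (hL : 0 ≤ L)
    (hAB : L ≤ AB) (h1 : L ≤ 2 * π.y * Real.sqrt AB) (hX : 0 ≤ X) (h2 : L ≤ π.y ^ 2 * X)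
    (hXS : X ^ 2 ≤ K₀ * (π.Lam / Z π P Q)) :
    L ≤ 2 * (K₀ + 1) * (Phi π P Q * π.y ^ (1 - 2 * ε) * AB ^ (1 / 2 + ε)) := by
  have hAB0 : 0 ≤ AB := hL.trans hAB
  have hP' := pow_saving_le hX hK (div_nonneg hLam (Nat.cast_nonneg _)) hθ (by linarith) hXS
  refine (interp_low hy hL hAB hε (σ := 2 * π.θ) (by linarith) hθt hX h1 h2).trans ?_
  have h0 : 0 ≤ π.y ^ (1 - 2 * ε) * AB ^ (1 / 2 + ε) := by positivity
  have h3 := mul_le_mul_of_nonneg_left hP' h0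
  unfold Phi
  linarith

/-- The sharp terminal bound for shifts of finite irrationality exponent. -/
theorem sharpTerminal_of_dio {γ c : ℝ} {w : ℕ} (hdio : Dio γ c w) : SharpTerminal γ := by
  intro M ε hε
  obtain ⟨K₁, hK₁, hlargeB⟩ := exists_large_cof hdio M
  obtain ⟨K₂, hK₂, hshortB⟩ := exists_short_cof hdio M
  set e : ℕ := 2 * (1 + (M + 2) * w) * (w + 1) + (1 + (M + 1) * w) with he
  set Cl : ℝ := (1 + 2 * (e : ℝ)) ^ 10 with hCl
  set K₃ : ℝ := 32 * Cl with hK₃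
  refine ⟨4 * (2 * K₁ ^ 2 + 1) + 2 * (2 * (2 * K₂) ^ 2 + 1) + 2 * (K₃ + 1), by positivity, ?_⟩
  intro π Pr k f h P Q E Av Bw hγ hy hy1 hW hW16 hT hθ hθt hLam hP hQ hPy hQy hPr hE hA hAv hBw
    hf hh
  set A := ∑ v ∈ Av, mu f v with hAdef
  set B := ∑ w ∈ Bw, mu h w with hBdef
  have hA0 : 0 ≤ A := sum_nonneg fun v hv => mu_nonneg (hf v hv)
  have hB0 : 0 ≤ B := sum_nonneg fun w hw => mu_nonneg (hh w hw)
  set N := Nk Pr k with hN
  obtain ⟨U, V, R, hs, hV1, hV2, hWU, hR⟩ := exists_scale hy hy1 M w π.W hW16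
  have hU1 : (1 : ℝ) ≤ U := Nat.one_le_cast.2 hs.hU
  have hsU : 0 < Real.sqrt U := Real.sqrt_pos.2 (by linarith)
  have hl0 : 0 ≤ Real.log (1 / π.y) := Real.log_nonneg (by rw [one_le_div hy]; exact hy1)
  have hll : 1 ≤ llog (π.T : ℝ) := one_le_llog (Nat.one_le_cast.2 hT)
  have hL10 : 1 ≤ (1 + Real.log (1 / π.y)) ^ 10 := one_le_pow₀ (by linarith)
  have hLam1 : llog (π.T : ℝ) ≤ π.Lam :=
    le_trans (le_mul_of_one_le_right (by linarith) hL10) hLam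
  have hLam2 : (1 + Real.log (1 / π.y)) ^ 10 ≤ π.Lam :=
    le_trans (le_mul_of_one_le_left (by linarith) hll) hLam
  have hZ0 : (0 : ℝ) < Z π P Q := Nat.cast_pos.2 (one_le_Z hW)
  have hG : llog (π.T : ℝ) / Real.sqrt U ≤ 2 * (π.Lam / Z π P Q) := by
    rw [mul_div_assoc', div_le_div_iff₀ hsU hZ0]
    calc llog (π.T : ℝ) * (Z π P Q : ℝ) ≤ π.Lam * (2 * Real.sqrt U) :=
          mul_le_mul hLam1 ((Nat.cast_le.2 Z_le_W).trans hWU) hZ0.le (by linarith)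
      _ = _ := by ring
  have hbound : ∀ n : ℕ, (n : ℝ) * π.y ^ M ≤ 1 → n ≤ V ^ M := by
    intro n hn
    have h1 : (n : ℝ) * π.y ^ M ≤ (V : ℝ) ^ M * π.y ^ M := by
      rw [← mul_pow, mul_comm (V : ℝ)]
      exact hn.trans (one_le_pow₀ hs.hyV)
    exact_mod_cast le_of_mul_le_mul_right h1 (pow_pos hy M)
  have hmass : ∀ E' ⊆ E, 0 ≤ ∑ e ∈ E', mu f e.1 * mu h e.2
      ∧ ∑ e ∈ E', mu f e.1 * mu h e.2 ≤ A * B
      ∧ ∑ e ∈ E', mu f e.1 * mu h e.2 ≤ 2 * π.y * Real.sqrt (A * B) := by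
    intro E' hE'
    have h0 : 0 ≤ ∑ e ∈ E', mu f e.1 * mu h e.2 := sum_nonneg fun e he' =>
      mul_nonneg (mu_nonneg (hf _ (hAv e (hE' he')))) (mu_nonneg (hh _ (hBw e (hE' he'))))
    have h1 : ∑ e ∈ E', mu f e.1 * mu h e.2 ≤ A * B :=
      mass_le_mul (fun e he' => hAv e (hE' he')) (fun e he' => hBw e (hE' he')) hf hh
    refine ⟨h0, h1, ?_⟩
    rcases h0.eq_or_lt with h | h
    · rw [← h]; positivity
    have hAB : 0 < A * B := h.trans_le h1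
    exact terminal_schur hy.le hPr (fun e he' => hE e (hE' he')) (fun e he' => hAv e (hE' he'))
      (fun e he' => hBw e (hE' he')) hf hh (pos_of_mul_pos_left hAB hB0)
      (pos_of_mul_pos_right hAB hA0)
  set E₁ := E.filter (fun e => 4 ^ R ≤ N / e.1.gcd N) with hE₁
  set E' := E.filter (fun e => ¬ 4 ^ R ≤ N / e.1.gcd N) with hE'
  set E₂ := E'.filter (fun e => 4 ^ R ≤ N / e.2.gcd N) with hE₂
  set E₃ := E'.filter (fun e => ¬ 4 ^ R ≤ N / e.2.gcd N) with hE₃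
  have s₁ : E₁ ⊆ E := filter_subset _ _
  have s' : E' ⊆ E := filter_subset _ _
  have s₂ : E₂ ⊆ E := (filter_subset _ _).trans s'
  have s₃ : E₃ ⊆ E := (filter_subset _ _).trans s'
  set G := llog (π.T : ℝ) / Real.sqrt U with hGdef
  have hG0 : 0 ≤ G := div_nonneg (by linarith) hsU.le
  have hLam0 : 0 ≤ π.Lam := by linarith
  obtain ⟨n1, m1, t1⟩ := hmass E₁ s₁
  have b1 := piece_mid (P := P) (Q := Q) hy hθ hθt hε hLam0 hK₁ n1 m1 t1
    (hlargeB π Pr k f h P Q U V R E₁ Av Bw hγ hy hT hs hP (hbound P hPy) hPr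
      (fun e he' => hE e (s₁ he')) (fun e he' => hA e (s₁ he')) (fun e he' => hAv e (s₁ he'))
      (fun e he' => hBw e (s₁ he')) hf hh fun e he' => (mem_filter.1 he').2) hG0 hG
  obtain ⟨n2, m2, t2⟩ := hmass E₂ s₂
  have hsw := hlargeB π Pr k h f Q P U V R (E₂.image Prod.swap) Bw Av hγ hy hT hs hQ (hbound Q hQy)
    hPr (fun x hx => by obtain ⟨e, he', rfl⟩ := mem_image.1 hx; exact (hE e (s₂ he')).swap)
    (fun x hx => by obtain ⟨e, he', rfl⟩ := mem_image.1 hx; exact (hA e (s₂ he')).swap)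
    (fun x hx => by obtain ⟨e, he', rfl⟩ := mem_image.1 hx; exact hBw e (s₂ he'))
    (fun x hx => by obtain ⟨e, he', rfl⟩ := mem_image.1 hx; exact hAv e (s₂ he')) hh hf
    (fun x hx => by obtain ⟨e, he', rfl⟩ := mem_image.1 hx; exact (mem_filter.1 he').2)
  rw [sum_image Prod.swap_injective.injOn] at hsw
  simp only [Prod.fst_swap, Prod.snd_swap] at hsw
  rw [mul_comm B A, sum_congr rfl fun e _ => mul_comm (mu h e.2) (mu f e.1)] at hsw
  have b2 := piece_mid (P := P) (Q := Q) hy hθ hθt hε hLam0 hK₁ n2 m2 t2 hsw hG0 hG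
  obtain ⟨n3, m3, t3⟩ := hmass E₃ s₃
  have hsh := hshortB π Pr k f h P Q U V R E₃ Av Bw hγ hy hW hs hP (hbound P hPy) hQ
    (hbound Q hQy) hPr (fun e he' => hE e (s₃ he')) (fun e he' => hA e (s₃ he'))
    (fun e he' => hAv e (s₃ he')) (fun e he' => hBw e (s₃ he')) hf hh
    (fun e he' => ⟨lt_of_not_ge (mem_filter.1 (mem_filter.1 he').1).2,
      lt_of_not_ge (mem_filter.1 he').2⟩)
  set Y : ℕ := 4 ^ R * (U * (U ^ 8 * (V ^ M * 4 ^ R)) ^ w) with hY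
  set X₃ : ℝ := Real.sqrt (2 / Z π P Q) * Hs Y ^ 5 with hX₃
  have hX₃0 : 0 ≤ X₃ := mul_nonneg (Real.sqrt_nonneg _) (pow_nonneg (Hs_nonneg _) _)
  have b3 : ∑ e ∈ E₃, mu f e.1 * mu h e.2
      ≤ (2 * (2 * (2 * K₂) ^ 2 + 1) + 2 * (K₃ + 1))
        * (Phi π P Q * π.y ^ (1 - 2 * ε) * (A * B) ^ (1 / 2 + ε)) := by
    have hpos : 0 ≤ Phi π P Q * π.y ^ (1 - 2 * ε) * (A * B) ^ (1 / 2 + ε) := by
      unfold Phi; positivity
    rcases le_total (2 * (π.y ^ 2 * X₃))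
        (K₂ * (π.y * Real.sqrt (A * B) * Real.sqrt (1 / Real.sqrt U))) with hc | hc
    · have hG' : 1 / Real.sqrt U ≤ 2 * (π.Lam / Z π P Q) :=
        le_trans (div_le_div_of_nonneg_right hll hsU.le) hG
      have h5 := piece_mid (P := P) (Q := Q) hy hθ hθt hε hLam0
        (by linarith : (0 : ℝ) ≤ 2 * K₂) n3 m3 t3 (hsh.trans (by linarith)) (by positivity) hG'
      have : 0 ≤ 2 * (K₃ + 1) * (Phi π P Q * π.y ^ (1 - 2 * ε) * (A * B) ^ (1 / 2 + ε)) := by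
        positivity
      linarith
    · have hlog : Hs Y ≤ (1 + 2 * (e : ℝ)) * (1 + Real.log (1 / π.y)) :=
        (Hs_le Y).trans (short_range_log_le hy hy1 hs.hU hs.hUV hV1 hV2 hR)
      have hXS : (4 * X₃) ^ 2 ≤ K₃ * (π.Lam / Z π P Q) := by
        rw [hX₃, mul_pow, mul_pow, Real.sq_sqrt (by positivity), hK₃, ← pow_mul]
        have h6 : Hs Y ^ (5 * 2) ≤ Cl * π.Lam := by
          refine (pow_le_pow_left₀ (Hs_nonneg Y) hlog _).trans ?_
          rw [mul_pow, hCl]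
          exact mul_le_mul_of_nonneg_left hLam2 (by positivity)
        calc (4 : ℝ) ^ 2 * (2 / (Z π P Q : ℝ) * Hs Y ^ (5 * 2))
            ≤ (4 : ℝ) ^ 2 * (2 / (Z π P Q : ℝ) * (Cl * π.Lam)) :=
              mul_le_mul_of_nonneg_left (mul_le_mul_of_nonneg_left h6 (by positivity))
                (by positivity)
          _ = 32 * Cl * (π.Lam / Z π P Q) := by ring
      have h5 := piece_low (P := P) (Q := Q) hy hθ hθt hε hLam0 (by positivity) n3 m3 t3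
        (by linarith : 0 ≤ 4 * X₃) (hsh.trans (by linarith)) hXS
      have : 0 ≤ 2 * (2 * (2 * K₂) ^ 2 + 1)
          * (Phi π P Q * π.y ^ (1 - 2 * ε) * (A * B) ^ (1 / 2 + ε)) := by positivity
      linarith
  rw [← sum_filter_add_sum_filter_not E (fun e => 4 ^ R ≤ N / e.1.gcd N),
    ← sum_filter_add_sum_filter_not E' (fun e => 4 ^ R ≤ N / e.2.gcd N), ← hE₁, ← hE₂, ← hE₃]
  linarith

end

end Vale.Agent.P028.LogExtra
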