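import Vale.Agent.P028.LogExtra.OneVar
import Vale.Agent.P028.LogExtra.Prune

/-!
The terminal case with a doubly logarithmic loss: long cofactors are handled by anticoncentration
in the totient measure, long own parts by spacing, and the rest has polylogarithmic size.
-/

namespace Vale.Agent.P028.LogExtra

open Finset Vale.Agent.P028.ErdosVaaler

noncomputable section

open scoped Classical

variable {π : Par} {Pr : Finset ℕ} {k : ℕ → ℕ} {f h : ℕ → ℝ} {P Q : ℕ}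

lemma mass_le_mul {E : Finset (ℕ × ℕ)} {Av Bw : Finset ℕ} (hV : ∀ e ∈ E, e.1 ∈ Av)
    (hU : ∀ e ∈ E, e.2 ∈ Bw) (hf : ∀ v ∈ Av, 0 ≤ f v) (hh : ∀ w ∈ Bw, 0 ≤ h w) :
    ∑ e ∈ E, mu f e.1 * mu h e.2 ≤ (∑ v ∈ Av, mu f v) * ∑ w ∈ Bw, mu h w := by
  rw [sum_mul_sum, ← sum_product (f := fun e : ℕ × ℕ => mu f e.1 * mu h e.2)]
  exact sum_le_sum_of_subset_of_nonneg
    (fun e he => Finset.mem_product.2 ⟨hV e he, hU e he⟩) fun e he _ =>
    mul_nonneg (mu_nonneg (hf _ (Finset.mem_product.1 he).1))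
      (mu_nonneg (hh _ (Finset.mem_product.1 he).2))

lemma sqrt_le_self' {x : ℝ} (hx : 1 ≤ x) : Real.sqrt x ≤ x :=
  Real.sqrt_le_iff.2 ⟨by linarith, le_self_pow₀ hx two_ne_zero⟩

/-- The cofactors of one edge in the variables of the terminal case. -/
lemma edge_facts (hPr : ∀ p ∈ Pr, p.Prime) {e : ℕ × ℕ} (he : TPair π Pr k f h e)
    (ha : Adm π P Q f h e) :
    0 < own (Nk Pr k) e.1 ∧ 0 < own (Nk Pr k) e.2 ∧
      e.1.gcd (Nk Pr k) ∈ (Nk Pr k).divisors ∧ e.2.gcd (Nk Pr k) ∈ (Nk Pr k).divisors ∧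
      0 < Nk Pr k / e.1.gcd (Nk Pr k) ∧ 0 < Nk Pr k / e.2.gcd (Nk Pr k) ∧
      own (Nk Pr k) e.2 * (Nk Pr k / e.1.gcd (Nk Pr k)) ≤ π.T ∧
      own (Nk Pr k) e.1 * (Nk Pr k / e.2.gcd (Nk Pr k)) ≤ π.T ∧
      ∃ n : ℤ, |(((P : ℕ) : ℝ) * ((own (Nk Pr k) e.2 : ℕ) : ℝ)
          * ((Nk Pr k / e.1.gcd (Nk Pr k) : ℕ) : ℝ)
        - ((Q : ℕ) : ℝ) * ((own (Nk Pr k) e.1 : ℕ) : ℝ)
          * ((Nk Pr k / e.2.gcd (Nk Pr k) : ℕ) : ℝ)) * π.γ - n| < π.y := by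
  set N := Nk Pr k with hN
  have hN0 : 0 < N := Nk_pos hPr
  obtain ⟨-, -, h1, h2, hit⟩ := ha
  rw [he.cofactor hPr, ← hN] at h1 hit
  rw [he.cofactor' hPr, ← hN] at h2 hit
  refine ⟨own_pos he.1, own_pos he.2.1, Nat.mem_divisors.2 ⟨Nat.gcd_dvd_right _ _, hN0.ne'⟩,
    Nat.mem_divisors.2 ⟨Nat.gcd_dvd_right _ _, hN0.ne'⟩,
    Nat.div_pos (Nat.le_of_dvd hN0 (Nat.gcd_dvd_right _ _)) (Nat.gcd_pos_of_pos_left _ he.1),
    Nat.div_pos (Nat.le_of_dvd hN0 (Nat.gcd_dvd_right _ _)) (Nat.gcd_pos_of_pos_left _ he.2.1),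
    h1, h2, ?_⟩
  obtain ⟨n, hn⟩ := hit
  refine ⟨n, ?_⟩
  simp only [own]
  generalize e.2 / e.2.gcd N = b at hn ⊢
  generalize N / e.1.gcd N = c at hn ⊢
  generalize e.1 / e.1.gcd N = a at hn ⊢
  generalize N / e.2.gcd N = d at hn ⊢
  push_cast at hn
  convert hn using 3
  ring

/-- The degree of a right vertex through hits of the left cofactor. -/
lemma wdeg_le (hy : 0 ≤ π.y) (hPr : ∀ p ∈ Pr, p.Prime) {S : Finset (ℕ × ℕ)}
    (hE : ∀ e ∈ S, TPair π Pr k f h e) (hA : ∀ e ∈ S, Adm π P Q f h e) (e₀ : ℕ × ℕ) {X : ℝ}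
    {R : ℕ} (hlarge : ∀ e ∈ S, 4 ^ R ≤ Nk Pr k / e.1.gcd (Nk Pr k))
    (hX : ∀ (t : ℝ) (F : Finset ℕ), F ⊆ (Nk Pr k).divisors →
      (∀ d ∈ F, 4 ^ R ≤ Nk Pr k / d ∧ Nk Pr k / d ≤ π.T ∧
        ∃ n : ℤ, |((Nk Pr k / d : ℕ) : ℝ) * ((P * own (Nk Pr k) e₀.2 : ℕ) : ℝ) * π.γ - t - n|
          ≤ π.y) →
      ∑ d ∈ F, (d.totient : ℝ) / (Nk Pr k : ℝ) ≤ X) :
    ∑ e ∈ S.filter (fun e => e.2 = e₀.2), mu f e.1
      ≤ π.y / (own (Nk Pr k) e₀.2 : ℝ)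
        * (((S.image fun e => own (Nk Pr k) e.1).card : ℝ) * X) := by
  set N := Nk Pr k with hN
  set F₀ := (S.filter (fun e => e.2 = e₀.2)).image Prod.swap with hF₀
  have hmem : ∀ x ∈ F₀, ∃ e ∈ S, e.2 = e₀.2 ∧ x = e.swap := fun x hx => by
    obtain ⟨e, he, rfl⟩ := mem_image.1 hx
    exact ⟨e, (mem_filter.1 he).1, (mem_filter.1 he).2, rfl⟩
  have h1 := deg_le (π := π) (f := h) (h := f) hy hPr (F := F₀) (v := e₀.2)
    (fun x hx => by
      obtain ⟨e, he, he2, rfl⟩ := hmem x hx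
      exact ⟨(hE e he).swap, he2⟩)
    (Bs := S.image fun e => own N e.1) (fun x hx => by
      obtain ⟨e, he, -, rfl⟩ := hmem x hx
      exact mem_image_of_mem _ he) (G := fun _ => X) (fun a _ => by
      refine hX (((Q : ℕ) : ℝ) * (a : ℝ) * ((N / e₀.2.gcd N : ℕ) : ℝ) * π.γ) _ (fun d hd => ?_)
        fun d hd => ?_
      · obtain ⟨x, hx, rfl⟩ := mem_image.1 hd
        obtain ⟨e, he, -, rfl⟩ := hmem x (mem_filter.1 hx).1
        exact (edge_facts hPr (hE e he) (hA e he)).2.2.1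
      · obtain ⟨x, hx, rfl⟩ := mem_image.1 hd
        obtain ⟨hx1, hx2⟩ := mem_filter.1 hx
        obtain ⟨e, he, he2, rfl⟩ := hmem x hx1
        obtain ⟨-, hb, -, -, -, -, hbc, -, n, hn⟩ := edge_facts hPr (hE e he) (hA e he)
        simp only [Prod.snd_swap] at hx2 ⊢
        refine ⟨hlarge e he, le_trans (Nat.le_mul_of_pos_left _ hb) hbc, n, le_of_lt ?_⟩
        rw [← hN, he2, hx2] at hn
        refine lt_of_eq_of_lt ?_ hn
        congr 1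
        push_cast
        simp only [← hN]
        ring)
  rw [sum_image Prod.swap_injective.injOn, sum_const, nsmul_eq_mul] at h1
  simpa only [Prod.snd_swap] using h1

/-- The degree of a left vertex, with no saving. -/
lemma vdeg_le (hy : 0 ≤ π.y) (hPr : ∀ p ∈ Pr, p.Prime) {S : Finset (ℕ × ℕ)}
    (hE : ∀ e ∈ S, TPair π Pr k f h e) (e₀ : ℕ × ℕ) :
    ∑ e ∈ S.filter (fun e => e.1 = e₀.1), mu h e.2
      ≤ π.y / (own (Nk Pr k) e₀.1 : ℝ) * ((S.image fun e => own (Nk Pr k) e.2).card : ℝ) := by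
  set N := Nk Pr k with hN
  refine le_trans (deg_le hy hPr (F := S.filter (fun e => e.1 = e₀.1)) (v := e₀.1)
    (fun e he => ⟨hE e (mem_filter.1 he).1, (mem_filter.1 he).2⟩)
    (Bs := S.image fun e => own N e.2) (fun e he => mem_image_of_mem _ (mem_filter.1 he).1)
    (G := fun _ => 1) fun b _ => sum_totient_subset_le fun d hd => ?_) (le_of_eq ?_)
  · obtain ⟨x, -, rfl⟩ := mem_image.1 hd
    exact Nat.mem_divisors.2 ⟨Nat.gcd_dvd_right _ _, (Nk_pos hPr).ne'⟩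
  · rw [sum_const, nsmul_eq_mul, mul_one]

lemma card_own_le {N : ℕ} {S : Finset (ℕ × ℕ)} {g : ℕ × ℕ → ℕ} {m : ℕ}
    (hpos : ∀ e ∈ S, 0 < g e) (hmax : ∀ e ∈ S, own N (g e) ≤ m) :
    ((S.image fun e => own N (g e)).card : ℝ) ≤ m := by
  have : S.image (fun e => own N (g e)) ⊆ Icc 1 m := fun x hx => by
    obtain ⟨e, he, rfl⟩ := mem_image.1 hx
    exact mem_Icc.2 ⟨own_pos (hpos e he), hmax e he⟩
  exact_mod_cast (card_le_card this).trans (by rw [Nat.card_Icc]; omega)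

/-- Spacing: either a small multiple of `θ` is near an integer, or hits are sparse. -/
lemma sparse_count_le {θ D : ℝ} {q₀ n : ℕ} (hq : 0 < q₀) :
    (((Icc 1 n).filter fun b : ℕ => ∃ m : ℤ, |(b : ℝ) * θ - m| ≤ D).card : ℝ)
      ≤ (n : ℝ) / q₀ + 1
        + (n : ℝ) * ∑ q ∈ Icc 1 q₀, if ∃ m : ℤ, |(q : ℝ) * θ - m| ≤ 2 * D then (1 : ℝ) else 0 := by
  set G := (Icc 1 n).filter fun b : ℕ => ∃ m : ℤ, |(b : ℝ) * θ - m| ≤ D with hG
  have hsum0 : 0 ≤ ∑ q ∈ Icc 1 q₀,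
      if ∃ m : ℤ, |(q : ℝ) * θ - m| ≤ 2 * D then (1 : ℝ) else 0 :=
    sum_nonneg fun q _ => by split <;> norm_num
  by_cases hbad : ∃ q ∈ Icc 1 q₀, ∃ m : ℤ, |(q : ℝ) * θ - m| ≤ 2 * D
  · obtain ⟨q, hq1, hq2⟩ := hbad
    have h1 : (G.card : ℝ) ≤ n := by
      exact_mod_cast (card_filter_le _ _).trans (by simp [Nat.card_Icc])
    have h2 : (1 : ℝ) ≤ ∑ q ∈ Icc 1 q₀,
        if ∃ m : ℤ, |(q : ℝ) * θ - m| ≤ 2 * D then (1 : ℝ) else 0 := by
      refine le_trans (le_of_eq ?_) (single_le_sum (fun q _ => by split <;> norm_num) hq1)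
      rw [if_pos hq2]
    have h3 : (n : ℝ) ≤ (n : ℝ) * _ := le_mul_of_one_le_right (Nat.cast_nonneg n) h2
    have : (0 : ℝ) ≤ (n : ℝ) / q₀ := by positivity
    linarith
  · have hcard : G.card ≤ (range (n / q₀ + 1)).card := by
      refine card_le_card_of_injOn (fun b => b / q₀) (fun b hb => ?_) (fun b hb b' hb' he => ?_)
      · exact mem_range.2 (Nat.lt_succ_of_le (Nat.div_le_div_right
          (mem_Icc.1 (mem_filter.1 hb).1).2))
      · by_contra hne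
        wlog hlt : b < b' generalizing b b'
        · exact this b' hb' b hb he.symm (Ne.symm hne) (by omega)
        obtain ⟨-, m, hm⟩ := mem_filter.1 hb
        obtain ⟨-, m', hm'⟩ := mem_filter.1 hb'
        have e1 := Nat.mod_add_div b q₀
        have e2 := Nat.mod_add_div b' q₀
        have e3 := Nat.mod_lt b' hq
        simp only at he
        rw [he] at e1
        refine hbad ⟨b' - b, mem_Icc.2 ⟨by omega, by omega⟩, m' - m, ?_⟩
        rw [Nat.cast_sub hlt.le, Int.cast_sub]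
        rw [abs_le] at hm hm' ⊢
        constructor <;> linarith
    rw [card_range] at hcard
    have h1 : (G.card : ℝ) ≤ ((n / q₀ : ℕ) : ℝ) + 1 := by exact_mod_cast hcard
    have h2 : ((n / q₀ : ℕ) : ℝ) ≤ (n : ℝ) / q₀ := Nat.cast_div_le
    have := mul_nonneg (Nat.cast_nonneg n : (0 : ℝ) ≤ n) hsum0
    linarith

lemma sum_three_comm {α β : Type*} (A : Finset α) (B : Finset β) (F : α → α → β → ℝ) :
    ∑ d ∈ A, ∑ e ∈ A, ∑ q ∈ B, F d e q = ∑ q ∈ B, ∑ e ∈ A, ∑ d ∈ A, F d e q :=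
  (Finset.sum_congr rfl fun _ _ => Finset.sum_comm).trans
    (Finset.sum_comm.trans (Finset.sum_congr rfl fun _ _ => Finset.sum_comm))

/-- The averaged square of the right degree, when the own parts are long. -/
lemma psi_sum_le {γ y X₀ : ℝ} {N T R q₀ n P : ℕ} (hN : N ≠ 0) (hq : 0 < q₀)
    (hX₀ : ∀ (q : ℕ) (t : ℝ), q ∈ Icc 1 q₀ → ∀ F ⊆ N.divisors,
      (∀ d ∈ F, 4 ^ R ≤ N / d ∧ N / d ≤ T ∧
        ∃ m : ℤ, |((N / d : ℕ) : ℝ) * ((P * q : ℕ) : ℝ) * γ - t - m| ≤ 4 * y) →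
      ∑ d ∈ F, (d.totient : ℝ) / (N : ℝ) ≤ X₀) :
    ∑ b ∈ Icc 1 n, (∑ d ∈ N.divisors.filter (fun d => 4 ^ R ≤ N / d ∧ N / d ≤ T),
        ∑ d' ∈ N.divisors.filter (fun d => 4 ^ R ≤ N / d ∧ N / d ≤ T),
          if ∃ m : ℤ, |(b : ℝ) * ((((N / d : ℕ) : ℝ) - ((N / d' : ℕ) : ℝ)) * (P : ℝ) * γ) - m|
              ≤ 2 * y
          then (d.totient : ℝ) / (N : ℝ) * ((d'.totient : ℝ) / (N : ℝ)) else 0)
      ≤ (n : ℝ) / q₀ + 1 + (n : ℝ) * ((q₀ : ℝ) * max X₀ 0) := by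
  set Dc := N.divisors.filter (fun d => 4 ^ R ≤ N / d ∧ N / d ≤ T) with hDc
  set ph : ℕ → ℝ := fun d => (d.totient : ℝ) / (N : ℝ) with hph
  have hph0 : ∀ d, 0 ≤ ph d := fun d => by positivity
  set θ : ℕ → ℕ → ℝ := fun d d' =>
    (((N / d : ℕ) : ℝ) - ((N / d' : ℕ) : ℝ)) * (P : ℝ) * γ with hθ
  have hDc1 : ∑ d ∈ Dc, ph d ≤ 1 := sum_totient_subset_le (filter_subset _ _)
  have hDc0 : 0 ≤ ∑ d ∈ Dc, ph d := sum_nonneg fun d _ => hph0 d
  calc ∑ b ∈ Icc 1 n, ∑ d ∈ Dc, ∑ d' ∈ Dc,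
        (if ∃ m : ℤ, |(b : ℝ) * θ d d' - m| ≤ 2 * y then ph d * ph d' else 0)
      = ∑ d ∈ Dc, ∑ d' ∈ Dc, ph d * ph d'
          * (((Icc 1 n).filter fun b : ℕ => ∃ m : ℤ, |(b : ℝ) * θ d d' - m| ≤ 2 * y).card : ℝ) := by
        rw [sum_comm]
        refine sum_congr rfl fun d _ => ?_
        rw [sum_comm]
        refine sum_congr rfl fun d' _ => ?_
        rw [← sum_filter, sum_const, nsmul_eq_mul, mul_comm]
    _ ≤ ∑ d ∈ Dc, ∑ d' ∈ Dc, ph d * ph d' * ((n : ℝ) / q₀ + 1 + (n : ℝ) * ∑ q ∈ Icc 1 q₀,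
          if ∃ m : ℤ, |(q : ℝ) * θ d d' - m| ≤ 2 * (2 * y) then (1 : ℝ) else 0) :=
        sum_le_sum fun d _ => sum_le_sum fun d' _ =>
          mul_le_mul_of_nonneg_left (sparse_count_le hq) (mul_nonneg (hph0 d) (hph0 d'))
    _ = ((n : ℝ) / q₀ + 1) * ((∑ d ∈ Dc, ph d) * ∑ d ∈ Dc, ph d)
        + (n : ℝ) * ∑ q ∈ Icc 1 q₀, ∑ d' ∈ Dc, ph d' *
            ∑ d ∈ Dc.filter (fun d => ∃ m : ℤ, |(q : ℝ) * θ d d' - m| ≤ 2 * (2 * y)), ph d := by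
        simp only [mul_add, sum_add_distrib, sum_filter]
        refine congrArg₂ (· + ·) ?_ ?_
        · rw [sum_mul_sum, mul_sum, ← sum_add_distrib]
          refine sum_congr rfl fun d _ => ?_
          rw [mul_sum, ← sum_add_distrib]
          exact sum_congr rfl fun d' _ => by ring
        · simp only [mul_sum]
          rw [sum_three_comm]
          refine sum_congr rfl fun q _ => sum_congr rfl fun d' _ => sum_congr rfl fun d _ => ?_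
          split <;> ring
    _ ≤ ((n : ℝ) / q₀ + 1) * (1 * 1) + (n : ℝ) * ∑ q ∈ Icc 1 q₀, max X₀ 0 := by
        refine add_le_add (mul_le_mul_of_nonneg_left (mul_le_mul hDc1 hDc1 hDc0 zero_le_one)
          (by positivity)) (mul_le_mul_of_nonneg_left (sum_le_sum fun q hq' => ?_) (Nat.cast_nonneg n))
        refine le_trans (sum_le_sum fun d' _ => mul_le_mul_of_nonneg_left
          ((hX₀ q (((N / d' : ℕ) : ℝ) * ((P * q : ℕ) : ℝ) * γ) hq' _ ((filter_subset _ _).trans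
            (filter_subset _ _)) fun d hd => ?_).trans (le_max_left _ 0)) (hph0 d')) ?_
        · obtain ⟨hd1, m, hm⟩ := mem_filter.1 hd
          refine ⟨(mem_filter.1 hd1).2.1, (mem_filter.1 hd1).2.2, m, ?_⟩
          refine le_trans (le_of_eq ?_) (hm.trans (le_of_eq (by ring)))
          congr 1
          simp only [hθ]
          push_cast
          ring
        · rw [← sum_mul]
          exact mul_le_of_le_one_left (le_max_right _ _) hDc1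
    _ = _ := by
        rw [sum_const, Nat.card_Icc, nsmul_eq_mul, Nat.add_sub_cancel]
        ring

/-- Two degrees whose product is small give a small mass. -/
lemma mass_of_degrees {L A B y X : ℝ} (hA : 0 < A) (hB : 0 < B) (hy : 0 ≤ y)
    (h : L / (4 * A) * (L / (4 * B)) ≤ y ^ 2 * X) :
    L ≤ 4 * (y * Real.sqrt (A * B) * Real.sqrt X) := by
  rw [div_mul_div_comm, div_le_iff₀ (by positivity)] at h
  have e : 4 * (y * Real.sqrt (A * B) * Real.sqrt X) = Real.sqrt (16 * (y ^ 2 * (A * B) * X)) := by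
    rw [Real.sqrt_mul (by norm_num : (0 : ℝ) ≤ 16), Real.sqrt_mul (by positivity) X,
      Real.sqrt_mul (sq_nonneg y), Real.sqrt_sq hy,
      show Real.sqrt (16 : ℝ) = 4 by rw [Real.sqrt_eq_iff_mul_self_eq] <;> norm_num]
  rw [e]
  refine Real.le_sqrt_of_sq_le (le_of_eq_of_le (sq L) (le_trans h (le_of_eq (by ring))))

/-- The size parameters of the sharp terminal case. -/
structure Scale (y : ℝ) (M U V R w : ℕ) : Prop where
  hU : 1 ≤ U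
  hUV : U ^ 8 ≤ V
  hyV : 1 ≤ y * V
  hyU : y * (U : ℝ) ^ 2 ≤ 1
  hD : (((U ^ 8 : ℕ) : ℝ) - 1) * (4 * y) ≤ 1 / 6
  hR : U ^ 8 * (U ^ 8 * V ^ (M + 1)) ^ w ≤ 2 ^ R

/-- The degrees when the right own parts are long. -/
lemma long_own_deg {S : Finset (ℕ × ℕ)} {U V R T : ℕ} {y γ K₀ L₀ Dv Dw a₁ : ℝ} {N b₂ P : ℕ}
    (hy : 0 < y) (ha₁R : 0 < a₁) (hN : N ≠ 0) (hb₂0 : 0 < b₂) (hSne : S.Nonempty)
    (hpos2 : ∀ e ∈ S, 0 < e.2) (hmax₂ : ∀ e ∈ S, own N e.2 ≤ b₂) {e₂ : ℕ × ℕ} (he₂ : e₂ ∈ S)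
    (hb₂ : b₂ = own N e₂.2) (hU : 1 ≤ U) (hU2V : U ^ 2 ≤ V) (hyV : 1 ≤ y * V)
    (hyU : y * (U : ℝ) ^ 2 ≤ 1) (hbV : V < b₂) (hK₀ : 0 ≤ K₀) (hL₀1 : 1 ≤ L₀) (hDv0 : 0 ≤ Dv)
    (hDw0 : 0 ≤ Dw) (hv1 : Dv ≤ y / a₁ * ((S.image fun e => own N e.2).card : ℝ))
    (hX₀ : ∀ (q : ℕ) (t D : ℝ), 0 < q → q ≤ V → D ≤ 4 * y → ∀ F ⊆ N.divisors,
      (∀ d ∈ F, 4 ^ R ≤ N / d ∧ N / d ≤ T ∧
        ∃ m : ℤ, |((N / d : ℕ) : ℝ) * ((P * q : ℕ) : ℝ) * γ - t - m| ≤ D) →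
      ∑ d ∈ F, (d.totient : ℝ) / (N : ℝ) ≤ K₀ * (L₀ / (U : ℝ) ^ 4))
    (hwX : ∀ e₀ ∈ S, ∀ X : ℝ, 0 ≤ X →
      (∀ (t : ℝ) (F : Finset ℕ), F ⊆ N.divisors →
        (∀ d ∈ F, 4 ^ R ≤ N / d ∧ N / d ≤ T ∧ ∃ m : ℤ,
          |((N / d : ℕ) : ℝ) * ((P * own N e₀.2 : ℕ) : ℝ) * γ - t - m| ≤ y) →
        ∑ d ∈ F, (d.totient : ℝ) / (N : ℝ) ≤ X) →
      Dw ≤ y / (own N e₀.2 : ℝ) * (a₁ * X)) :
    Dv * Dw ≤ y ^ 2 * ((4 * (2 + K₀) + 1) * (L₀ / Real.sqrt U)) := by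
  set C₀ : ℝ := 4 * (2 + K₀) with hC₀
  set Bset := S.image (fun e => own N e.2) with hBset
  set n : ℝ := (Bset.card : ℝ) with hn
  have hb₂R : (0 : ℝ) < b₂ := Nat.cast_pos.2 hb₂0
  set Dc := N.divisors.filter (fun d => 4 ^ R ≤ N / d ∧ N / d ≤ T) with hDc
  set Ψ : ℕ → ℝ := fun b => ∑ d ∈ Dc, ∑ d' ∈ Dc,
    if ∃ m : ℤ, |(b : ℝ) * ((((N / d : ℕ) : ℝ) - ((N / d' : ℕ) : ℝ)) * (P : ℝ) * γ) - m|
        ≤ 2 * y
    then (d.totient : ℝ) / (N : ℝ) * ((d'.totient : ℝ) / (N : ℝ)) else 0 with hΨ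
  have hΨ0 : ∀ b, 0 ≤ Ψ b := fun b =>
    sum_nonneg fun d _ => sum_nonneg fun d' _ => by split <;> positivity
  set X := Dv * Dw / y ^ 2 with hX
  have hX0 : 0 ≤ X := by positivity
  have hXb : ∀ b ∈ Bset, X * b ≤ n * Real.sqrt (Ψ b) := by
    intro b hb
    obtain ⟨e₀, he₀, rfl⟩ := mem_image.1 hb
    have h2 := hwX e₀ he₀ (Real.sqrt (Ψ (own N e₀.2))) (Real.sqrt_nonneg _) fun t F hF hFh => by
      refine Real.le_sqrt_of_sq_le ?_
      rw [sq, sum_mul_sum]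
      refine le_trans ?_ (sum_le_sum_of_subset_of_nonneg
        (fun d hd => mem_filter.2 ⟨hF hd, (hFh d hd).1, (hFh d hd).2.1⟩)
        fun d _ _ => sum_nonneg fun d' _ => by split <;> positivity)
      refine sum_le_sum fun d hd => le_trans ?_ (sum_le_sum_of_subset_of_nonneg
        (fun d' hd' => mem_filter.2 ⟨hF hd', (hFh d' hd').1, (hFh d' hd').2.1⟩)
        fun d' _ _ => by split <;> positivity)
      refine sum_le_sum fun d' hd' => le_of_eq (if_pos ?_).symm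
      obtain ⟨m, hm⟩ := (hFh d hd).2.2
      obtain ⟨m', hm'⟩ := (hFh d' hd').2.2
      refine ⟨m - m', ?_⟩
      push_cast at hm hm' ⊢
      rw [abs_le] at hm hm' ⊢
      constructor <;> linarith
    have hbR : (0 : ℝ) < (own N e₀.2 : ℕ) := Nat.cast_pos.2 (own_pos (hpos2 e₀ he₀))
    have h3 := mul_le_mul hv1 h2 hDw0 (by positivity)
    rw [hX, div_mul_eq_mul_div, div_le_iff₀ (by positivity)]
    refine le_trans (mul_le_mul_of_nonneg_right h3 hbR.le) (le_of_eq ?_)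
    field_simp
  have hXbs : X * b₂ ≤ n := by
    have h2 := hwX e₂ he₂ 1 zero_le_one fun t F hF _ => sum_totient_subset_le hF
    rw [← hb₂, mul_one] at h2
    have h3 := mul_le_mul hv1 h2 hDw0 (by positivity)
    rw [hX, div_mul_eq_mul_div, div_le_iff₀ (by positivity)]
    refine le_trans (mul_le_mul_of_nonneg_right h3 hb₂R.le) (le_of_eq ?_)
    field_simp
  have hsum : X * n ≤ 2 * ∑ b ∈ Icc 1 b₂, Real.sqrt (Ψ b) := by
    have hpos : ∀ b ∈ Bset, 1 ≤ b := fun b hb => by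
      obtain ⟨e, he, rfl⟩ := mem_image.1 hb
      exact own_pos (hpos2 e he)
    have hsub : Bset ⊆ Icc 1 b₂ := fun b hb => by
      obtain ⟨e, he, rfl⟩ := mem_image.1 hb
      exact mem_Icc.2 ⟨own_pos (hpos2 e he), hmax₂ e he⟩
    have h1 : n * (n + 1) ≤ 2 * ∑ b ∈ Bset, (b : ℝ) := by
      rw [hn]
      have h := (Nat.cast_le (α := ℝ)).2 (card_mul_le_two_sum Bset hpos)
      push_cast at h
      exact h
    have h2 : X * ∑ b ∈ Bset, (b : ℝ) ≤ n * ∑ b ∈ Icc 1 b₂, Real.sqrt (Ψ b) := by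
      rw [mul_sum, mul_sum]
      exact (sum_le_sum hXb).trans (sum_le_sum_of_subset_of_nonneg hsub
        fun b _ _ => mul_nonneg (Nat.cast_nonneg _) (Real.sqrt_nonneg _))
    have hn0 : (0 : ℝ) < n := Nat.cast_pos.2 (card_pos.2 (hSne.image _))
    have h3 := mul_le_mul_of_nonneg_left h1 hX0
    refine le_of_mul_le_mul_left ?_ hn0
    linarith [mul_nonneg hX0 hn0.le]
  have hΨsum := psi_sum_le (γ := γ) (y := y) (X₀ := K₀ * (L₀ / (U : ℝ) ^ 4)) (N := N)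
    (T := T) (R := R) (q₀ := U ^ 2) (n := b₂) (P := P) hN
    (pow_pos hU _) fun q t hq F hF hFh =>
      hX₀ q t (4 * y) (mem_Icc.1 hq).1 ((mem_Icc.1 hq).2.trans hU2V) le_rfl F hF hFh
  have hcs : (∑ b ∈ Icc 1 b₂, Real.sqrt (Ψ b)) ^ 2 ≤ (b₂ : ℝ) * ∑ b ∈ Icc 1 b₂, Ψ b := by
    refine le_trans (sq_sum_le_card_mul_sum_sq) (le_of_eq ?_)
    rw [Nat.card_Icc, Nat.add_sub_cancel]
    exact congrArg _ (sum_congr rfl fun b _ => Real.sq_sqrt (hΨ0 b))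
  have havg : (b₂ : ℝ) / ((U ^ 2 : ℕ) : ℝ) + 1
      + (b₂ : ℝ) * (((U ^ 2 : ℕ) : ℝ) * max (K₀ * (L₀ / (U : ℝ) ^ 4)) 0)
      ≤ (b₂ : ℝ) * ((2 + K₀) * (L₀ / (U : ℝ) ^ 2)) := by
    have hU2 : (0 : ℝ) < (U : ℝ) ^ 2 := by positivity
    rw [max_eq_left (by positivity)]
    push_cast
    have hy1 : 1 ≤ (b₂ : ℝ) * y :=
      le_trans hyV (by
        rw [mul_comm]
        exact mul_le_mul_of_nonneg_right (Nat.cast_le.2 hbV.le) hy.le)
    have h1 : (1 : ℝ) ≤ (b₂ : ℝ) * (L₀ / (U : ℝ) ^ 2) := by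
      refine hy1.trans (mul_le_mul_of_nonneg_left ?_ (Nat.cast_nonneg _))
      rw [le_div_iff₀ hU2]
      linarith [hyU]
    have h2 : (b₂ : ℝ) / (U : ℝ) ^ 2 ≤ (b₂ : ℝ) * (L₀ / (U : ℝ) ^ 2) := by
      rw [mul_div_assoc']
      exact div_le_div_of_nonneg_right (le_mul_of_one_le_right (Nat.cast_nonneg _) hL₀1)
        hU2.le
    have h3 : (b₂ : ℝ) * ((U : ℝ) ^ 2 * (K₀ * (L₀ / (U : ℝ) ^ 4)))
        = (b₂ : ℝ) * (K₀ * (L₀ / (U : ℝ) ^ 2)) := by field_simp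
    linarith
  have hX4 : X ^ 4 ≤ C₀ * (L₀ / (U : ℝ) ^ 2) := by
    have h1 : X ^ 2 * b₂ ≤ 2 * ∑ b ∈ Icc 1 b₂, Real.sqrt (Ψ b) := by
      refine le_trans ?_ hsum
      rw [sq, mul_assoc]
      exact mul_le_mul_of_nonneg_left hXbs hX0
    have h2 := pow_le_pow_left₀ (by positivity) h1 2
    rw [mul_pow, mul_pow, ← pow_mul] at h2
    have h3 := mul_le_mul_of_nonneg_left
      (hcs.trans (mul_le_mul_of_nonneg_left (hΨsum.trans havg) (Nat.cast_nonneg _)))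
      (by norm_num : (0 : ℝ) ≤ 2 ^ 2)
    refine le_of_mul_le_mul_right ?_ (by positivity : (0 : ℝ) < (b₂ : ℝ) ^ 2)
    refine (h2.trans h3).trans (le_of_eq ?_)
    rw [hC₀]; ring
  have hgoal : X ≤ (C₀ + 1) * (L₀ / Real.sqrt U) := by
    refine le_of_pow_le_pow_left₀ four_ne_zero (by rw [hC₀]; positivity) (hX4.trans ?_)
    rw [mul_pow, div_pow, show Real.sqrt (U : ℝ) ^ 4 = (U : ℝ) ^ 2 by
      rw [show (4 : ℕ) = 2 * 2 by norm_num, pow_mul, Real.sq_sqrt (by linarith)]]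
    refine mul_le_mul ?_ (div_le_div_of_nonneg_right (le_self_pow₀ hL₀1 (by norm_num))
      (by positivity)) (by positivity) (by rw [hC₀]; positivity)
    exact le_trans (by linarith) (le_self_pow₀ (by rw [hC₀]; linarith) (by norm_num))
  rw [hX, div_le_iff₀ (by positivity)] at hgoal
  linarith

/-- Pairs whose left cofactor is long. -/
theorem exists_large_cof {γ c : ℝ} {w : ℕ} (hdio : Dio γ c w) (M : ℕ) :
    ∃ K : ℝ, 0 ≤ K ∧ ∀ (π : Par) (Pr : Finset ℕ) (k : ℕ → ℕ) (f h : ℕ → ℝ) (P Q U V R : ℕ)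
      (E : Finset (ℕ × ℕ)) (Av Bw : Finset ℕ), π.γ = γ → 0 < π.y → 1 ≤ π.T →
      Scale π.y M U V R w → 0 < P → P ≤ V ^ M → (∀ p ∈ Pr, p.Prime) →
      (∀ e ∈ E, TPair π Pr k f h e) → (∀ e ∈ E, Adm π P Q f h e) →
      (∀ e ∈ E, e.1 ∈ Av) → (∀ e ∈ E, e.2 ∈ Bw) → (∀ v ∈ Av, 0 ≤ f v) → (∀ w ∈ Bw, 0 ≤ h w) →
      (∀ e ∈ E, 4 ^ R ≤ Nk Pr k / e.1.gcd (Nk Pr k)) →
      ∑ e ∈ E, mu f e.1 * mu h e.2 ≤ K * (π.y * Real.sqrt ((∑ v ∈ Av, mu f v) * ∑ w ∈ Bw, mu h w)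
        * Real.sqrt (llog π.T / Real.sqrt U)) := by
  obtain ⟨K₀, hK₀, hone⟩ := exists_one_var_le hdio
  set C₀ : ℝ := 4 * (2 + K₀) with hC₀
  refine ⟨4 * Real.sqrt (C₀ + 1), by positivity, ?_⟩
  intro π Pr k f h P Q U V R E Av Bw hγ hy hT hs hP hPV hPr hE hA hAv hBw hf hh hlarge
  set N := Nk Pr k with hN
  set L := ∑ e ∈ E, mu f e.1 * mu h e.2 with hLdef
  set A := ∑ v ∈ Av, mu f v with hAdef
  set B := ∑ w ∈ Bw, mu h w with hBdef
  set L₀ := llog (π.T : ℝ) with hL₀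
  have hL₀1 : 1 ≤ L₀ := one_le_llog (Nat.one_le_cast.2 hT)
  have hU1 : (1 : ℝ) ≤ U := Nat.one_le_cast.2 hs.hU
  have hA0 : 0 ≤ A := sum_nonneg fun v hv => mu_nonneg (hf v hv)
  have hB0 : 0 ≤ B := sum_nonneg fun w hw => mu_nonneg (hh w hw)
  rcases le_or_gt L 0 with hL | hL
  · exact hL.trans (by positivity)
  have hAB : 0 < A * B := hL.trans_le (mass_le_mul hAv hBw hf hh)
  have hApos : 0 < A := pos_of_mul_pos_left hAB hB0
  have hBpos : 0 < B := pos_of_mul_pos_right hAB hA0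
  obtain ⟨S, hSE, hSne, -, hdv, hdw⟩ := exists_pruned (x := mu f) (y := mu h) hAv hBw
    (fun v hv => mu_nonneg (hf v hv)) (fun w hw => mu_nonneg (hh w hw)) hApos hBpos hL
  set Dv := L / (4 * A) with hDv
  set Dw := L / (4 * B) with hDw
  have hDv0 : 0 ≤ Dv := by positivity
  have hDw0 : 0 ≤ Dw := by positivity
  obtain ⟨e₁, he₁, hmax₁⟩ := exists_max_image S (fun e => own N e.1) hSne
  obtain ⟨e₂, he₂, hmax₂⟩ := exists_max_image S (fun e => own N e.2) hSne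
  set a₁ := own N e₁.1 with ha₁
  set b₂ := own N e₂.2 with hb₂
  have ha₁0 : 0 < a₁ := own_pos (hE e₁ (hSE he₁)).1
  have hb₂0 : 0 < b₂ := own_pos (hE e₂ (hSE he₂)).2.1
  have ha₁R : (0 : ℝ) < a₁ := Nat.cast_pos.2 ha₁0
  have hb₂R : (0 : ℝ) < b₂ := Nat.cast_pos.2 hb₂0
  set Bset := S.image (fun e => own N e.2) with hBset
  set n : ℝ := (Bset.card : ℝ) with hn
  have hnb : n ≤ b₂ := card_own_le (g := Prod.snd) (fun e he => (hE e (hSE he)).2.1) hmax₂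
  have hcA : ((S.image fun e => own N e.1).card : ℝ) ≤ a₁ :=
    card_own_le (g := Prod.fst) (fun e he => (hE e (hSE he)).1) hmax₁
  have hv1 : Dv ≤ π.y / a₁ * n := (hdv e₁ he₁).trans
    (vdeg_le hy.le hPr (fun e he => hE e (hSE he)) e₁)
  have hwX : ∀ e₀ ∈ S, ∀ X : ℝ, 0 ≤ X →
      (∀ (t : ℝ) (F : Finset ℕ), F ⊆ N.divisors →
        (∀ d ∈ F, 4 ^ R ≤ N / d ∧ N / d ≤ π.T ∧ ∃ m : ℤ,
          |((N / d : ℕ) : ℝ) * ((P * own N e₀.2 : ℕ) : ℝ) * π.γ - t - m| ≤ π.y) →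
        ∑ d ∈ F, (d.totient : ℝ) / (N : ℝ) ≤ X) →
      Dw ≤ π.y / (own N e₀.2 : ℝ) * ((a₁ : ℝ) * X) := fun e₀ he₀ X hX0 hX =>
    (hdw e₀ he₀).trans (le_trans (wdeg_le hy.le hPr (fun e he => hE e (hSE he))
      (fun e he => hA e (hSE he)) e₀ (fun e he => hlarge e (hSE he)) hX)
      (mul_le_mul_of_nonneg_left (mul_le_mul_of_nonneg_right hcA hX0) (by positivity)))
  -- anticoncentration at small frequencies
  have hX₀ : ∀ (q : ℕ) (t D : ℝ), 0 < q → q ≤ V → D ≤ 4 * π.y → ∀ F ⊆ N.divisors,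
      (∀ d ∈ F, 4 ^ R ≤ N / d ∧ N / d ≤ π.T ∧
        ∃ m : ℤ, |((N / d : ℕ) : ℝ) * ((P * q : ℕ) : ℝ) * π.γ - t - m| ≤ D) →
      ∑ d ∈ F, (d.totient : ℝ) / (N : ℝ) ≤ K₀ * (L₀ / (U : ℝ) ^ 4) := by
    intro q t D hq hqV hDy F hF hFh
    refine (hone N π.T (U ^ 8) (P * q) R t D (Nk_pos hPr).ne' hT (Nat.one_le_pow _ _ hs.hU)
      (Nat.mul_pos hP hq) ?_ ?_ F hF (by rw [hγ] at hFh; exact hFh)).trans ?_
    · refine le_trans (mul_le_mul_of_nonneg_left hDy ?_) hs.hD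
      exact sub_nonneg.2 (Nat.one_le_cast.2 (Nat.one_le_pow _ _ hs.hU))
    · have h1 : U ^ 8 * (U ^ 8 * (P * q)) ^ w ≤ U ^ 8 * (U ^ 8 * V ^ (M + 1)) ^ w := by
        refine Nat.mul_le_mul_left _ (Nat.pow_le_pow_left (Nat.mul_le_mul_left _ ?_) _)
        rw [pow_succ]
        exact Nat.mul_le_mul hPV hqV
      exact_mod_cast h1.trans hs.hR
    · refine mul_le_mul_of_nonneg_left (le_trans ?_ le_rfl) hK₀
      rw [← hL₀, Real.sqrt_div (by linarith), show ((U ^ 8 : ℕ) : ℝ) = ((U : ℝ) ^ 4) ^ 2 by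
        push_cast; ring, Real.sqrt_sq (by positivity)]
      exact div_le_div_of_nonneg_right (sqrt_le_self' hL₀1) (by positivity)
  have hU2V : U ^ 2 ≤ V := (Nat.pow_le_pow_right hs.hU (by norm_num)).trans hs.hUV
  have hUV1 : U ≤ V := (Nat.le_self_pow (by norm_num) U).trans hs.hUV
  have hsU : (1 : ℝ) ≤ Real.sqrt U := Real.one_le_sqrt.2 hU1
  have hsqU : Real.sqrt U * Real.sqrt U = U := Real.mul_self_sqrt (by linarith)
  have key : Dv * Dw ≤ π.y ^ 2 * ((C₀ + 1) * (L₀ / Real.sqrt U)) := by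
    rcases le_or_gt b₂ V with hbV | hbV
    · -- short own parts on the right
      have h2 := hwX e₂ he₂ (K₀ * (L₀ / (U : ℝ) ^ 4)) (by positivity) fun t F hF hFh =>
        hX₀ b₂ t π.y hb₂0 hbV (by linarith) F hF hFh
      rw [← hb₂] at h2
      refine (mul_le_mul hv1 h2 hDw0 (by positivity)).trans ?_
      calc π.y / a₁ * n * (π.y / b₂ * ((a₁ : ℝ) * (K₀ * (L₀ / (U : ℝ) ^ 4))))
          = π.y ^ 2 * ((n / b₂) * (K₀ * (L₀ / (U : ℝ) ^ 4))) := by field_simp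
        _ ≤ π.y ^ 2 * (1 * ((C₀ + 1) * (L₀ / Real.sqrt U))) := by
            refine mul_le_mul_of_nonneg_left (mul_le_mul ((div_le_one hb₂R).2 hnb) ?_
              (by positivity) zero_le_one) (sq_nonneg _)
            refine mul_le_mul (by rw [hC₀]; linarith)
              (div_le_div_of_nonneg_left (by linarith) (by linarith) ?_) (by positivity)
              (by rw [hC₀]; linarith)
            exact le_trans (sqrt_le_self' hU1) (le_self_pow₀ hU1 (by norm_num))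
        _ = _ := by ring
    · -- long own parts on the right
      exact long_own_deg hy ha₁R (Nk_pos hPr).ne' hb₂0 hSne (fun e he => (hE e (hSE he)).2.1)
        hmax₂ he₂ hb₂ hs.hU hU2V hs.hyV hs.hyU hbV hK₀ hL₀1 hDv0 hDw0 hv1 hX₀ hwX
  refine (mass_of_degrees hApos hBpos hy.le key).trans
    (le_of_eq ?_)
  rw [Real.sqrt_mul (show (0 : ℝ) ≤ C₀ + 1 by rw [hC₀]; positivity)]
  ring

/-- A long own part on the right among short cofactors. -/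
lemma short_cof_deg {γ c : ℝ} {w : ℕ} (hdio : Dio γ c w) (hγ : π.γ = γ) (hy : 0 < π.y)
    {M U V R : ℕ} (hs : Scale π.y M U V R w) (hP : 0 < P) (hPV : P ≤ V ^ M)
    (hPr : ∀ p ∈ Pr, p.Prime) {S : Finset (ℕ × ℕ)} (hE : ∀ e ∈ S, TPair π Pr k f h e)
    (hA : ∀ e ∈ S, Adm π P Q f h e)
    (hsmall : ∀ e ∈ S, Nk Pr k / e.1.gcd (Nk Pr k) < 4 ^ R) {Dv Dw : ℝ} (hDw0 : 0 ≤ Dw)
    (hdv : ∀ e₀ ∈ S, Dv ≤ ∑ e ∈ S.filter (fun e => e.1 = e₀.1), mu h e.2)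
    (hdw : ∀ e₀ ∈ S, Dw ≤ ∑ e ∈ S.filter (fun e => e.2 = e₀.2), mu f e.1) {e₃ : ℕ × ℕ}
    (he₃ : e₃ ∈ S)
    (hbig : U * (U ^ 8 * (V ^ M * 4 ^ R)) ^ w < own (Nk Pr k) e₃.2) :
    Dv * Dw ≤ π.y ^ 2 * ((4 + 2 / c) / Real.sqrt U) := by
  have hc : 0 < c := hdio.1
  set N := Nk Pr k with hN
  obtain ⟨e₁, he₁, hmax₁⟩ := exists_max_image S (fun e => own N e.1) ⟨e₃, he₃⟩
  obtain ⟨e₂, he₂, hmax₂⟩ := exists_max_image S (fun e => own N e.2) ⟨e₃, he₃⟩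
  set a₁ := own N e₁.1 with ha₁
  set b₂ := own N e₂.2 with hb₂
  have ha₁R : (0 : ℝ) < a₁ := Nat.cast_pos.2 (own_pos (hE e₁ he₁).1)
  have hb₂R : (0 : ℝ) < b₂ := Nat.cast_pos.2 (own_pos (hE e₂ he₂).2.1)
  have hU1 : (1 : ℝ) ≤ U := Nat.one_le_cast.2 hs.hU
  set H := U ^ 8 with hH
  have hH1 : 1 ≤ H := Nat.one_le_pow _ _ hs.hU
  have hH1R : (1 : ℝ) ≤ H := Nat.one_le_cast.2 hH1
  set c₁ := N / e₁.1.gcd N with hc₁
  have hc₁0 : 0 < c₁ := (edge_facts hPr (hE e₁ he₁) (hA e₁ he₁)).2.2.2.2.1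
  set F₁ := S.filter (fun e => e.1 = e₁.1) with hF₁
  set Bset := S.image (fun e => own N e.2) with hBset
  set hitd : ℕ → ℕ → Prop := fun b d => ∃ m : ℤ,
    |(b : ℝ) * ((P * c₁ : ℕ) : ℝ) * γ
      - ((Q : ℕ) : ℝ) * (a₁ : ℝ) * ((N / d : ℕ) : ℝ) * γ - m| ≤ π.y with hhitd
  have hdeg := deg_le hy.le hPr (F := F₁) (v := e₁.1)
    (fun e he => ⟨hE e (mem_filter.1 he).1, (mem_filter.1 he).2⟩) (Bs := Bset)
    (fun e he => mem_image_of_mem _ (mem_filter.1 he).1)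
    (G := fun b => ∑ d ∈ N.divisors.filter (hitd b), (d.totient : ℝ) / (N : ℝ))
    (fun b _ => sum_le_sum_of_subset_of_nonneg (fun d hd => by
      obtain ⟨e, he, rfl⟩ := mem_image.1 hd
      obtain ⟨he1, he2⟩ := mem_filter.1 he
      obtain ⟨heS, hev⟩ := mem_filter.1 he1
      obtain ⟨-, -, -, hd2, -, -, -, -, m, hm⟩ := edge_facts hPr (hE e heS) (hA e heS)
      refine mem_filter.2 ⟨hd2, m, le_of_lt ?_⟩
      rw [← hN, hev, ← ha₁, ← hc₁, he2, hγ] at hm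
      refine lt_of_eq_of_lt ?_ hm
      congr 1
      push_cast
      simp only [← hN]
      ring) fun d _ _ => by positivity)
  have hcount : ∀ d : ℕ, ((Bset.filter (fun b => hitd b d)).card : ℝ)
      ≤ (b₂ : ℝ) * ((4 + 2 / c) / Real.sqrt U) := by
    intro d
    set k₁ := P * c₁ with hk₁
    have hk₁0 : 0 < k₁ := Nat.mul_pos hP hc₁0
    have hD : ((H : ℝ) - 1) * π.y ≤ 1 / 6 :=
      le_trans (mul_le_mul_of_nonneg_left (by linarith) (by linarith)) hs.hD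
    set t := ((Q : ℕ) : ℝ) * (a₁ : ℝ) * ((N / d : ℕ) : ℝ) * γ with ht
    have h1 : ((Bset.filter (fun b => hitd b d)).card : ℝ)
        ≤ ∑ m ∈ Icc 1 b₂, kern H ((m : ℝ) * (k₁ : ℝ) * γ - t) := by
      rw [← nsmul_one, ← sum_const]
      refine le_trans (sum_le_sum fun b hb => ?_) (sum_le_sum_of_subset_of_nonneg
        (fun b hb => ?_) fun b _ _ => kern_nonneg _ _)
      · obtain ⟨m, hm⟩ := (mem_filter.1 hb).2
        exact one_le_kern hH1 m hm hD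
      · obtain ⟨e, he, rfl⟩ := mem_image.1 (mem_filter.1 hb).1
        exact mem_Icc.2 ⟨own_pos (hE e he).2.1, hmax₂ e he⟩
    have h2 := (abs_le.1 (kern_sum_le hdio hH1 hk₁0 t b₂)).2
    have h3 : (U : ℝ) * ((H : ℝ) * k₁) ^ w ≤ b₂ := by
      have : U * (H * k₁) ^ w ≤ b₂ := by
        refine le_trans ?_ ((le_of_lt hbig).trans (hmax₂ e₃ he₃))
        refine Nat.mul_le_mul_left _ (Nat.pow_le_pow_left (Nat.mul_le_mul_left _ ?_) _)
        exact Nat.mul_le_mul hPV (hsmall e₁ he₁).le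
      exact_mod_cast this
    have hsU : Real.sqrt U ≤ (U : ℝ) := sqrt_le_self' hU1
    have hsU0 : 0 < Real.sqrt U := Real.sqrt_pos.2 (by linarith)
    have h4 : 4 / (H : ℝ) * b₂ ≤ 4 / Real.sqrt U * b₂ := by
      refine mul_le_mul_of_nonneg_right (div_le_div_of_nonneg_left (by norm_num) hsU0
        (hsU.trans ?_)) hb₂R.le
      rw [hH, Nat.cast_pow]
      exact le_self_pow₀ hU1 (by norm_num)
    have h5 : 2 * ((H : ℝ) * k₁) ^ w / c ≤ 2 / c * ((b₂ : ℝ) / Real.sqrt U) := by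
      rw [mul_div_right_comm]
      refine mul_le_mul_of_nonneg_left ?_ (by positivity)
      rw [le_div_iff₀ hsU0, mul_comm]
      exact le_trans (mul_le_mul_of_nonneg_right hsU (by positivity)) h3
    refine h1.trans ?_
    rw [show (b₂ : ℝ) * ((4 + 2 / c) / Real.sqrt U)
      = 4 / Real.sqrt U * b₂ + 2 / c * ((b₂ : ℝ) / Real.sqrt U) by field_simp]
    linarith
  have hG : ∑ b ∈ Bset, ∑ d ∈ N.divisors.filter (hitd b), (d.totient : ℝ) / (N : ℝ)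
      ≤ (b₂ : ℝ) * ((4 + 2 / c) / Real.sqrt U) := by
    simp only [sum_filter]
    rw [sum_comm]
    refine le_trans (sum_le_sum fun d _ => ?_) (le_trans (le_of_eq (sum_mul _ _ _).symm)
      (mul_le_of_le_one_left (by positivity) (sum_totient_subset_le (Finset.Subset.refl N.divisors))))
    rw [← sum_filter, sum_const, nsmul_eq_mul, mul_comm]
    exact mul_le_mul_of_nonneg_left (hcount d) (by positivity)
  have h2 : Dw ≤ π.y / b₂ * a₁ := by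
    refine (hdw e₂ he₂).trans ?_
    have hswap := vdeg_le (f := h) (h := f) hy.le hPr (S := S.image Prod.swap)
      (fun x hx => by obtain ⟨e, he, rfl⟩ := mem_image.1 hx; exact (hE e he).swap) e₂.swap
    rw [filter_image, sum_image Prod.swap_injective.injOn, image_image] at hswap
    simp only [Prod.fst_swap, Prod.snd_swap, Function.comp_def] at hswap
    exact hswap.trans (mul_le_mul_of_nonneg_left
      (card_own_le (g := Prod.fst) (fun e he => (hE e he).1) hmax₁) (by positivity))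
  have h1 : Dv ≤ π.y / a₁ * ((b₂ : ℝ) * ((4 + 2 / c) / Real.sqrt U)) :=
    ((hdv e₁ he₁).trans hdeg).trans (mul_le_mul_of_nonneg_left hG (by positivity))
  refine (mul_le_mul h1 h2 hDw0 (by positivity)).trans (le_of_eq ?_)
  field_simp

/-- Pairs with two short cofactors. -/
theorem exists_short_cof {γ c : ℝ} {w : ℕ} (hdio : Dio γ c w) (M : ℕ) :
    ∃ K : ℝ, 0 ≤ K ∧ ∀ (π : Par) (Pr : Finset ℕ) (k : ℕ → ℕ) (f h : ℕ → ℝ) (P Q U V R : ℕ)
      (E : Finset (ℕ × ℕ)) (Av Bw : Finset ℕ), π.γ = γ → 0 < π.y → 1 ≤ π.W →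
      Scale π.y M U V R w → 0 < P → P ≤ V ^ M → 0 < Q → Q ≤ V ^ M → (∀ p ∈ Pr, p.Prime) →
      (∀ e ∈ E, TPair π Pr k f h e) → (∀ e ∈ E, Adm π P Q f h e) →
      (∀ e ∈ E, e.1 ∈ Av) → (∀ e ∈ E, e.2 ∈ Bw) → (∀ v ∈ Av, 0 ≤ f v) → (∀ w ∈ Bw, 0 ≤ h w) →
      (∀ e ∈ E, Nk Pr k / e.1.gcd (Nk Pr k) < 4 ^ R ∧ Nk Pr k / e.2.gcd (Nk Pr k) < 4 ^ R) →
      ∑ e ∈ E, mu f e.1 * mu h e.2 ≤ K * (π.y * Real.sqrt ((∑ v ∈ Av, mu f v) * ∑ w ∈ Bw, mu h w)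
          * Real.sqrt (1 / Real.sqrt U))
        + 2 * (π.y ^ 2 * (Real.sqrt (2 / Z π P Q)
          * Hs (4 ^ R * (U * (U ^ 8 * (V ^ M * 4 ^ R)) ^ w)) ^ 5)) := by
  have hc : 0 < c := hdio.1
  refine ⟨4 * Real.sqrt (4 + 2 / c), by positivity, ?_⟩
  intro π Pr k f h P Q U V R E Av Bw hγ hy hW hs hP hPV hQ hQV hPr hE hA hAv hBw hf hh hsmall
  set N := Nk Pr k with hN
  set L := ∑ e ∈ E, mu f e.1 * mu h e.2 with hLdef
  set A := ∑ v ∈ Av, mu f v with hAdef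
  set B := ∑ w ∈ Bw, mu h w with hBdef
  set Y := U * (U ^ 8 * (V ^ M * 4 ^ R)) ^ w with hY
  have hA0 : 0 ≤ A := sum_nonneg fun v hv => mu_nonneg (hf v hv)
  have hB0 : 0 ≤ B := sum_nonneg fun w hw => mu_nonneg (hh w hw)
  have hlow0 : 0 ≤ π.y ^ 2 * (Real.sqrt (2 / Z π P Q) * Hs (4 ^ R * Y) ^ 5) :=
    mul_nonneg (sq_nonneg _) (mul_nonneg (Real.sqrt_nonneg _) (pow_nonneg (Hs_nonneg _) _))
  rcases le_or_gt L 0 with hL | hL
  · exact hL.trans (add_nonneg (by positivity) (by positivity))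
  have hAB : 0 < A * B := hL.trans_le (mass_le_mul hAv hBw hf hh)
  have hApos : 0 < A := pos_of_mul_pos_left hAB hB0
  have hBpos : 0 < B := pos_of_mul_pos_right hAB hA0
  obtain ⟨S, hSE, hSne, hSL, hdv, hdw⟩ := exists_pruned (x := mu f) (y := mu h) hAv hBw
    (fun v hv => mu_nonneg (hf v hv)) (fun w hw => mu_nonneg (hh w hw)) hApos hBpos hL
  have hfin : ∀ Dp, Dp ≤ π.y ^ 2 * ((4 + 2 / c) / Real.sqrt U) →
      Dp = L / (4 * A) * (L / (4 * B)) →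
      L ≤ 4 * Real.sqrt (4 + 2 / c) * (π.y * Real.sqrt (A * B) * Real.sqrt (1 / Real.sqrt U))
        + 2 * (π.y ^ 2 * (Real.sqrt (2 / Z π P Q) * Hs (4 ^ R * Y) ^ 5)) := by
    intro Dp h1 h2
    subst h2
    refine le_trans (mass_of_degrees hApos hBpos hy.le h1) ?_
    rw [show (4 + 2 / c) / Real.sqrt U = (4 + 2 / c) * (1 / Real.sqrt U) by ring,
      Real.sqrt_mul (show (0 : ℝ) ≤ 4 + 2 / c by positivity)]
    linarith
  by_cases hb : ∃ e ∈ S, Y < own N e.2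
  · obtain ⟨e₃, he₃, hbig⟩ := hb
    exact hfin _ (short_cof_deg hdio hγ hy hs hP hPV hPr (fun e he => hE e (hSE he))
      (fun e he => hA e (hSE he)) (fun e he => (hsmall e (hSE he)).1) (by positivity) hdv hdw he₃
      hbig) rfl
  by_cases ha : ∃ e ∈ S, Y < own N e.1
  · obtain ⟨e₃, he₃, hbig⟩ := ha
    have h1 := short_cof_deg (f := h) (h := f) (P := Q) (Q := P) (S := S.image Prod.swap) hdio hγ
      hy hs hQ hQV hPr
      (fun x hx => by obtain ⟨e, he, rfl⟩ := mem_image.1 hx; exact (hE e (hSE he)).swap)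
      (fun x hx => by obtain ⟨e, he, rfl⟩ := mem_image.1 hx; exact (hA e (hSE he)).swap)
      (fun x hx => by obtain ⟨e, he, rfl⟩ := mem_image.1 hx; exact (hsmall e (hSE he)).2)
      (Dv := L / (4 * B)) (Dw := L / (4 * A)) (by positivity)
      (fun x hx => by
        obtain ⟨e, he, rfl⟩ := mem_image.1 hx
        rw [filter_image, sum_image Prod.swap_injective.injOn]
        exact hdw e he)
      (fun x hx => by
        obtain ⟨e, he, rfl⟩ := mem_image.1 hx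
        rw [filter_image, sum_image Prod.swap_injective.injOn]
        exact hdv e he)
      (mem_image_of_mem _ he₃) hbig
    exact hfin _ h1 (mul_comm _ _)
  push Not at hb ha
  set π' : Par := { π with T := 4 ^ R * Y } with hπ'
  have h := terminal_omega (π := π') (Pr := Pr) (k := k) (f := f) (h := h) hy.le hW hPr hP hQ
    (E := S) (fun e he => hE e (hSE he)) fun e he => by
      obtain ⟨h1, h2, h3, h4, h5⟩ := hA e (hSE he)
      refine ⟨h1, h2, ?_, ?_, h5⟩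
      · show _ ≤ 4 ^ R * Y
        rw [(hE e (hSE he)).cofactor hPr, mul_comm]
        exact Nat.mul_le_mul (hsmall e (hSE he)).1.le (hb e he)
      · show _ ≤ 4 ^ R * Y
        rw [(hE e (hSE he)).cofactor' hPr, mul_comm]
        exact Nat.mul_le_mul (hsmall e (hSE he)).2.le (ha e he)
  have hmid : 0 ≤ 4 * Real.sqrt (4 + 2 / c)
      * (π.y * Real.sqrt (A * B) * Real.sqrt (1 / Real.sqrt U)) := by positivity
  have h' : L / 2 ≤ π.y ^ 2 * (Real.sqrt (2 / Z π P Q) * Hs (4 ^ R * Y) ^ 5) := hSL.trans h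
  linarith

end

end Vale.Agent.P028.LogExtra
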