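import Vale.Agent.P028.ErdosVaaler.Limit

/-!
Weak convergence of weighted normalised block counts gives full measure.
-/

namespace Vale.Agent.P028.LogExtra

open Finset MeasureTheory Filter Topology Vale.Agent.P028.ErdosVaaler

noncomputable section

/-- Weighted normalised count of a block on a set. -/
def wb (γ : ℝ) (u ψ : ℕ → ℝ) (F : Finset ℕ) (B : Set ℝ) : ℝ :=
  (∑ q ∈ F, u q * unitMeasure.real (B ∩ A γ (ψ q) q)) / (2 * ∑ q ∈ F, u q * ψ q)

lemma two_mul_wsum_le (γ : ℝ) (u ψ : ℕ → ℝ) (F : Finset ℕ) {B : Set ℝ}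
    (hB : MeasurableSet B) {t : ℝ} (ht : 0 < t) :
    2 * ∑ q ∈ F, u q * unitMeasure.real (B ∩ A γ (ψ q) q) ≤
      t * (∑ q ∈ F, ∑ r ∈ F, u q * u r * unitMeasure.real (A γ (ψ q) q ∩ A γ (ψ r) r))
        + unitMeasure.real B / t := by
  classical
  set ν := unitMeasure with hν
  have hint : ∀ s : Set ℝ, MeasurableSet s →
      Integrable (s.indicator (fun _ => (1 : ℝ))) ν := fun s hs =>
    (integrable_const (1 : ℝ)).indicator hs
  have hval : ∀ s : Set ℝ, MeasurableSet s →
      ∫ x, s.indicator (fun _ => (1 : ℝ)) x ∂ν = ν.real s := fun s hs => by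
    rw [integral_indicator_const _ hs, smul_eq_mul, mul_one]
  set a : ℕ → ℝ → ℝ := fun q => (A γ (ψ q) q).indicator (fun _ => (1 : ℝ)) with ha
  have hmA : ∀ q, MeasurableSet (A γ (ψ q) q) := fun q => measurableSet_A γ (ψ q) q
  have e1 : ∀ q x, B.indicator (fun _ => (1 : ℝ)) x * (u q * a q x)
      = u q * (B ∩ A γ (ψ q) q).indicator (fun _ => (1 : ℝ)) x := fun q x => by
    by_cases h1 : x ∈ B <;> by_cases h2 : x ∈ A γ (ψ q) q <;> simp [ha, h1, h2]
  have e2 : ∀ q r x, (u q * a q x) * (u r * a r x)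
      = u q * u r * (A γ (ψ q) q ∩ A γ (ψ r) r).indicator (fun _ => (1 : ℝ)) x := fun q r x => by
    by_cases h1 : x ∈ A γ (ψ q) q <;> by_cases h2 : x ∈ A γ (ψ r) r <;> simp [ha, h1, h2]
  have hpt : ∀ x, 2 * ∑ q ∈ F, u q * (B ∩ A γ (ψ q) q).indicator (fun _ => (1 : ℝ)) x
      ≤ t * (∑ q ∈ F, ∑ r ∈ F,
          u q * u r * (A γ (ψ q) q ∩ A γ (ψ r) r).indicator (fun _ => (1 : ℝ)) x)
        + B.indicator (fun _ => (1 : ℝ)) x / t := by
    intro x
    simp only [← e1, ← e2]
    simp only [← mul_sum, ← sum_mul]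
    set f := ∑ q ∈ F, u q * a q x with hf
    by_cases hx : x ∈ B
    · rw [Set.indicator_of_mem hx, one_mul]
      have key : 0 ≤ (t * f - 1) ^ 2 / t := div_nonneg (sq_nonneg _) ht.le
      have e : (t * f - 1) ^ 2 / t = t * (f * f) - 2 * f + 1 / t := by field_simp; ring
      linarith
    · rw [Set.indicator_of_notMem hx, zero_mul, mul_zero, zero_div, add_zero]
      exact mul_nonneg ht.le (mul_self_nonneg f)
  have hL : Integrable (fun x =>
      2 * ∑ q ∈ F, u q * (B ∩ A γ (ψ q) q).indicator (fun _ => (1 : ℝ)) x) ν :=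
    (integrable_finset_sum F fun q _ => (hint _ (hB.inter (hmA q))).const_mul _).const_mul 2
  have hR1 : Integrable (fun x => t * ∑ q ∈ F, ∑ r ∈ F,
      u q * u r * (A γ (ψ q) q ∩ A γ (ψ r) r).indicator (fun _ => (1 : ℝ)) x) ν :=
    (integrable_finset_sum F fun q _ => integrable_finset_sum F fun r _ =>
      (hint _ ((hmA q).inter (hmA r))).const_mul _).const_mul t
  have hR2 : Integrable (fun x => B.indicator (fun _ => (1 : ℝ)) x / t) ν :=
    (hint _ hB).div_const t
  have := integral_mono hL (hR1.add hR2) hpt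
  rw [integral_const_mul, integral_finset_sum F fun q _ => (hint _ (hB.inter (hmA q))).const_mul _,
    integral_add' hR1 hR2, integral_const_mul,
    integral_finset_sum F fun q _ => integrable_finset_sum F fun r _ =>
      (hint _ ((hmA q).inter (hmA r))).const_mul _, integral_div, hval B hB] at this
  simp only [integral_const_mul, hval _ (hB.inter (hmA _))] at this
  refine this.trans (le_of_eq ?_)
  congr 1; congr 1
  refine sum_congr rfl fun q _ => ?_
  rw [integral_finset_sum F fun r _ => (hint _ ((hmA q).inter (hmA r))).const_mul _]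
  exact sum_congr rfl fun r _ => by rw [integral_const_mul, hval _ ((hmA q).inter (hmA r))]

lemma wb_nonneg {γ : ℝ} {u ψ : ℕ → ℝ} (hu : ∀ q, 0 ≤ u q) (h0 : ∀ q, 0 ≤ ψ q) (F : Finset ℕ)
    (B : Set ℝ) : 0 ≤ wb γ u ψ F B :=
  div_nonneg (sum_nonneg fun q _ => mul_nonneg (hu q) measureReal_nonneg)
    (mul_nonneg zero_le_two (sum_nonneg fun q _ => mul_nonneg (hu q) (h0 q)))

lemma wb_le {γ : ℝ} {u ψ : ℕ → ℝ} (hu : ∀ q, 0 ≤ u q) {F : Finset ℕ} {K : ℝ}
    (hS : 1 ≤ ∑ q ∈ F, u q * ψ q) (hK : 0 ≤ K)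
    (hmom : ∑ q ∈ F, ∑ r ∈ F, u q * u r * unitMeasure.real (A γ (ψ q) q ∩ A γ (ψ r) r)
      ≤ K * ((∑ q ∈ F, u q * ψ q) ^ 2 + ∑ q ∈ F, u q * ψ q))
    {B : Set ℝ} (hB : MeasurableSet B) {τ : ℝ} (hτ : 0 < τ) :
    wb γ u ψ F B ≤ τ * K + unitMeasure.real B / τ := by
  unfold wb
  set S := ∑ q ∈ F, u q * ψ q with hS'
  have hS0 : 0 < S := zero_lt_one.trans_le hS
  have h := two_mul_wsum_le γ u ψ F hB (div_pos hτ hS0)
  have h2 : τ / S * (∑ q ∈ F, ∑ r ∈ F, u q * u r * unitMeasure.real (A γ (ψ q) q ∩ A γ (ψ r) r))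
      ≤ τ / S * (K * (2 * S ^ 2)) := by
    refine mul_le_mul_of_nonneg_left (hmom.trans (mul_le_mul_of_nonneg_left ?_ hK)) (by positivity)
    nlinarith
  have e1 : τ / S * (K * (2 * S ^ 2)) = 2 * (τ * K) * S := by field_simp
  have e2 : unitMeasure.real B / (τ / S) = unitMeasure.real B / τ * S := by field_simp
  rw [div_le_iff₀ (by linarith)]
  have h3 : 0 ≤ unitMeasure.real B / τ * S :=
    mul_nonneg (div_nonneg measureReal_nonneg hτ.le) hS0.le
  nlinarith [mul_nonneg (mul_nonneg hτ.le hK) hS0.le]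

lemma wb_union (γ : ℝ) (u ψ : ℕ → ℝ) (F : Finset ℕ) {B B' : Set ℝ} (hB' : MeasurableSet B')
    (hd : Disjoint B B') : wb γ u ψ F (B ∪ B') = wb γ u ψ F B + wb γ u ψ F B' := by
  unfold wb
  rw [← add_div, ← sum_add_distrib]
  congr 1
  refine sum_congr rfl fun q _ => ?_
  rw [← mul_add, Set.union_inter_distrib_right]
  congr 1
  exact measureReal_union (hd.mono Set.inter_subset_left Set.inter_subset_left)
    (hB'.inter (measurableSet_A _ _ q)) (measure_ne_top _ _) (measure_ne_top _ _)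

lemma wb_empty (γ : ℝ) (u ψ : ℕ → ℝ) (F : Finset ℕ) : wb γ u ψ F ∅ = 0 := by
  unfold wb
  simp

/-- Blocks with bounded weighted second moment give full measure. -/
theorem unit_null_of_weighted_blocks {γ K : ℝ} (hK : 0 ≤ K) {ψ : ℕ → ℝ} (h0 : ∀ q, 0 ≤ ψ q)
    {u : ℕ → ℝ} (hu : ∀ q, 0 ≤ u q)
    (F : ℕ → Finset ℕ) (hFq : ∀ n, ∀ q ∈ F n, 0 < q ∧ ψ q ≤ 1 / 2 ∧ n < q)
    (hFS : ∀ n, 1 ≤ ∑ q ∈ F n, u q * ψ q)
    (hmom : ∀ n, ∑ q ∈ F n, ∑ r ∈ F n,
        u q * u r * unitMeasure.real (A γ (ψ q) q ∩ A γ (ψ r) r)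
      ≤ K * ((∑ q ∈ F n, u q * ψ q) ^ 2 + ∑ q ∈ F n, u q * ψ q)) :
    unitMeasure.real (⋂ n : ℕ, ⋃ q ∈ {q : ℕ | n < q}, A γ (ψ q) q)ᶜ = 0 := by
  set U : ℕ → Set ℝ := fun n => ⋃ q ∈ {q : ℕ | n < q}, A γ (ψ q) q with hU
  have hbound : ∀ n, ∀ B : Set ℝ, MeasurableSet B → ∀ τ : ℝ, 0 < τ →
      wb γ u ψ (F n) B ≤ τ * K + unitMeasure.real B / τ := fun n B hB τ hτ =>
    wb_le hu (hFS n) hK (hmom n) hB hτ
  -- intervals
  have hint : ∀ (t : ℝ) (B : Set ℝ), 0 ≤ t → MeasurableSet B →
      B ∩ Set.Ico 0 1 = Set.Ico 0 t →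
      Tendsto (fun n => wb γ u ψ (F n) B) atTop (𝓝 (unitMeasure.real B)) := by
    intro t B ht hB hBt
    have hμB : unitMeasure.real B = t := by
      rw [unit_real_apply hB, hBt, Real.volume_real_Ico_of_le ht, sub_zero]
    rw [hμB]
    refine tendsto_iff_norm_sub_tendsto_zero.2 (squeeze_zero (fun n => norm_nonneg _) (fun n => ?_)
      (tendsto_const_div_atTop_nhds_zero_nat (2 : ℝ) |>.comp (tendsto_add_atTop_nat 1)))
    have hS0 : 0 < ∑ q ∈ F n, u q * ψ q := zero_lt_one.trans_le (hFS n)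
    rw [Real.norm_eq_abs, wb, div_sub' (by linarith), abs_div,
      abs_of_pos (by linarith : 0 < 2 * ∑ q ∈ F n, u q * ψ q), div_le_iff₀ (by linarith)]
    have key : ∀ q ∈ F n, |u q * unitMeasure.real (B ∩ A γ (ψ q) q) - 2 * (u q * ψ q) * t|
        ≤ 4 * (u q * ψ q) / ((n + 1 : ℕ) : ℝ) := by
      intro q hq
      obtain ⟨hq0, hq2, hqn⟩ := hFq n q hq
      have e : u q * unitMeasure.real (B ∩ A γ (ψ q) q) - 2 * (u q * ψ q) * t
          = u q * (unitMeasure.real (B ∩ A γ (ψ q) q) - 2 * ψ q * t) := by ring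
      rw [e, abs_mul, abs_of_nonneg (hu q),
        show 4 * (u q * ψ q) / ((n + 1 : ℕ) : ℝ) = u q * (4 * ψ q / ((n + 1 : ℕ) : ℝ)) by ring]
      refine mul_le_mul_of_nonneg_left ?_ (hu q)
      rw [unit_real_apply (hB.inter (measurableSet_A _ _ q)), Set.inter_comm B, Set.inter_assoc, hBt]
      refine (abs_measure_A_inter_sub_le hq0 (h0 q) hq2 ht).trans ?_
      exact div_le_div_of_nonneg_left (by linarith [h0 q]) (Nat.cast_pos.2 (Nat.succ_pos n))
        (Nat.cast_le.2 hqn)
    calc |∑ q ∈ F n, u q * unitMeasure.real (B ∩ A γ (ψ q) q) - 2 * (∑ q ∈ F n, u q * ψ q) * t|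
        = |∑ q ∈ F n, (u q * unitMeasure.real (B ∩ A γ (ψ q) q) - 2 * (u q * ψ q) * t)| := by
          rw [sum_sub_distrib, ← sum_mul, ← mul_sum]
      _ ≤ ∑ q ∈ F n, |u q * unitMeasure.real (B ∩ A γ (ψ q) q) - 2 * (u q * ψ q) * t| :=
          abs_sum_le_sum_abs _ _
      _ ≤ ∑ q ∈ F n, 4 * (u q * ψ q) / ((n + 1 : ℕ) : ℝ) := sum_le_sum key
      _ = (2 / ((n + 1 : ℕ) : ℝ)) * (2 * ∑ q ∈ F n, u q * ψ q) := by
          rw [mul_sum, mul_sum]; exact sum_congr rfl fun q _ => by ring
  have huniv : Tendsto (fun n => wb γ u ψ (F n) Set.univ) atTop (𝓝 (unitMeasure.real Set.univ)) :=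
    hint 1 _ zero_le_one MeasurableSet.univ (Set.univ_inter _)
  have hall : ∀ B : Set ℝ, MeasurableSet B →
      Tendsto (fun n => wb γ u ψ (F n) B) atTop (𝓝 (unitMeasure.real B)) := by
    refine MeasurableSpace.induction_on_inter
      (C := fun B _ => Tendsto (fun n => wb γ u ψ (F n) B) atTop (𝓝 (unitMeasure.real B)))
      (borel_eq_generateFrom_Iio ℝ) (fun s ⟨x, hx⟩ t ⟨y, hy⟩ _ => ?_) ?_ ?_ ?_ ?_
    · exact ⟨min x y, by rw [← hx, ← hy, Set.Iio_inter_Iio]⟩
    · simp only [wb_empty, measureReal_empty]; exact tendsto_const_nhds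
    · rintro s ⟨x, rfl⟩
      refine hint (max 0 (min x 1)) _ (le_max_left _ _) measurableSet_Iio ?_
      ext y
      simp only [Set.mem_inter_iff, Set.mem_Iio, Set.mem_Ico, lt_max_iff, lt_min_iff]
      constructor
      · rintro ⟨h1, h2, h3⟩; exact ⟨h2, Or.inr ⟨h1, h3⟩⟩
      · rintro ⟨h1, h2 | ⟨h2, h3⟩⟩
        · linarith
        · exact ⟨h2, h1, h3⟩
    · intro s hs ih
      have e : ∀ n, wb γ u ψ (F n) sᶜ = wb γ u ψ (F n) Set.univ - wb γ u ψ (F n) s := fun n => by
        have := wb_union γ u ψ (F n) hs.compl disjoint_compl_right (B := s)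
        rw [Set.union_compl_self] at this
        linarith
      simp only [e]
      rw [measureReal_compl hs]
      exact huniv.sub ih
    · intro f hdisj hf ih
      rw [Metric.tendsto_atTop]
      intro ε hε
      set R : ℕ → Set ℝ := fun m => ⋃ j ∈ {j : ℕ | m ≤ j}, f j with hR
      have hRm : ∀ m, MeasurableSet (R m) := fun m =>
        MeasurableSet.biUnion (Set.to_countable _) fun j _ => hf j
      have hanti : Antitone R := fun a b hab => Set.biUnion_mono
        (fun j (hj : b ≤ j) => le_trans hab hj) fun j _ => subset_rfl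
      have hempty : ⋂ m, R m = ∅ := by
        refine Set.eq_empty_of_forall_notMem fun x hx => ?_
        rw [Set.mem_iInter] at hx
        obtain ⟨j, -, hj⟩ := Set.mem_iUnion₂.1 (hx 0)
        obtain ⟨j', hj'le, hj'⟩ := Set.mem_iUnion₂.1 (hx (j + 1))
        have hne : j ≠ j' := by
          have : j + 1 ≤ j' := hj'le
          omega
        exact Set.disjoint_left.1 (hdisj hne) hj hj'
      have hlim : Tendsto (fun m => unitMeasure.real (R m)) atTop (𝓝 0) := by
        have h1 := tendsto_measure_iInter_atTop (μ := unitMeasure)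
          (fun m => (hRm m).nullMeasurableSet) hanti ⟨0, measure_ne_top _ _⟩
        rw [hempty, measure_empty] at h1
        have h2 := (ENNReal.tendsto_toReal ENNReal.zero_ne_top).comp h1
        simpa [measureReal_def, Function.comp_def] using h2
      set τ := ε / (4 * (K + 1)) with hτ
      have hτ0 : 0 < τ := by positivity
      obtain ⟨m, hm⟩ := (hlim.eventually (eventually_lt_nhds
        (show (0 : ℝ) < min (ε / 4) (ε * τ / 4) by positivity))).exists
      set P := ⋃ j ∈ range m, f j with hP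
      have hun : (⋃ j, f j) = P ∪ R m := by
        ext x
        simp only [hP, hR, Set.mem_iUnion, Set.mem_union, Finset.mem_range, Set.mem_setOf_eq]
        constructor
        · rintro ⟨j, hj⟩
          rcases lt_or_ge j m with h | h
          · exact Or.inl ⟨j, h, hj⟩
          · exact Or.inr ⟨j, h, hj⟩
        · rintro (⟨j, -, hj⟩ | ⟨j, -, hj⟩) <;> exact ⟨j, hj⟩
      have hdis : Disjoint P (R m) := by
        rw [Set.disjoint_left]
        intro x hx hx'
        obtain ⟨i, hi, hxi⟩ := Set.mem_iUnion₂.1 hx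
        obtain ⟨j, hj, hxj⟩ := Set.mem_iUnion₂.1 hx'
        have hij : i ≠ j := by
          have h1 := Finset.mem_range.1 hi
          have h2 : m ≤ j := hj
          omega
        exact Set.disjoint_left.1 (hdisj hij) hxi hxj
      have hPsum : ∀ n, wb γ u ψ (F n) P = ∑ j ∈ range m, wb γ u ψ (F n) (f j) := by
        intro n
        simp only [wb, ← sum_div, hP, Set.iUnion_inter]
        congr 1
        rw [sum_comm]
        refine sum_congr rfl fun q _ => ?_
        rw [← mul_sum]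
        congr 1
        exact measureReal_biUnion_finset (fun i _ j _ hij =>
          (hdisj hij).mono Set.inter_subset_left Set.inter_subset_left)
          (fun j _ => (hf j).inter (measurableSet_A _ _ q))
      have hμP : unitMeasure.real P = ∑ j ∈ range m, unitMeasure.real (f j) :=
        measureReal_biUnion_finset (fun i _ j _ hij => hdisj hij) (fun j _ => hf j)
      have hμ : unitMeasure.real (⋃ j, f j) = unitMeasure.real P + unitMeasure.real (R m) := by
        rw [hun, measureReal_union hdis (hRm m) (measure_ne_top _ _) (measure_ne_top _ _)]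
      obtain ⟨n₀, hn₀⟩ := Metric.tendsto_atTop.1
        (tendsto_finset_sum (range m) fun j _ => ih j) (ε / 4) (by positivity)
      refine ⟨n₀, fun n hn => ?_⟩
      have h1 := hn₀ n hn
      rw [Real.dist_eq, ← hPsum n, ← hμP, abs_lt] at h1
      have h2 := hbound n _ (hRm m) τ hτ0
      have h3 := wb_nonneg hu (γ := γ) h0 (F n) (R m)
      have h4 : (0 : ℝ) ≤ unitMeasure.real (R m) := measureReal_nonneg
      have h5 : τ * K ≤ ε / 4 := by
        rw [hτ, div_mul_eq_mul_div, div_le_iff₀ (by positivity)]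
        nlinarith
      have h6 : unitMeasure.real (R m) / τ < ε / 4 := by
        rw [div_lt_iff₀ hτ0]
        calc unitMeasure.real (R m) < min (ε / 4) (ε * τ / 4) := hm
          _ ≤ ε * τ / 4 := min_le_right _ _
          _ = _ := by ring
      have h7 : unitMeasure.real (R m) < ε / 4 := hm.trans_le (min_le_left _ _)
      rw [Real.dist_eq, hμ, abs_lt]
      rw [hun, wb_union γ u ψ (F n) (hRm m) hdis]
      constructor <;> linarith
  -- the bad set
  have hUm : ∀ n, MeasurableSet (U n) := fun n =>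
    MeasurableSet.biUnion (Set.to_countable _) fun q _ => measurableSet_A _ _ q
  set B := (⋂ n, U n)ᶜ with hBdef
  have hBm : MeasurableSet B := (MeasurableSet.iInter hUm).compl
  have hanti : Antitone fun n => B ∩ U n := fun a b hab => Set.inter_subset_inter_right _
    (Set.biUnion_mono (fun j (hj : b < j) => lt_of_le_of_lt hab hj) fun j _ => subset_rfl)
  have hlim : Tendsto (fun n => unitMeasure.real (B ∩ U n)) atTop (𝓝 0) := by
    have h1 := tendsto_measure_iInter_atTop (μ := unitMeasure)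
      (fun n => (hBm.inter (hUm n)).nullMeasurableSet) hanti ⟨0, measure_ne_top _ _⟩
    have hB0 : ⋂ n, B ∩ U n = ∅ := by rw [← Set.inter_iInter, hBdef, Set.compl_inter_self]
    rw [hB0, measure_empty] at h1
    have h2 := (ENNReal.tendsto_toReal ENNReal.zero_ne_top).comp h1
    simpa [measureReal_def, Function.comp_def] using h2
  have hle : ∀ τ : ℝ, 0 < τ → unitMeasure.real B ≤ τ * K := by
    intro τ hτ
    have h1 : Tendsto (fun n => τ * K + unitMeasure.real (B ∩ U n) / τ) atTop (𝓝 (τ * K)) := by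
      have := (tendsto_const_nhds (x := τ * K)).add (hlim.div_const τ)
      simpa using this
    refine le_of_tendsto_of_tendsto (hall B hBm) h1 (Eventually.of_forall fun n => ?_)
    calc wb γ u ψ (F n) B = wb γ u ψ (F n) (B ∩ U n) := by
          unfold wb
          congr 1
          refine sum_congr rfl fun q hq => ?_
          congr 2
          ext x
          simp only [Set.mem_inter_iff]
          constructor
          · rintro ⟨h1, h2⟩
            exact ⟨⟨h1, Set.mem_biUnion (show n < q from (hFq n q hq).2.2) h2⟩, h2⟩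
          · rintro ⟨⟨h1, -⟩, h2⟩; exact ⟨h1, h2⟩
      _ ≤ _ := hbound n _ (hBm.inter (hUm n)) τ hτ
  refine le_antisymm (le_of_forall_pos_le_add fun ε hε => ?_) measureReal_nonneg
  have hK1 : (0 : ℝ) < K + 1 := by linarith
  refine (hle (ε / (K + 1)) (div_pos hε hK1)).trans ?_
  rw [zero_add, div_mul_eq_mul_div, div_le_iff₀ hK1]
  nlinarith

end

end Vale.Agent.P028.LogExtra
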